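import Vale.Agent.P216.H977C.MainC
import Vale.Agent.P216.H894.SignOut

/-!
# P216-D, block OMEGA: the classes of the based loops, relative to a class of fields

`Kf : Fld` is a class of fields (`k = ZMod p`, `p ∈ Q`). Inputs per field: THOM (`ThomK`), LOW
(`LowK`), MID (`MidK`); the constants do not depend on the field.
-/

open Finsupp Set BoundedContinuousFunction

namespace Vale.Agent.P216.H977C

open Vale.Agent.P216.Sl Vale.Agent.P216.PS Vale.Agent.P216.N929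
open Vale.Agent.P216.H754B (rv)
open Vale.Agent.P216.B64 (HU hres hpull UMap OmegaOutC OmegaSignC RevP)

/-- A class of fields. -/
abbrev Fld : Type 1 := ∀ (k : Type) [Field k], Prop

/-- **[THOM]** for the fields of a class. -/
def ThomK (Kf : Fld) (M : Type) [MetricSpace M] (n : ℕ) : Prop :=
  ∀ (k : Type) [Field k], Kf k → ∀ ρ₁ > 0, ∃ τ : Tau k M n ρ₁,
    ∀ y : M, ¬ ExL (univ : Set M) n fun l => τ.f (l.map fun x => (x, y))

/-- **[LOW]** for the fields of a class: the cohomology of the based loops in degrees `≤ q`. -/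
def LowK (Kf : Fld) (M : Type) [MetricSpace M] (q : ℕ) (B0 : ℝ) : Prop :=
  ∀ (k : Type) [Field k], Kf k → (∀ i, 0 < i → i ≤ q → LowL k M B0 i) ∧
    ∀ i, 0 < i → i < q → LowZ k M B0 i

/-- **[MID]** for the fields of a class: `W_1 ≠ 0` at a duration `s` independent of the field. -/
def MidK (Kf : Fld) (M : Type) [MetricSpace M] [CompactSpace M] (n e D : ℕ) : Prop :=
  ∃ (G : Geo M n) (s : ℝ), 0 ≤ s ∧ ∀ (k : Type) [Field k], Kf k → ∀ τ : Tau k M n G.ρ₁,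
    (∀ y : M, ¬ ExL (univ : Set M) n fun l => τ.f (l.map fun x => (x, y))) →
      ∃ E : Eta k M e, AddE E.f ∧ Mid (D := D) G τ E s

section

variable {k : Type} [Field k] {M : Type} [MetricSpace M] [CompactSpace M] {n e D : ℕ}
  (G : Geo M n) (τ : Tau k M n G.ρ₁) (E : Eta k M e) (hD : D + 1 = n + e)

/-- The signs of the reversal, for `omegaOutC`. -/
theorem omegaSignK (hE : AddE E.f) (he : 1 ≤ e) (hen : e + 1 < n) (hn : Even n)
    (hDe : Even D) {Ca s : ℝ} {ℓ : ℕ} (hs : 0 ≤ s) (hC : 1 + ℓ + s ≤ Ca)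
    (hv : ∀ b, ∃ v : ℝ →ᵇ M, v ∈ P (G.y (!b)) (G.y b) ℓ) (hmid : Mid (D := D) G τ E s)
    {ρ r₀ εt Dp B0 : ℝ} (h : LS.UniqSeg M ρ) (hr : 0 < G.r) (hrρ : G.r < ρ) (hr0 : r₀ < G.r)
    (hεt : 0 < εt) (htau : IsTau n r₀ εt τ.f) (hDp : IsPi M Dp) (hCa : 0 ≤ Ca) (hn2 : 2 ≤ n)
    (hN : D + 1 = n + e) (hq : 1 ≤ e) (hB0 : 0 ≤ B0)
    (hL : ∀ i, 0 < i → i ≤ e → LowL k M B0 i) (hZ : ∀ i, 0 < i → i < e → LowZ k M B0 i) :
    OmegaSignC ((omSysC G τ E hD hE he hen hs hC hv hmid).omegaOutC h hr hrρ hr0 hεt htau hDp hCa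
      hn2 hN hq hB0 hL hZ) := by
  set O := (omSysC G τ E hD hE he hen hs hC hv hmid).omegaOutC h hr hrρ hr0 hεt htau hDp hCa hn2
      hN hq hB0 hL hZ with hO
  have hDp0 := hDp.nonneg
  have hB : 0 ≤ OmSysC.BC G.r Ca Dp B0 := by
    unfold OmSysC.BC
    linarith
  have hz : ∀ t, 0 ≤ t → ∀ (h : P G.x₀ G.x₀ t ⊆ P G.x₀ G.x₀ (t + OmSysC.BC G.r Ca Dp B0))
      (z : HU k (P G.x₀ G.x₀ (t + OmSysC.BC G.r Ca Dp B0)) (n - 1)),
      hres k h (n - 1) z = 0 := by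
    refine O.zero (n - 1) (fun j => ?_) fun j => ?_
    · rcases j with _ | j
      · omega
      · have : D ≤ (j + 1) * D := Nat.le_mul_of_pos_left D (Nat.succ_pos j)
        omega
    · rcases j with _ | j
      · omega
      · have : D ≤ (j + 1) * D := Nat.le_mul_of_pos_left D (Nat.succ_pos j)
        omega
  have hexT : ∀ b, H285.ExT G τ E hD b := fun b => H285.exT_of G τ E hD b hB hz
  refine H894.signC G τ E hD hE he hen hn hDe
    (s := ⌈2 * Dp + ((1 : ℕ) : ℝ) * (1 + ℓ + s) + 1⌉₊)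
    (fun b hex => ?_) (fun b => H285.exL_W1 G τ E hD hE b (hexT b) _)
    (fun T => H285.exL_E E G.x₀ hE he T) hB O (fun j T => ?_) fun j T => ?_
  · refine Sg.W_loop_ne G τ E hD hE he hen hs hDp0 hv (fun b => ?_) (fun b => ?_) hmid 1 b
      (Nat.le_ceil _) ?_
    · exact hDp.ne _ _
    · exact hDp.ne _ _
    · rw [Nat.one_mul]
      exact hex
  · exact H894.cls_eq_of (hf := tf_coc hDp G.x₀ (G.y false) (W G τ E hD false j)
      (W_cocL G τ E hD false j) T) fun l hl hs => H894.W_tf G τ E hD hDp false j T hl hs.1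
  · exact H894.cls_eq_of (hf := tf_coc hDp G.x₀ (G.y false) (A G τ E hD false j)
      (A_cocL G τ E hD false j) T) fun l hl hs => H894.A_tf G τ E hD hE he hDp false j T hl hs.1

end

/-- **OMEGA for a class of fields**, with the signs of the reversal: THOM, LOW and MID give the
classes of the based loops, with one constant for all fields of the class. -/
theorem omegaK {Kf : Fld} {M : Type} [MetricSpace M] [CompactSpace M] [SimplyConnectedSpace M]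
    {n e D : ℕ} (he : 1 ≤ e) (hen : e + 1 < n) (hD : D + 1 = n + e) (hn : Even n) (hDe : Even D)
    {B0 : ℝ} (hT : ThomK Kf M n) (hB0 : 0 ≤ B0) (hL : LowK Kf M e B0) (hM : MidK Kf M n e D) :
    ∃ (x₀ : M) (B : ℝ), 0 < B ∧ ∀ (k : Type) [Field k], Kf k →
      ∃ O : OmegaOutC M e D x₀ B k, OmegaSignC O := by
  obtain ⟨G, s, hs, H⟩ := hM
  obtain ⟨Dp, hDp, hne, hj⟩ := H250.pi0 (G.hr.trans G.hrρ) G.seg
  have hCa : 1 + (⌈Dp⌉₊ : ℝ) + s ≤ 1 + ⌈Dp⌉₊ + s := le_rfl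
  have hCa0 : (0 : ℝ) ≤ 1 + ⌈Dp⌉₊ + s := by positivity
  refine ⟨G.x₀, OmSysC.BC G.r (1 + ⌈Dp⌉₊ + s) Dp B0, ?_, fun k _ hk => ?_⟩
  · have := G.hr
    unfold OmSysC.BC
    linarith
  · obtain ⟨τ, hτ⟩ := hT k hk G.ρ₁ G.h1
    obtain ⟨E, hE, hmid⟩ := H k hk τ hτ
    have hv : ∀ b, ∃ v : ℝ →ᵇ M, v ∈ P (G.y (!b)) (G.y b) ⌈Dp⌉₊ := fun b => by
      obtain ⟨v, hv⟩ := hne (G.y (!b)) (G.y b)
      exact ⟨v, P_mono (Nat.le_ceil Dp) hv⟩
    exact ⟨_, omegaSignK G τ E hD hE he hen hn hDe hs hCa hv hmid (r₀ := G.ρ₁) (εt := τ.ε)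
      (Dp := Dp) G.seg G.hr G.hrρ G.h1r τ.hε ⟨τ.nrm, τ.coc, fun l _ _ h => τ.supp l h⟩
      ⟨hDp, hne, hj⟩ hCa0 (by omega) hD he hB0 (hL k hk).1 (hL k hk).2⟩

end Vale.Agent.P216.H977C
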