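import Vale.Agent.P216.H977C.E2
import Vale.Agent.P216.H140.MidDefs

/-!
# P216-C: the class `eta` from a cocycle `ξ` of degree `d` on `M` (`EtaOut` of 140)

`eta` = fibre integral over `[0, ∞)` of `ξ(w σ)`, mesh `1 / (N + 1)`.
-/

open Finsupp Set BoundedContinuousFunction

namespace Vale.Agent.P216.H977C

open Vale.Agent.P216.Sl Vale.Agent.P216.PS Vale.Agent.P216.N929
open Vale.Agent.P216.H140 (eta evw)
open Vale.Agent.P216.H456 (PF)
open Vale.Agent.P216.MV337 (evz)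

section

variable {k : Type} [Field k] {M : Type} [MetricSpace M]

/-- A normalised function vanishes on the constant lists. -/
theorem Nrm_const {α : Type} {ξ : List α → k} (hξ : Nrm ξ) {l : List α} (hl : 2 ≤ l.length)
    {a : α} (h : ∀ x ∈ l, x = a) : ξ l = 0 := by
  refine Nrm_zero hξ ?_
  rw [List.eq_replicate_of_mem h]
  have h4 : ∀ N, chg (List.replicate N a) = 0 := by
    intro N
    induction N with
    | zero => simp
    | succ N ih =>
      rcases N with _ | N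
      · simp
      · rw [List.replicate_succ, List.replicate_succ, chg_eq, ← List.replicate_succ, ih]
  rw [h4, List.length_replicate]
  omega

theorem nrm_fib' {α β : Type} {F : List (α × β) → k} (hF : Nrm F) (c : Ch k β) :
    Nrm (N929.fib c F) := by
  intro s hs
  have := lin_ext_apply (f := ev F ∘ₗ (sh (k := k) (α := α) (β := β)) (single s 1)) (g := 0)
    (fun t => by
      rw [LinearMap.comp_apply, sh_single, LinearMap.zero_apply]
      exact ev_zero_of (fun l hl => hF l hl) (Sh_dup_left _ s t rfl hs)) c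
  simpa [N929.fib] using this

theorem eta_nrm (N : ℕ) {ξ : List M → k} (hξ : Nrm ξ) : Nrm (eta N ξ) := by
  intro l hl
  have h2 : ∀ j : ℕ, N929.fib (edge k (1 / ((N : ℝ) + 1)) j) (fun L => ξ (L.map evw)) l = 0 :=
    fun j => nrm_fib' (hξ.map evw) _ l hl
  rw [eta, fibI, finsum_eq_zero_of_forall_eq_zero h2]

theorem edge_mem' (δ : ℝ) (i : ℕ) :
    edge k δ i ∈ Sp k (fun t => t = [(i : ℝ) * δ, ((i + 1 : ℕ) : ℝ) * δ]) :=
  single_mem (P := fun t => t = [(i : ℝ) * δ, ((i + 1 : ℕ) : ℝ) * δ]) rfl 1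

theorem gr_times {α : Type} {δ : ℝ} (hδ : 0 < δ) {l : List α} {i : ℕ} {L : List (α × ℝ)}
    (hL : Gr l [(i : ℝ) * δ, ((i + 1 : ℕ) : ℝ) * δ] L) {p : α × ℝ} (hp : p ∈ L) :
    p.1 ∈ l ∧ (i : ℝ) * δ ≤ p.2 ∧ p.2 ≤ ((i + 1 : ℕ) : ℝ) * δ := by
  refine ⟨(hL.2 p hp).1, ?_⟩
  have := (hL.2 p hp).2
  have h2 : (i : ℝ) * δ ≤ ((i + 1 : ℕ) : ℝ) * δ := by push_cast; nlinarith
  simp only [List.mem_cons, List.not_mem_nil, or_false] at this
  rcases this with h | h <;> rw [h]
  · exact ⟨le_rfl, h2⟩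
  · exact ⟨h2, le_rfl⟩

/-- Edges on which the values do not depend on the path do not contribute. -/
theorem fib_edge_const {δ : ℝ} {i : ℕ} {F : List (ℝ →ᵇ M)} {ξ : List M → k} (hξ : Nrm ξ)
    (hF : 2 ≤ F.length) {c : ℝ → M}
    (h : ∀ w ∈ F, ∀ u : ℝ, (u = (i : ℝ) * δ ∨ u = ((i + 1 : ℕ) : ℝ) * δ) → w u = c u) :
    N929.fib (edge k δ i) (fun L => ξ (L.map evw)) F = 0 := by
  rw [N929.fib]
  refine ev_zero_of (fun L hL => ?_) (sh_chg_mem (k := k) (fun _ : ℝ →ᵇ M => ()) F (edge_mem' δ i))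
  obtain ⟨t, rfl, hG, hch⟩ := hL
  refine Nrm_zero hξ ?_
  have e1 : L.map evw = (L.map (Prod.map (fun _ : ℝ →ᵇ M => ()) id)).map
      fun q : Unit × ℝ => c q.2 := by
    rw [List.map_map]
    refine List.map_congr_left fun p hp => ?_
    have := (hG.2 p hp).2
    simp only [List.mem_cons, List.not_mem_nil, or_false] at this
    exact h p.1 (hG.2 p hp).1 p.2 this
  have h5 : chg (F.map fun _ : ℝ →ᵇ M => ()) = 0 := by
    have : ∀ n, chg (List.replicate n ()) = 0 := by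
      intro n
      induction n with
      | zero => simp
      | succ n ih =>
        rcases n with _ | n
        · simp
        · rw [List.replicate_succ, List.replicate_succ, chg_eq, ← List.replicate_succ, ih]
    rw [List.map_const', this]
  have h6 := chg_le_length [(i : ℝ) * δ, ((i + 1 : ℕ) : ℝ) * δ]
  have h7 := chg_map (fun q : Unit × ℝ => c q.2) (L.map (Prod.map (fun _ : ℝ →ᵇ M => ()) id))
  have h8 := hG.1
  simp only [List.length_cons, List.length_nil] at h6 h8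
  rw [e1, List.length_map, List.length_map]
  omega

/-- Times after the end do not contribute. -/
theorem eta_eq (N : ℕ) {ξ : List M → k} (hξ : Nrm ξ) {b : M} {T : ℝ} {N' : ℕ}
    (hN : T ≤ N' * (1 / ((N : ℝ) + 1))) {l : List (ℝ →ᵇ M)} (hl : l ≠ [])
    (h : ∀ w ∈ l, ∀ u, T ≤ u → w u = b) :
    eta N ξ l = N929.fib (mesh k (1 / ((N : ℝ) + 1)) N') (fun L => ξ (L.map evw)) l := by
  have hδ0 : (0 : ℝ) < 1 / ((N : ℝ) + 1) := by positivity
  refine fibI_eq fun j hj => ?_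
  refine fib_eq_zero (edge_mem' _ j) ?_
  rintro t rfl L hL
  have hlen := hL.1
  have hpos := List.length_pos_iff.2 hl
  simp only [List.length_cons, List.length_nil] at hlen
  refine Nrm_const hξ (a := b) (by rw [List.length_map]; omega) fun x hx => ?_
  obtain ⟨p, hp, rfl⟩ := List.mem_map.1 hx
  obtain ⟨h1, h2, h3⟩ := gr_times hδ0 hL hp
  have hT : T ≤ p.2 := by
    have hjN : (N' : ℝ) * (1 / ((N : ℝ) + 1)) ≤ j * (1 / ((N : ℝ) + 1)) :=
      mul_le_mul_of_nonneg_right (by exact_mod_cast hj) hδ0.le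
    linarith
  exact h p.1 h1 p.2 hT

/-- The lists of the grid are small on `M`. -/
theorem grid_small {δ ε : ℝ} (hδ : 0 < δ) (hδε : δ < ε) {l : List (ℝ →ᵇ M)}
    (hL : ∀ w ∈ l, Lip (w : ℝ → M)) (hf : ∀ w ∈ l, ∀ w' ∈ l, dist w w' < ε) {i : ℕ}
    {L : List ((ℝ →ᵇ M) × ℝ)} (hG : Gr l [(i : ℝ) * δ, ((i + 1 : ℕ) : ℝ) * δ] L) {p q}
    (hp : p ∈ L) (hq : q ∈ L) : dist (evw p) (evw q) < 2 * ε := by
  obtain ⟨h1, h2, h3⟩ := gr_times hδ hG hp
  obtain ⟨g1, g2, g3⟩ := gr_times hδ hG hq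
  have h4 : dist (p.1 p.2) (q.1 q.2) ≤ dist p.1 q.1 + |p.2 - q.2| := by
    have a1 := hL p.1 h1 p.2 q.2
    have a2 := BoundedContinuousFunction.dist_coe_le_dist (f := p.1) (g := q.1) q.2
    linarith [dist_triangle (p.1 p.2) (p.1 q.2) (q.1 q.2)]
  have h5 := hf p.1 h1 q.1 g1
  have h6 : |p.2 - q.2| ≤ δ := by
    push_cast at h3 g3
    rw [abs_le]
    constructor <;> nlinarith
  change dist (p.1 p.2) (q.1 q.2) < 2 * ε
  linarith

/-- The coboundary of `eta` on the paths with free start. -/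
theorem dl_eta (N : ℕ) {ξ : List M → k} (hξ : Nrm ξ) {e : ℕ} {εξ ε : ℝ}
    (hc : Coc (univ : Set M) εξ (e + 1) ξ) (h2 : 2 * ε ≤ εξ)
    (hN : 1 / ((N : ℝ) + 1) < ε) {b : M} {T : ℝ} {l : List (ℝ →ᵇ M)} (hl : l.length = e + 2)
    (hf : Fine (PF b T) ε l) : dl (eta N ξ) l = (-1) ^ (e + 1) * ξ (l.map evz) := by
  have hδ0 : (0 : ℝ) < 1 / ((N : ℝ) + 1) := by positivity
  obtain ⟨N', hN'⟩ := exists_nat_gt (T / (1 / ((N : ℝ) + 1)))
  have hN'' : T ≤ N' * (1 / ((N : ℝ) + 1)) := by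
    rw [div_lt_iff₀ hδ0] at hN'
    exact hN'.le
  have hne : l ≠ [] := by rintro rfl; simp at hl
  rw [N929.dl_congr (g := N929.fib (mesh k (1 / ((N : ℝ) + 1)) N') fun L => ξ (L.map evw))
    (fun l' h1 h2 => eta_eq N hξ hN'' (by rintro rfl; simp at h1; omega)
      fun w hw => (hf.1 w (h2 w hw)).2.2)]
  rw [N929.dl_fib (mesh_Ln _ N') _ hne, N929.bd_mesh, map_sub, map_sub, ev_sh_point _ hne,
    ev_sh_point _ hne]
  have e1 : N929.fib (mesh k (1 / ((N : ℝ) + 1)) N') (dl fun L => ξ (L.map evw)) l = 0 := by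
    refine fib_eq_zero (mesh_mem _ N') fun t ht L hL => ?_
    obtain ⟨j, _, rfl⟩ := ht
    have hLl : L.length = e + 1 + 2 := by
      have := hL.1
      simp only [List.length_cons, List.length_nil] at this
      omega
    rw [N929.dl_map ξ evw]
    refine hc _ (by rw [List.length_map, hLl]) ⟨fun _ _ => mem_univ _, ?_⟩
    intro x hx y hy
    obtain ⟨p, hp, rfl⟩ := List.mem_map.1 hx
    obtain ⟨q, hq, rfl⟩ := List.mem_map.1 hy
    exact (grid_small hδ0 hN (fun w hw => (hf.1 w hw).1) hf.2 hL hp hq).trans_le h2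
  have e2 : ξ ((l.map fun a => (a, (N' : ℝ) * (1 / ((N : ℝ) + 1)))).map evw) = 0 := by
    refine Nrm_const hξ (a := b) (by rw [List.length_map, List.length_map]; omega) fun x hx => ?_
    obtain ⟨p, hp, rfl⟩ := List.mem_map.1 hx
    obtain ⟨w, hw, rfl⟩ := List.mem_map.1 hp
    exact (hf.1 w hw).2.2 _ hN''
  have e3 : (l.map fun a => (a, (0 : ℝ))).map evw = l.map evz := by
    rw [List.map_map]
    rfl
  rw [e1, e2, e3, hl, pow_succ]
  ring

theorem eta_coc (N : ℕ) {ξ : List M → k} (hξ : Nrm ξ) {e : ℕ} {εξ ε : ℝ}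
    (hc : Coc (univ : Set M) εξ (e + 1) ξ) (h2 : 2 * ε ≤ εξ)
    (hN : 1 / ((N : ℝ) + 1) < ε) (a b : M) (T : ℝ) : Coc (P a b T) ε e (eta N ξ) := by
  intro l hl hf
  have hf' : Fine (PF b T) ε l := ⟨fun w hw => H456.P_subset_PF (hf.1 w hw), hf.2⟩
  rw [dl_eta N hξ hc h2 hN hl hf', Nrm_const hξ (a := a) (by rw [List.length_map]; omega)
    (fun x hx => ?_), mul_zero]
  obtain ⟨w, hw, rfl⟩ := List.mem_map.1 hx
  exact eq_left (hf.1 w hw) le_rfl

theorem edge_shift (δ : ℝ) (c i : ℕ) (N : ℕ) (hδ : δ = 1 / ((N : ℝ) + 1)) :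
    edge k δ (c * (N + 1) + i) = mp (fun σ => (c : ℝ) + σ) (edge k δ i) := by
  have hN0 : (0 : ℝ) < (N : ℝ) + 1 := by positivity
  rw [edge, edge, mp_single, List.map_cons, List.map_cons, List.map_nil]
  congr 2
  · rw [hδ]
    push_cast
    field_simp
  · congr 1
    rw [hδ]
    push_cast
    field_simp
    ring

theorem fib_edge_shift {α : Type} (δ : ℝ) (c i : ℕ) (N : ℕ) (hδ : δ = 1 / ((N : ℝ) + 1))
    (F : List (α × ℝ) → k) (l : List α) : N929.fib (edge k δ (c * (N + 1) + i)) F l =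
      N929.fib (edge k δ i) (fun L => F (L.map (Prod.map id fun σ => (c : ℝ) + σ))) l := by
  rw [edge_shift δ c i N hδ, N929.fib, N929.fib]
  have hid : mp (id : α → α) (single l (1 : k)) = single l 1 := by
    rw [mp_single, List.map_id]
  nth_rw 1 [← hid]
  rw [sh_mp, ev_mp]

theorem int_mul_mesh (N c : ℕ) : ((c * (N + 1) : ℕ) : ℝ) * (1 / ((N : ℝ) + 1)) = c := by
  have hN0 : (0 : ℝ) < (N : ℝ) + 1 := by positivity
  push_cast
  rw [mul_one_div, mul_div_assoc, div_self hN0.ne', mul_one]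

/-- A part of duration `m` in front which does not depend on the path. -/
theorem eta_front (N : ℕ) {ξ : List M → k} (hξ : Nrm ξ) (m : ℕ) (c : ℝ → M)
    (G : (ℝ →ᵇ M) → ℝ →ᵇ M) (l : List (ℝ →ᵇ M)) (hl : 2 ≤ l.length)
    (h : ∀ w ∈ l, (∀ u : ℝ, 0 ≤ u → u ≤ m → G w u = c u) ∧
      ∀ u : ℝ, m ≤ u → G w u = w (u - m)) : eta N ξ (l.map G) = eta N ξ l := by
  rw [eta, fibI, fibI]
  set δ : ℝ := 1 / ((N : ℝ) + 1) with hδ
  have hδ0 : (0 : ℝ) < δ := by positivity
  have hz : ∀ j, j < m * (N + 1) →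
      N929.fib (edge k δ j) (fun L => ξ (L.map evw)) (l.map G) = 0 := by
    intro j hj
    refine fib_edge_const hξ (by rwa [List.length_map]) (c := c) fun w hw u hu => ?_
    obtain ⟨w₁, hw₁, rfl⟩ := List.mem_map.1 hw
    have h1 : ((j + 1 : ℕ) : ℝ) * δ ≤ m := by
      rw [← int_mul_mesh N m]
      exact mul_le_mul_of_nonneg_right (by exact_mod_cast hj) hδ0.le
    have h2 : (j : ℝ) * δ ≤ ((j + 1 : ℕ) : ℝ) * δ := by push_cast; nlinarith
    have h3 : 0 ≤ (j : ℝ) * δ := by positivity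
    rcases hu with rfl | rfl
    · exact (h w₁ hw₁).1 _ h3 (h2.trans h1)
    · exact (h w₁ hw₁).1 _ (h3.trans h2) h1
  have hs : ∀ i, N929.fib (edge k δ (m * (N + 1) + i)) (fun L => ξ (L.map evw)) (l.map G) =
      N929.fib (edge k δ i) (fun L => ξ (L.map evw)) l := by
    intro i
    rw [fib_edge_shift δ m i N hδ, N929.fib_map]
    refine fib_congr (edge_mem' δ i) fun t ht L hL => ?_
    subst ht
    rw [List.map_map, List.map_map]
    congr 1
    refine List.map_congr_left fun p hp => ?_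
    obtain ⟨h1, h2, h3⟩ := gr_times hδ0 hL hp
    have h4 : (0 : ℝ) ≤ (i : ℝ) * δ := by positivity
    have h5 := (h p.1 h1).2 ((m : ℝ) + p.2) (by linarith)
    rw [add_sub_cancel_left] at h5
    exact h5
  have hinj : Function.Injective fun i : ℕ => m * (N + 1) + i := fun a b hab => by
    simpa using hab
  have h1 : (∑ᶠ j : ℕ, N929.fib (edge k δ j) (fun L => ξ (L.map evw)) (l.map G)) =
      ∑ᶠ j ∈ Set.range fun i : ℕ => m * (N + 1) + i,
        N929.fib (edge k δ j) (fun L => ξ (L.map evw)) (l.map G) := by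
    rw [← finsum_mem_univ]
    refine (finsum_mem_inter_support_eq _ _ _ ?_).symm
    rw [univ_inter]
    ext j
    rw [mem_inter_iff]
    refine ⟨fun hj => hj.2, fun hj => ⟨?_, hj⟩⟩
    by_contra hcon
    refine hj (hz j ?_)
    by_contra hlt
    exact hcon ⟨j - m * (N + 1), by simp only; omega⟩
  rw [h1, finsum_mem_range hinj]
  exact finsum_congr hs

/-- A part after the time `m` which does not depend on the path. -/
theorem eta_back (N : ℕ) {ξ : List M → k} (hξ : Nrm ξ) (m : ℕ) (c c' : ℝ → M)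
    (G : (ℝ →ᵇ M) → ℝ →ᵇ M) (l : List (ℝ →ᵇ M)) (hl : 2 ≤ l.length)
    (h : ∀ w ∈ l, (∀ u : ℝ, 0 ≤ u → u ≤ m → G w u = w u) ∧
      ∀ u : ℝ, m ≤ u → G w u = c u ∧ w u = c' u) : eta N ξ (l.map G) = eta N ξ l := by
  rw [eta, fibI, fibI]
  set δ : ℝ := 1 / ((N : ℝ) + 1) with hδ
  have hδ0 : (0 : ℝ) < δ := by positivity
  refine finsum_congr fun j => ?_
  rcases lt_or_ge j (m * (N + 1)) with hj | hj
  · rw [N929.fib_map]
    refine fib_congr (edge_mem' δ j) fun t ht L hL => ?_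
    subst ht
    rw [List.map_map]
    congr 1
    refine List.map_congr_left fun p hp => ?_
    obtain ⟨h1, h2, h3⟩ := gr_times hδ0 hL hp
    have h4 : (0 : ℝ) ≤ (j : ℝ) * δ := by positivity
    have h5 : ((j + 1 : ℕ) : ℝ) * δ ≤ m := by
      rw [← int_mul_mesh N m]
      exact mul_le_mul_of_nonneg_right (by exact_mod_cast hj) hδ0.le
    exact (h p.1 h1).1 p.2 (h4.trans h2) (h3.trans h5)
  · have h5 : (m : ℝ) ≤ (j : ℝ) * δ := by
      rw [← int_mul_mesh N m]
      exact mul_le_mul_of_nonneg_right (by exact_mod_cast hj) hδ0.le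
    have h6 : (j : ℝ) * δ ≤ ((j + 1 : ℕ) : ℝ) * δ := by push_cast; nlinarith
    have b1 : N929.fib (edge k δ j) (fun L => ξ (L.map evw)) (l.map G) = 0 := by
      refine fib_edge_const hξ (by rwa [List.length_map]) (c := c) fun w hw u hu => ?_
      obtain ⟨w₁, hw₁, rfl⟩ := List.mem_map.1 hw
      rcases hu with rfl | rfl
      · exact ((h w₁ hw₁).2 _ h5).1
      · exact ((h w₁ hw₁).2 _ (h5.trans h6)).1
    have b2 : N929.fib (edge k δ j) (fun L => ξ (L.map evw)) l = 0 := by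
      refine fib_edge_const hξ hl (c := c') fun w hw u hu => ?_
      rcases hu with rfl | rfl
      · exact ((h w hw).2 _ h5).2
      · exact ((h w hw).2 _ (h5.trans h6)).2
    rw [b1, b2]

end

/-- **[E]** the properties of `η`. -/
theorem etaOut : H140.EtaOut := by
  intro k M _ _ _ d N ε ξ hd hε hξ hc hN
  obtain ⟨e, rfl⟩ : ∃ e, d = e + 1 := ⟨d - 1, by omega⟩
  have hε4 : 0 < ε / 4 := by positivity
  refine ⟨eta_nrm N hξ, fun b T l hl hf => dl_eta N hξ hc (by linarith) hN hl hf,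
    fun a b T => ?_, fun m c G l hl h => eta_front N hξ m c G l hl h,
    fun m c c' G l hl h => eta_back N hξ m c c' G l hl h⟩
  rw [Nat.add_sub_cancel]
  exact eta_coc N hξ hc (by linarith) hN a b T

section

variable {k : Type} [Field k] {M : Type} [MetricSpace M] [CompactSpace M]

/-- `eta` is additive. -/
theorem eta_add (N : ℕ) {ξ : List M → k} (hξ : Nrm ξ) : AddE (eta N ξ) := by
  intro a b b' c s hs l hne hm
  set δ : ℝ := 1 / ((N : ℝ) + 1) with hδ
  have hδ0 : (0 : ℝ) < δ := by positivity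
  have hcδ : ∀ c : ℕ, ((c * (N + 1) : ℕ) : ℝ) * δ = c := int_mul_mesh N
  have a1 : eta N ξ (l.map (catc c)) = N929.fib (mesh k δ (c * (N + 1) + ⌈s⌉₊ * (N + 1)))
      (fun L => ξ (L.map evw)) (l.map (catc c)) := by
    refine eta_eq N hξ (b := b') (T := c + s) ?_ (by simpa using hne) fun w hw u hu => ?_
    · rw [← hδ, Nat.cast_add, add_mul, hcδ, hcδ]
      have := Nat.le_ceil s
      linarith
    · obtain ⟨x, hx, rfl⟩ := List.mem_map.1 hw
      exact eq_right (cat_mem (Nat.cast_nonneg c) hs (hm x hx).1 (hm x hx).2) hu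
  have a2 : eta N ξ (l.map Prod.fst) = N929.fib (mesh k δ (c * (N + 1)))
      (fun L => ξ (L.map evw)) (l.map Prod.fst) := by
    refine eta_eq N hξ (b := b) (T := c) ?_ (by simpa using hne) fun w hw u hu => ?_
    · rw [← hδ, hcδ]
    · obtain ⟨x, hx, rfl⟩ := List.mem_map.1 hw
      exact eq_right (hm x hx).1 hu
  have a3 : eta N ξ (l.map Prod.snd) = N929.fib (mesh k δ (⌈s⌉₊ * (N + 1)))
      (fun L => ξ (L.map evw)) (l.map Prod.snd) := by
    refine eta_eq N hξ (b := b') (T := s) ?_ (by simpa using hne) fun w hw u hu => ?_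
    · rw [← hδ, hcδ]
      exact Nat.le_ceil s
    · obtain ⟨x, hx, rfl⟩ := List.mem_map.1 hw
      exact eq_right (hm x hx).2 hu
  rw [a1, a2, a3, fib_mesh, fib_mesh, fib_mesh, Finset.sum_range_add]
  congr 1
  · refine Finset.sum_congr rfl fun i hi => ?_
    rw [N929.fib_map, N929.fib_map]
    refine fib_congr (edge_mem' δ i) fun t ht L hL => ?_
    subst ht
    have hi' : ((i + 1 : ℕ) : ℝ) * δ ≤ c := by
      rw [← hcδ c]
      exact mul_le_mul_of_nonneg_right (by exact_mod_cast Finset.mem_range.1 hi) hδ0.le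
    rw [List.map_map, List.map_map]
    congr 1
    refine List.map_congr_left fun p hp => ?_
    obtain ⟨h1, h2, h3⟩ := gr_times hδ0 hL hp
    exact catc_left (hm _ h1).1 (hm _ h1).2 (h3.trans hi')
  · refine Finset.sum_congr rfl fun i hi => ?_
    rw [fib_edge_shift δ c i N hδ, N929.fib_map, N929.fib_map]
    refine fib_congr (edge_mem' δ i) fun t ht L hL => ?_
    subst ht
    rw [List.map_map, List.map_map, List.map_map]
    congr 1
    refine List.map_congr_left fun p hp => ?_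
    obtain ⟨h1, h2, h3⟩ := gr_times hδ0 hL hp
    have h6 : (0 : ℝ) ≤ (i : ℝ) * δ := by positivity
    have h4 : catc (c : ℝ) p.1 (c + p.2) = p.1.2 p.2 := by
      rw [catc_right (hm _ h1).1 (hm _ h1).2 (by linarith), add_sub_cancel_left]
    exact h4

/-- **The structure `Eta`** from a normalised cocycle of degree `e + 1` on `M`. -/
noncomputable def etaE (N : ℕ) {ξ : List M → k} (hξ : Nrm ξ) {e : ℕ} {ε : ℝ} (hε : 0 < ε)
    (hc : Coc (univ : Set M) ε (e + 1) ξ) (hN : 1 / ((N : ℝ) + 1) < ε / 4) : Eta k M e where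
  f := eta N ξ
  nrm := eta_nrm N hξ
  ε := ε / 4
  hε := by positivity
  coc a b T := eta_coc N hξ hc (by linarith) hN a b T

theorem etaE_add (N : ℕ) {ξ : List M → k} (hξ : Nrm ξ) {e : ℕ} {ε : ℝ} (hε : 0 < ε)
    (hc : Coc (univ : Set M) ε (e + 1) ξ) (hN : 1 / ((N : ℝ) + 1) < ε / 4) :
    AddE (etaE N hξ hε hc hN).f := eta_add N hξ

end

end Vale.Agent.P216.H977C
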