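import Vale.Agent.P216.H977C.Chg
import Vale.Agent.P216.N929.Fib0
import Vale.Agent.P216.H311.Assoc

/-!
# The cap product of a chain with a list cochain
-/

open Finsupp

namespace Vale.Agent.P216.H977C

open Vale.Agent.P216.Sl

variable {k : Type} [Field k]
variable {α β γ δ : Type}

/-- The lists of a lattice path product: grid, and changes. -/
theorem sh_chg_mem' (g : α → γ) (h : β → δ) {P : List α → Prop} {Q : List β → Prop} {c : Ch k α}
    {c' : Ch k β} (hc : c ∈ Sp k P) (hc' : c' ∈ Sp k Q) : sh c c' ∈ Sp k (fun L =>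
      ∃ s t, P s ∧ Q t ∧ Gr s t L ∧
        chg (L.map (Prod.map g h)) ≤ chg (s.map g) + chg (t.map h)) := by
  have h1 : ∀ s, P s → sh (single s (1 : k)) c' ∈ Sp k (fun L => ∃ s t, P s ∧ Q t ∧ Gr s t L ∧
      chg (L.map (Prod.map g h)) ≤ chg (s.map g) + chg (t.map h)) := fun s hs =>
    map_mem _ (fun t ht => by
      rw [sh_single]
      have h2 := Sh_mem (k := k) _ s t rfl
      have h3 := Sh_chg (k := k) g h _ s t rfl
      rw [Finsupp.mem_supported] at h2 h3 ⊢
      exact fun L hL => ⟨s, t, hs, ht, h2 hL, h3 hL⟩) hc'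
  exact map_mem ((sh (k := k) (α := α) (β := β)).flip c')
    (fun s hs => by rw [LinearMap.flip_apply]; exact h1 s hs) hc

/-- Chains are separated by the functions on lists. -/
theorem ch_ext {c c' : Ch k α} (h : ∀ g : List α → k, ev g c = ev g c') : c = c' := by
  classical
  ext l
  have h1 : ∀ d : Ch k α, ev (fun l' => if l' = l then (1 : k) else 0) d = d l := by
    intro d
    have := lin_ext_apply (f := ev (fun l' => if l' = l then (1 : k) else 0))
      (g := Finsupp.lapply l) (fun l' => by
        rw [ev_single, one_mul, Finsupp.lapply_apply, Finsupp.single_apply]) d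
    rw [this, Finsupp.lapply_apply]
  rw [← h1, ← h1, h]

/-- The cap product with `f` (degree `n`) on the front face. -/
noncomputable def capf (f : List α → k) (n : ℕ) : Ch k α →ₗ[k] Ch k α :=
  Finsupp.linearCombination k fun l => f (l.take (n + 1)) • single (l.drop n) 1

theorem capf_single (f : List α → k) (n : ℕ) (l : List α) :
    capf f n (single l 1) = f (l.take (n + 1)) • single (l.drop n) 1 := by
  rw [capf, Finsupp.linearCombination_single, one_smul]

theorem ev_capf (f g : List α → k) (n : ℕ) (c : Ch k α) :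
    ev g (capf f n c) = ev (N929.cup n f g) c := by
  have := lin_ext_apply (f := ev g ∘ₗ capf f n) (g := ev (N929.cup n f g)) (fun l => by
    rw [LinearMap.comp_apply, capf_single, map_smul, ev_single, ev_single, one_mul, one_mul,
      smul_eq_mul, N929.cup]) c
  simpa using this

/-- The boundary of a cap product with a cocycle. -/
theorem bd_capf {f : List α → k} {n N : ℕ} (hN : n + 2 ≤ N) {w : Ch k α}
    (hw : w ∈ Sp k (fun l => l.length = N ∧ dl f (l.take (n + 2)) = 0)) :
    bd (capf f n w) = (-1 : k) ^ n • capf f n (bd w) := by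
  refine ch_ext fun g => ?_
  rw [← ev_dl, ev_capf, map_smul, ev_capf, ← ev_dl, smul_eq_mul, ← ev_smul_fun]
  refine ev_congr (fun l hl => ?_) hw
  rw [N929.dl_cup _ _ _ _ (by omega), hl.2, zero_mul, zero_add, ← mul_assoc, ← pow_add, ← two_mul,
    pow_mul, neg_one_sq, one_pow, one_mul, N929.cup]

/-- The support of a cap product. -/
theorem capf_mem {f : List α → k} {n : ℕ} {P Q : List α → Prop} {w : Ch k α} (hw : w ∈ Sp k P)
    (h : ∀ l, P l → f (l.take (n + 1)) ≠ 0 → Q (l.drop n)) : capf f n w ∈ Sp k Q :=
  map_mem _ (fun l hl => by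
    rw [capf_single]
    by_cases h0 : f (l.take (n + 1)) = 0
    · rw [h0, zero_smul]; exact Submodule.zero_mem _
    · exact Submodule.smul_mem _ _ (single_mem (h l hl h0) 1)) hw

theorem capf_zero {f : List α → k} {n : ℕ} {P : List α → Prop} {w : Ch k α} (hw : w ∈ Sp k P)
    (h : ∀ l, P l → f (l.take (n + 1)) = 0) : capf f n w = 0 := by
  have := eq_of_mem (F := capf f n) (G := 0) (fun l hl => by
    rw [capf_single, h l hl, zero_smul, LinearMap.zero_apply]) hw
  simpa using this

/-- Naturality. -/
theorem capf_mp (f : List β → k) (n : ℕ) (u : α → β) (c : Ch k α) :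
    capf f n (mp u c) = mp u (capf (fun l => f (l.map u)) n c) := by
  have := lin_ext_apply (f := capf f n ∘ₗ mp u) (g := mp u ∘ₗ capf (fun l => f (l.map u)) n)
    (fun l => by
      rw [LinearMap.comp_apply, LinearMap.comp_apply, mp_single, capf_single, capf_single,
        map_smul, mp_single, List.map_take, List.map_drop]) c
  simpa using this

/-- **The front lemma** for chains: the first factor depends on the second coordinate only. -/
theorem front_right' {f : List β → k} (hf : Nrm f) (g : List (α × β) → k) (n : ℕ) {p N : ℕ}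
    (hN : n + 1 ≤ N) (hpN : n + 2 ≤ p + N) {z : Ch k α} {w : Ch k β}
    (hz : z ∈ Sp k fun l => l.length = p ∧ l ≠ []) (hw : w ∈ Sp k fun l => l.length = N) :
    ev (fun l => f ((l.take (n + 1)).map Prod.snd) * g (l.drop n)) (sh z w) =
      (-1 : k) ^ ((p + 1) * n) * ev g (sh z (capf f n w)) := by
  have h1 : ∀ s : List α, (s.length = p ∧ s ≠ []) →
      ev (fun l => f ((l.take (n + 1)).map Prod.snd) * g (l.drop n)) (sh (single s 1) w) =
      (-1 : k) ^ ((p + 1) * n) * ev g (sh (single s 1) (capf f n w)) := by
    intro s hs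
    have := eq_of_mem (F := ev (fun l => f ((l.take (n + 1)).map Prod.snd) * g (l.drop n)) ∘ₗ
        sh (single s (1 : k)))
      (G := (-1 : k) ^ ((p + 1) * n) • (ev g ∘ₗ sh (single s (1 : k)) ∘ₗ capf f n))
      (fun t ht => by
        have ht0 : t ≠ [] := by rintro rfl; simp at ht; omega
        rw [LinearMap.comp_apply, sh_single, front_right hf g n s t (by omega) hs.2 ht0,
          if_pos (by omega), LinearMap.smul_apply, LinearMap.comp_apply, LinearMap.comp_apply,
          capf_single, map_smul, map_smul, sh_single, hs.1, smul_eq_mul, smul_eq_mul]) hw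
    simpa [smul_eq_mul] using this
  have := eq_of_mem (F := ev (fun l => f ((l.take (n + 1)).map Prod.snd) * g (l.drop n)) ∘ₗ
      (sh (k := k) (α := α) (β := β)).flip w)
    (G := (-1 : k) ^ ((p + 1) * n) • (ev g ∘ₗ (sh (k := k) (α := α) (β := β)).flip
      (capf f n w))) (fun s hs => by
        rw [LinearMap.comp_apply, LinearMap.flip_apply, h1 s hs, LinearMap.smul_apply,
          LinearMap.comp_apply, LinearMap.flip_apply, smul_eq_mul]) hz
  simpa [smul_eq_mul] using this

end Vale.Agent.P216.H977C
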