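import Vale.Agent.P216.H787.Edges

/-!
# Number of changes of a list, and lattice paths
-/

open Finsupp

namespace Vale.Agent.P216.H977C

open Vale.Agent.P216.Sl

variable {k : Type} [Field k]
variable {α β γ δ : Type}

open Classical in
/-- The number of pairs of different consecutive entries. -/
noncomputable def chg : List α → ℕ
  | [] => 0
  | [_] => 0
  | a :: b :: l => (if a = b then 0 else 1) + chg (b :: l)

@[simp] theorem chg_nil : chg ([] : List α) = 0 := by rw [chg]

@[simp] theorem chg_one (a : α) : chg [a] = 0 := by rw [chg]

theorem chg_eq (a : α) (l : List α) : chg (a :: a :: l) = chg (a :: l) := by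
  rw [chg, if_pos rfl, zero_add]

theorem chg_cons_le (a : α) (l : List α) : chg l ≤ chg (a :: l) := by
  rcases l with _ | ⟨b, l⟩
  · simp
  · rw [chg]; omega

theorem chg_le_cons (a : α) (l : List α) : chg (a :: l) ≤ chg l + 1 := by
  rcases l with _ | ⟨b, l⟩
  · simp
  · rw [chg]
    split_ifs <;> omega

theorem length_le_chg : ∀ {l : List α}, l.IsChain (· ≠ ·) → l.length ≤ chg l + 1
  | [], _ => by simp
  | [_], _ => by simp
  | a :: b :: l, h => by
    rw [List.isChain_cons_cons] at h
    rw [chg, if_neg h.1, List.length_cons]
    have := length_le_chg h.2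
    omega

theorem chg_le_length : ∀ (l : List α), chg l ≤ l.length - 1
  | [] => by simp
  | [_] => by simp
  | a :: b :: l => by
    have := chg_le_length (b :: l)
    rw [chg]
    simp only [List.length_cons] at this ⊢
    split_ifs <;> omega

theorem chg_map (f : α → β) : ∀ l : List α, chg (l.map f) ≤ chg l
  | [] => by simp
  | [_] => by simp
  | a :: b :: l => by
    have := chg_map f (b :: l)
    rw [List.map_cons] at this
    rw [List.map_cons, List.map_cons, chg, chg]
    by_cases h : a = b
    · subst h
      rw [if_pos rfl, if_pos rfl]
      omega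
    · rw [if_neg h]
      split_ifs <;> omega

theorem chg_drop (n : ℕ) (l : List α) : chg (l.drop n) ≤ chg l := by
  induction n generalizing l with
  | zero => rw [List.drop_zero]
  | succ n ih =>
    rcases l with _ | ⟨a, l⟩
    · simp
    · rw [List.drop_succ_cons]
      exact (ih l).trans (chg_cons_le a l)

theorem chg_take : ∀ (n : ℕ) (l : List α), chg (l.take n) ≤ chg l
  | 0, l => by simp
  | 1, [] => by simp
  | 1, a :: l => by simp
  | n + 2, [] => by simp
  | n + 2, [a] => by simp
  | n + 2, a :: b :: l => by
    have := chg_take (n + 1) (b :: l)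
    rw [List.take_succ_cons] at this
    rw [List.take_succ_cons, List.take_succ_cons, chg, chg]
    omega

/-- A normalised function vanishes on long lists with few changes. -/
theorem Nrm_zero {f : List α → k} (hf : Nrm f) {l : List α} (h : chg l + 1 < l.length) :
    f l = 0 :=
  hf l fun hc => by
    have := length_le_chg hc
    omega

/-- Changes along a lattice path. -/
theorem Sh_chg (g : α → γ) (h : β → δ) (n : ℕ) : ∀ (s : List α) (t : List β),
    s.length + t.length = n → (Sh s t : Ch k (α × β)) ∈ Sp k (fun L =>
      chg (L.map (Prod.map g h)) ≤ chg (s.map g) + chg (t.map h)) := by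
  induction n with
  | zero =>
    intro s t hn
    have hs : s = [] := List.length_eq_zero_iff.1 (by omega)
    subst hs
    rw [Sh_nil_left]
    exact Submodule.zero_mem _
  | succ n ih =>
    intro s t hn
    rcases s with _ | ⟨a, s⟩
    · rw [Sh_nil_left]; exact Submodule.zero_mem _
    rcases t with _ | ⟨b, t⟩
    · rw [Sh_nil_right]; exact Submodule.zero_mem _
    by_cases hne : s = [] ∧ t = []
    · obtain ⟨rfl, rfl⟩ := hne
      rw [Sh_one]
      exact single_mem (by simp) _
    · simp only [List.length_cons] at hn
      rw [Sh_cons hne, map_add, map_smul]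
      refine Submodule.add_mem _ ?_ (Submodule.smul_mem _ _ ?_)
      · rcases s with _ | ⟨a', s⟩
        · rw [Sh_nil_left, map_zero]; exact Submodule.zero_mem _
        have h1 := ih (a' :: s) (b :: t) (by simp only [List.length_cons] at hn ⊢; omega)
        have h2 : (Sh (a' :: s) (b :: t) : Ch k (α × β)) ∈ Sp k (fun L =>
            (∃ l', L = (a', b) :: l') ∧ chg (L.map (Prod.map g h)) ≤
              chg ((a' :: s).map g) + chg ((b :: t).map h)) := by
          have h5 : (Sh (a' :: s) (b :: t) : Ch k (α × β)) ∈
              Sp k (fun l => ∃ l', l = (a', b) :: l') := by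
            rw [Sh]
            exact map_mem _ (fun l _ => by
              rw [cons_single]; exact single_mem ⟨l, rfl⟩ _)
              (P := fun _ => True) (by simp [Finsupp.mem_supported])
          rw [Finsupp.mem_supported] at h5 h1 ⊢
          exact fun l hl => ⟨h5 hl, h1 hl⟩
        refine map_mem _ (fun L hL => ?_) h2
        rw [cons_single]
        refine single_mem ?_ _
        obtain ⟨⟨l', rfl⟩, hL⟩ := hL
        simp only [List.map_cons, Prod.map_apply] at hL ⊢
        rw [chg, chg]
        by_cases hg : g a = g a'
        · rw [if_pos hg, if_pos (by rw [hg])]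
          omega
        · rw [if_neg hg, if_neg (fun he => hg (congrArg Prod.fst he))]
          omega
      · rcases t with _ | ⟨b', t⟩
        · rw [Sh_nil_right, map_zero]; exact Submodule.zero_mem _
        have h1 := ih (a :: s) (b' :: t) (by simp only [List.length_cons] at hn ⊢; omega)
        have h2 : (Sh (a :: s) (b' :: t) : Ch k (α × β)) ∈ Sp k (fun L =>
            (∃ l', L = (a, b') :: l') ∧ chg (L.map (Prod.map g h)) ≤
              chg ((a :: s).map g) + chg ((b' :: t).map h)) := by
          have h5 : (Sh (a :: s) (b' :: t) : Ch k (α × β)) ∈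
              Sp k (fun l => ∃ l', l = (a, b') :: l') := by
            rw [Sh]
            exact map_mem _ (fun l _ => by
              rw [cons_single]; exact single_mem ⟨l, rfl⟩ _)
              (P := fun _ => True) (by simp [Finsupp.mem_supported])
          rw [Finsupp.mem_supported] at h5 h1 ⊢
          exact fun l hl => ⟨h5 hl, h1 hl⟩
        refine map_mem _ (fun L hL => ?_) h2
        rw [cons_single]
        refine single_mem ?_ _
        obtain ⟨⟨l', rfl⟩, hL⟩ := hL
        simp only [List.map_cons, Prod.map_apply] at hL ⊢
        rw [chg]
        have e1 : chg (h b :: h b' :: List.map h t) =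
          (open Classical in if h b = h b' then 0 else 1) + chg (h b' :: List.map h t) := by
          rw [chg]
        rw [e1]
        by_cases hg : h b = h b'
        · rw [if_pos hg, if_pos (by rw [hg])]
          omega
        · rw [if_neg hg, if_neg (fun he => hg (congrArg Prod.snd he))]
          omega

/-- The lists of a lattice path product: grid, and changes of the second coordinate. -/
theorem sh_snd_mem {P : List α → Prop} {Q : List β → Prop} {c : Ch k α} {c' : Ch k β}
    (hc : c ∈ Sp k P) (hc' : c' ∈ Sp k Q) : sh c c' ∈ Sp k (fun L => ∃ s t, P s ∧ Q t ∧ Gr s t L ∧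
      chg (L.map Prod.snd) ≤ chg t) := by
  have h1 : ∀ s, P s → sh (single s (1 : k)) c' ∈ Sp k (fun L => ∃ s t, P s ∧ Q t ∧ Gr s t L ∧
      chg (L.map Prod.snd) ≤ chg t) := fun s hs =>
    map_mem _ (fun t ht => by
      rw [sh_single]
      have h2 := Sh_mem (k := k) _ s t rfl
      have h3 := Sh_chg (k := k) (fun _ : α => ()) (id : β → β) _ s t rfl
      rw [Finsupp.mem_supported] at h2 h3 ⊢
      refine fun L hL => ⟨s, t, hs, ht, h2 hL, ?_⟩
      have h4 : chg (L.map (Prod.map (fun _ : α => ()) (id : β → β))) ≤
        chg (s.map fun _ : α => ()) + chg (t.map id) := h3 hL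
      have h5 : chg (s.map fun _ : α => ()) = 0 := by
        have : ∀ n, chg (List.replicate n ()) = 0 := by
          intro n
          induction n with
          | zero => simp
          | succ n ih =>
            rcases n with _ | n
            · simp
            · rw [List.replicate_succ, List.replicate_succ, chg_eq, ← List.replicate_succ, ih]
        rw [List.map_const', this]
      rw [h5, List.map_id, zero_add] at h4
      have h6 : L.map Prod.snd = (L.map (Prod.map (fun _ : α => ()) (id : β → β))).map
          Prod.snd := by
        rw [List.map_map]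
        rfl
      rw [h6]
      exact (chg_map _ _).trans h4) hc'
  exact map_mem ((sh (k := k) (α := α) (β := β)).flip c')
    (fun s hs => by rw [LinearMap.flip_apply]; exact h1 s hs) hc

end Vale.Agent.P216.H977C
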