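import Vale.Agent.P216.H977C.Cls
import Vale.Agent.P216.H977C.Chg

/-!
# P216-C, block C03: the classes on the concatenations `z · Y` with `Y` of degree `e < n - 1`

`W b j (z · Y) = W b j (z)` on lists, hence `⟨A b j, z · Y⟩ = ± ⟨eta, Y⟩ ⟨W b j, z⟩`.
-/

open Finsupp Set BoundedContinuousFunction

namespace Vale.Agent.P216.H977C

open Vale.Agent.P216.Sl Vale.Agent.P216.PS Vale.Agent.P216.N929

section

variable {k : Type} [Field k] {α β γ : Type}

theorem sh_chg_mem (g : α → γ) {Q : List β → Prop} (l : List α) {c' : Ch k β}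
    (hc' : c' ∈ Sp k Q) : sh (single l (1 : k)) c' ∈ Sp k (fun L => ∃ t, Q t ∧ Gr l t L ∧
      chg (L.map (Prod.map g id)) ≤ chg (l.map g) + chg t) :=
  map_mem _ (fun t ht => by
    rw [sh_single]
    have h2 := Sh_mem (k := k) _ l t rfl
    have h3 := Sh_chg (k := k) g (id : β → β) _ l t rfl
    rw [Finsupp.mem_supported] at h2 h3 ⊢
    refine fun L hL => ⟨t, ht, h2 hL, ?_⟩
    have h4 : chg (L.map (Prod.map g (id : β → β))) ≤ chg (l.map g) + chg (t.map id) := h3 hL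
    rwa [List.map_id] at h4) hc'

end

variable {k : Type} [Field k] {M : Type} [MetricSpace M] [CompactSpace M]

/-- Concatenation of pairs at time `c`. -/
noncomputable def catc (c : ℝ) (x : (ℝ →ᵇ M) × (ℝ →ᵇ M)) : ℝ →ᵇ M := cat c x.1 x.2

/-- The list cochain `f` is additive under concatenation at integer times. -/
def AddE (f : List (ℝ →ᵇ M) → k) : Prop := ∀ (a b b' : M) (c : ℕ) (s : ℝ), 0 ≤ s →
  ∀ l : List ((ℝ →ᵇ M) × (ℝ →ᵇ M)), l ≠ [] → (∀ x ∈ l, x.1 ∈ P a b c ∧ x.2 ∈ P b b' s) →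
    f (l.map (catc c)) = f (l.map Prod.fst) + f (l.map Prod.snd)

section

variable {n : ℕ} {r : ℝ} {y : M}

theorem intg_eq' (τ : List (M × M) → k) (g : List (ℝ →ᵇ M) → k) (L : List ((ℝ →ᵇ M) × ℝ)) :
    intg n τ g r y L = τ ((L.map (evp y)).take (n + 1)) * g ((L.map (cutp r y)).drop n) := by
  rw [intg, N929.cup, List.map_take, List.map_drop]

theorem catc_left {a b b' : M} {c s u : ℝ} {x : (ℝ →ᵇ M) × (ℝ →ᵇ M)}
    (h1 : x.1 ∈ P a b c) (h2 : x.2 ∈ P b b' s) (hu : u ≤ c) : catc c x u = x.1 u := by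
  rw [catc, cat_apply h1.1 h2.1 (by rw [eq_right h1 le_rfl, eq_left h2 le_rfl]), catf_left hu]

theorem catc_right {a b b' : M} {c s u : ℝ} {x : (ℝ →ᵇ M) × (ℝ →ᵇ M)}
    (h1 : x.1 ∈ P a b c) (h2 : x.2 ∈ P b b' s) (hu : c ≤ u) : catc c x u = x.2 (u - c) := by
  have h : x.1 c = x.2 0 := by rw [eq_right h1 le_rfl, eq_left h2 le_rfl]
  rw [catc, cat_apply h1.1 h2.1 h, catf_right h hu]

theorem evp_left {a b b' : M} {c s u : ℝ} {x : (ℝ →ᵇ M) × (ℝ →ᵇ M)}
    (h1 : x.1 ∈ P a b c) (h2 : x.2 ∈ P b b' s) (hu : u ≤ c) :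
    evp y (catc c x, u) = evp y (x.1, u) := by
  rw [evp, evp, catc_left h1 h2 hu]

theorem cutp_left {a b b' : M} {c s u : ℝ} {x : (ℝ →ᵇ M) × (ℝ →ᵇ M)} (hr : 0 < r)
    (h1 : x.1 ∈ P a b c) (h2 : x.2 ∈ P b b' s) (hu : u ≤ c) :
    cutp r y (catc c x, u) = cutp r y (x.1, u) := by
  rw [cutp, cutp]
  refine splice_congr fun v => ?_
  rcases le_total v u with h0 | h0
  · rw [spl_left h0, spl_left h0]
    exact catc_left h1 h2 (h0.trans hu)
  rcases le_total v (u + r) with h3 | h3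
  · have h4 : catc c x u = x.1 u := catc_left h1 h2 hu
    rw [spl_mid h0 h3, spl_mid h0 h3]
    simp only [h4]
  · rw [spl_right hr h3, spl_right hr h3]

end

variable {n e D : ℕ} (G : Geo M n) (τ : Tau k M n G.ρ₁) (E : Eta k M e) (hD : D + 1 = n + e)

/-- **On lists**: `W b j` of a concatenation, when the second paths change less than `n - 1`
times. -/
theorem W_cat (b : Bool) (j : ℕ) {b' : Bool} {c : ℕ} {s : ℝ} (hs : 0 ≤ s)
    (hb : b' = b) {l : List ((ℝ →ᵇ M) × (ℝ →ᵇ M))}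
    (hl : l.length = j * D + 1)
    (hm : ∀ x ∈ l, x.1 ∈ P G.x₀ (G.y b') c ∧ x.2 ∈ P (G.y b') (G.y b) s)
    (hc : chg (l.map Prod.snd) + 1 < n) :
    W G τ E hD b j (l.map (catc c)) = W G τ E hD b j (l.map Prod.fst) := by
  subst hb
  rcases j with _ | j
  · rw [W_zero, one1, one1, List.length_map, List.length_map]
  have hne : l ≠ [] := by rintro rfl; simp at hl
  obtain ⟨N, hN, hW⟩ := W_succ G τ E hD b' j
  have hN0 : (0 : ℝ) < (N : ℝ) + 1 := by positivity
  have hδ0 : (0 : ℝ) < 1 / ((N : ℝ) + 1) := by positivity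
  rw [hW, stp_eq (T := c + s) (x₀ := G.x₀) (y' := G.y b') (N := c * (N + 1) + ⌈s⌉₊ * (N + 1)) τ (G.hy b') hδ0 ?_
      (by simpa using hne) ?_,
    stp_eq (T := c) (x₀ := G.x₀) (y' := G.y b') (N := c * (N + 1)) τ (G.hy b') hδ0 ?_
      (by simpa using hne) ?_, fib_mesh, fib_mesh, Finset.sum_range_add]
  rotate_left
  · push_cast
    rw [mul_one_div, mul_div_assoc, div_self hN0.ne', mul_one]
  · intro w hw
    obtain ⟨x, hx, rfl⟩ := List.mem_map.1 hw
    exact (hm x hx).1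
  · have := Nat.le_ceil s
    push_cast
    rw [← add_mul, mul_assoc, mul_one_div, div_self hN0.ne', mul_one]
    linarith
  · intro w hw
    obtain ⟨x, hx, rfl⟩ := List.mem_map.1 hw
    exact cat_mem (Nat.cast_nonneg c) hs (hm x hx).1 (hm x hx).2
  set δ : ℝ := 1 / ((N : ℝ) + 1) with hδ
  have hcδ : ((c * (N + 1) : ℕ) : ℝ) * δ = c := by
    rw [hδ]
    push_cast
    rw [mul_one_div, mul_div_assoc, div_self hN0.ne', mul_one]
  have key0 : ∀ (i : ℕ) (L : List (((ℝ →ᵇ M) × (ℝ →ᵇ M)) × ℝ)),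
      Gr l [(i : ℝ) * δ, ((i + 1 : ℕ) : ℝ) * δ] L → ∀ p ∈ L, p.1 ∈ l ∧
        ((i : ℝ) * δ ≤ p.2 ∧ p.2 ≤ ((i + 1 : ℕ) : ℝ) * δ) := by
    intro i L hL p hp
    refine ⟨(hL.2 p hp).1, ?_⟩
    have := (hL.2 p hp).2
    have h2 : (i : ℝ) * δ ≤ ((i + 1 : ℕ) : ℝ) * δ := by push_cast; nlinarith
    simp only [List.mem_cons, List.not_mem_nil, or_false] at this
    rcases this with h | h <;> rw [h]
    · exact ⟨le_rfl, h2⟩
    · exact ⟨h2, le_rfl⟩
  have hmem : ∀ i : ℕ, edge k δ i ∈ Sp k (fun t => t = [(i : ℝ) * δ, ((i + 1 : ℕ) : ℝ) * δ]) :=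
    fun i => single_mem (P := fun t => t = [(i : ℝ) * δ, ((i + 1 : ℕ) : ℝ) * δ]) rfl 1
  have hz : ∀ i ∈ Finset.range (⌈s⌉₊ * (N + 1)),
      N929.fib (edge k δ (c * (N + 1) + i)) (intg n τ.f (A G τ E hD (!b') j) G.r (G.y (!b')))
        (l.map (catc c)) = 0 := by
    intro i _
    rw [fib_map, N929.fib]
    refine ev_zero_of (fun L hL => ?_) (sh_chg_mem (k := k) Prod.snd l (hmem _))
    obtain ⟨t, rfl, hG, hch⟩ := hL
    rw [intg_eq']
    have e1 : (L.map (Prod.map (catc (c : ℝ)) id)).map (evp (G.y (!b'))) =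
        (L.map (Prod.map Prod.snd id)).map fun q : (ℝ →ᵇ M) × ℝ =>
          ((q.1 (q.2 - c) : M), G.y (!b')) := by
      rw [List.map_map, List.map_map]
      refine List.map_congr_left fun p hp => ?_
      obtain ⟨h1, h2, h3⟩ := key0 _ L hG p hp
      have h4 : (c : ℝ) ≤ p.2 := by
        refine le_trans ?_ h2
        rw [← hcδ]
        exact mul_le_mul_of_nonneg_right (by push_cast; linarith [(Nat.cast_nonneg i : (0 : ℝ) ≤ i)])
          hδ0.le
      exact congrArg (fun m => (m, G.y (!b'))) (catc_right (hm _ h1).1 (hm _ h1).2 h4)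
    have hlen : n + 1 ≤ L.length := by
      have h5 := hG.1
      have h6 := deg_succ hD j
      simp only [List.length_cons, List.length_nil] at h5
      omega
    have h7 : τ.f (((L.map (Prod.map (catc (c : ℝ)) id)).map (evp (G.y (!b')))).take (n + 1)) =
        0 := by
      refine Nrm_zero τ.nrm ?_
      rw [List.length_take, List.length_map, List.length_map, min_eq_left hlen, e1]
      have h8 := chg_take (n + 1) ((L.map (Prod.map Prod.snd id)).map
        fun q : (ℝ →ᵇ M) × ℝ => ((q.1 (q.2 - c) : M), G.y (!b')))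
      have h9 := chg_map (fun q : (ℝ →ᵇ M) × ℝ => ((q.1 (q.2 - c) : M), G.y (!b')))
        (L.map (Prod.map Prod.snd id))
      have h10 := chg_le_length [((c * (N + 1) + i : ℕ) : ℝ) * δ,
        ((c * (N + 1) + i + 1 : ℕ) : ℝ) * δ]
      simp only [List.length_cons, List.length_nil] at h10
      omega
    rw [h7, zero_mul]
  rw [Finset.sum_eq_zero hz, add_zero]
  refine Finset.sum_congr rfl fun i hi => ?_
  rw [fib_map, fib_map]
  refine fib_congr (hmem i) fun t ht L hL => ?_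
  subst ht
  have hi' : ((i + 1 : ℕ) : ℝ) * δ ≤ c := by
    rw [← hcδ]
    exact mul_le_mul_of_nonneg_right (by exact_mod_cast Finset.mem_range.1 hi) hδ0.le
  rw [intg_eq', intg_eq', List.map_map, List.map_map, List.map_map, List.map_map]
  have e1 : L.map (evp (G.y (!b')) ∘ Prod.map (catc (c : ℝ)) id) =
      L.map (evp (G.y (!b')) ∘ Prod.map Prod.fst id) :=
    List.map_congr_left fun p hp => by
      obtain ⟨h1, h2, h3⟩ := key0 _ L hL p hp
      exact evp_left (hm _ h1).1 (hm _ h1).2 (h3.trans hi')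
  have e2 : L.map (cutp G.r (G.y (!b')) ∘ Prod.map (catc (c : ℝ)) id) =
      L.map (cutp G.r (G.y (!b')) ∘ Prod.map Prod.fst id) :=
    List.map_congr_left fun p hp => by
      obtain ⟨h1, h2, h3⟩ := key0 _ L hL p hp
      exact cutp_left G.hr (hm _ h1).1 (hm _ h1).2 (h3.trans hi')
  rw [e1, e2]

/-- **(E2)**: evaluation of `A b j` on `z · Y`. -/
theorem A_cat (hE : AddE E.f) (he : 1 ≤ e) (hen : e + 1 < n) (b : Bool) (j : ℕ) {c : ℕ} {s : ℝ}
    (hs : 0 ≤ s) {z Y : Ch k (ℝ →ᵇ M)}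
    (hz : z ∈ Sp k fun l => l.length = j * D + 1 ∧ ∀ w ∈ l, w ∈ P G.x₀ (G.y b) c)
    (hY : Y ∈ Sp k fun l => l.length = e + 1 ∧ ∀ w ∈ l, w ∈ P (G.y b) (G.y b) s) :
    ev (A G τ E hD b j) (mp (catc c) (sh z Y)) =
      (-1) ^ ((j * D + 1 + 1) * e) * (ev E.f Y * ev (W G τ E hD b j) z) := by
  rw [ev_mp]
  -- on the lists of the product
  have key : ev (fun l => A G τ E hD b j (l.map (catc c))) (sh z Y) =
      ev (fun l => N929.cup e E.f (W G τ E hD b j) (l.map Prod.fst) +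
        (fun l : List ((ℝ →ᵇ M) × (ℝ →ᵇ M)) => E.f ((l.take (e + 1)).map Prod.snd) *
          (fun l' : List ((ℝ →ᵇ M) × (ℝ →ᵇ M)) => W G τ E hD b j (l'.map Prod.fst))
            (l.drop e)) l) (sh z Y) := by
    refine ev_congr (fun L hL => ?_) (sh_snd_mem hz hY)
    obtain ⟨s', t', ⟨hs1, hs2⟩, ⟨ht1, ht2⟩, hG, hch⟩ := hL
    have hlen : L.length = j * D + e + 1 := by
      have := hG.1
      omega
    have hmem : ∀ x ∈ L, x.1 ∈ P G.x₀ (G.y b) c ∧ x.2 ∈ P (G.y b) (G.y b) s :=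
      fun x hx => ⟨hs2 _ (hG.2 x hx).1, ht2 _ (hG.2 x hx).2⟩
    have hcl := chg_le_length t'
    have h1 : W G τ E hD b j ((L.drop e).map (catc c)) =
        W G τ E hD b j ((L.drop e).map Prod.fst) := by
      refine W_cat G τ E hD b j hs rfl (by rw [List.length_drop, hlen]; omega)
        (fun x hx => hmem x (List.mem_of_mem_drop hx)) ?_
      have := chg_drop e (L.map Prod.snd)
      rw [List.map_drop]
      omega
    have h2 : E.f ((L.take (e + 1)).map (catc c)) =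
        E.f ((L.take (e + 1)).map Prod.fst) + E.f ((L.take (e + 1)).map Prod.snd) := by
      refine hE _ _ _ c s hs _ ?_ fun x hx => hmem x (List.mem_of_mem_take hx)
      intro h0
      have := congrArg List.length h0
      rw [List.length_take, List.length_nil] at this
      omega
    rw [A, N929.cup, N929.cup, ← List.map_take, ← List.map_drop, h1, h2, ← List.map_take,
      ← List.map_drop, add_mul]
  rw [key, ev_add_fun]
  have hz' : ev (fun l : List ((ℝ →ᵇ M) × (ℝ →ᵇ M)) =>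
      N929.cup e E.f (W G τ E hD b j) (l.map Prod.fst)) (sh z Y) = 0 := by
    have hN : Nrm (N929.cup e E.f (W G τ E hD b j)) := nrm_cup E.nrm (W_nrm G τ E hD b j)
    have hm1 : ∀ s', (s'.length = j * D + 1 ∧ ∀ w ∈ s', w ∈ P G.x₀ (G.y b) c) →
        ev (fun l : List ((ℝ →ᵇ M) × (ℝ →ᵇ M)) =>
          N929.cup e E.f (W G τ E hD b j) (l.map Prod.fst)) (sh (single s' (1 : k)) Y) = 0 := by
      intro s' hs'
      have := eq_of_mem (F := ev (fun l : List ((ℝ →ᵇ M) × (ℝ →ᵇ M)) =>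
          N929.cup e E.f (W G τ E hD b j) (l.map Prod.fst)) ∘ₗ
          (sh (k := k) (single s' (1 : k)))) (G := 0) (fun t' ht' => by
        rw [LinearMap.comp_apply, LinearMap.zero_apply, sh_single]
        refine ev_zero_of (P := fun l => (∀ j, ((l.drop j).map Prod.fst).IsChain (· ≠ ·) →
          l.length ≤ s'.length + j) ∧ Gr s' t' l) (fun L hL => ?_) ?_
        · refine hN _ fun hc => ?_
          have h1 := hL.1 0 (by simpa using hc)
          have h2 := hL.2.1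
          omega
        · have a1 := Sh_chain_fst (k := k) _ s' t' rfl
          have a2 := Sh_mem (k := k) _ s' t' rfl
          rw [Finsupp.mem_supported] at a1 a2 ⊢
          exact fun l hl => ⟨a1 hl, a2 hl⟩) hY
      simpa using this
    have := eq_of_mem (F := ev (fun l : List ((ℝ →ᵇ M) × (ℝ →ᵇ M)) =>
          N929.cup e E.f (W G τ E hD b j) (l.map Prod.fst)) ∘ₗ
          (sh (k := k) (α := ℝ →ᵇ M) (β := ℝ →ᵇ M)).flip Y) (G := 0) (fun s' hs' => by
        rw [LinearMap.comp_apply, LinearMap.flip_apply, LinearMap.zero_apply]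
        exact hm1 s' hs') hz
    simpa using this
  rw [hz', zero_add]
  -- the second term
  have h2 : ∀ s' : List (ℝ →ᵇ M), s'.length = j * D + 1 → ∀ t' : List (ℝ →ᵇ M),
      t'.length = e + 1 →
      ev (fun l : List ((ℝ →ᵇ M) × (ℝ →ᵇ M)) => E.f ((l.take (e + 1)).map Prod.snd) *
          (fun l' : List ((ℝ →ᵇ M) × (ℝ →ᵇ M)) => W G τ E hD b j (l'.map Prod.fst))
            (l.drop e)) (Sh s' t' : Ch k ((ℝ →ᵇ M) × (ℝ →ᵇ M))) =
      (-1) ^ ((j * D + 1 + 1) * e) * (E.f t' * W G τ E hD b j s') := by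
    intro s' hs' t' ht'
    have hs0 : s' ≠ [] := by rintro rfl; simp at hs'
    rw [front_right (f := E.f) E.nrm (fun l' : List ((ℝ →ᵇ M) × (ℝ →ᵇ M)) =>
      W G τ E hD b j (l'.map Prod.fst)) e s' t' (by omega) hs0 (by rintro rfl; simp at ht'),
      if_pos (by omega), hs', List.take_of_length_le (by omega)]
    obtain ⟨x, hx⟩ : ∃ x, t'.drop e = [x] := by
      have : (t'.drop e).length = 1 := by rw [List.length_drop]; omega
      exact List.length_eq_one_iff.1 this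
    rw [hx, Sh_point_right x hs0, ev_single, one_mul, List.map_map]
    have : (Prod.fst ∘ fun a : ℝ →ᵇ M => (a, x)) = id := rfl
    rw [this, List.map_id]
  have h3 : ∀ s' : List (ℝ →ᵇ M), s'.length = j * D + 1 →
      ev (fun l : List ((ℝ →ᵇ M) × (ℝ →ᵇ M)) => E.f ((l.take (e + 1)).map Prod.snd) *
          (fun l' : List ((ℝ →ᵇ M) × (ℝ →ᵇ M)) => W G τ E hD b j (l'.map Prod.fst))
            (l.drop e)) (sh (single s' (1 : k)) Y) =
      (-1) ^ ((j * D + 1 + 1) * e) * (ev E.f Y * W G τ E hD b j s') := by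
    intro s' hs'
    have := eq_of_mem (F := ev (fun l : List ((ℝ →ᵇ M) × (ℝ →ᵇ M)) =>
        E.f ((l.take (e + 1)).map Prod.snd) *
          (fun l' : List ((ℝ →ᵇ M) × (ℝ →ᵇ M)) => W G τ E hD b j (l'.map Prod.fst))
            (l.drop e)) ∘ₗ (sh (k := k) (single s' (1 : k))))
      (G := ((-1) ^ ((j * D + 1 + 1) * e) * W G τ E hD b j s') • ev E.f) (fun t' ht' => by
        rw [LinearMap.comp_apply, sh_single, h2 s' hs' t' ht'.1, LinearMap.smul_apply,
          ev_single, smul_eq_mul]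
        ring) hY
    rw [LinearMap.comp_apply, LinearMap.smul_apply, smul_eq_mul] at this
    rw [this]
    ring
  have h4 := eq_of_mem (F := ev (fun l : List ((ℝ →ᵇ M) × (ℝ →ᵇ M)) =>
        E.f ((l.take (e + 1)).map Prod.snd) *
          (fun l' : List ((ℝ →ᵇ M) × (ℝ →ᵇ M)) => W G τ E hD b j (l'.map Prod.fst))
            (l.drop e)) ∘ₗ (sh (k := k) (α := ℝ →ᵇ M) (β := ℝ →ᵇ M)).flip Y)
      (G := ((-1) ^ ((j * D + 1 + 1) * e) * ev E.f Y) • ev (W G τ E hD b j)) (fun s' hs' => by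
        rw [LinearMap.comp_apply, LinearMap.flip_apply, h3 s' hs'.1, LinearMap.smul_apply,
          ev_single, smul_eq_mul]
        ring) hz
  rw [LinearMap.comp_apply, LinearMap.flip_apply, LinearMap.smul_apply, smul_eq_mul] at h4
  rw [h4]
  ring

end Vale.Agent.P216.H977C
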