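import Vale.Agent.P216.H977C.Main

/-!
# P216-C, block C03: OMEGA from THOM and MID, crossing points in the top handle
-/

open Finsupp Set BoundedContinuousFunction

namespace Vale.Agent.P216.H977C

open Vale.Agent.P216.Sl Vale.Agent.P216.PS Vale.Agent.P216.N929

/-- **[MID], output (C12)**, for crossing points `y b` in the interior of the top handle. -/
def MidOutC {M : Type} [MetricSpace M] [CompactSpace M] {d h : ℕ} (C : H133C.CellDec M d h)
    (e D : ℕ) : Prop :=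
  ∀ G : Geo M (d * h), (∀ b, ∀ x ∈ C.L h, G.ρ₁ ≤ dist x (G.y b)) → ∃ s : ℝ, 0 ≤ s ∧
    ∀ (k : Type) [Field k], (2 : k) ≠ 0 → ∀ τ : Tau k M (d * h) G.ρ₁,
      (∀ y : M, ¬ ExL (univ : Set M) (d * h) fun l => τ.f (l.map fun x => (x, y))) →
        ∃ E : Eta k M e, AddE E.f ∧ Mid (D := D) G τ E s

/-- A nonempty compact set not containing `a` is at a positive distance. -/
theorem exists_dist_le {M : Type} [MetricSpace M] {K : Set M} (hK : IsCompact K) {a : M}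
    (ha : a ∉ K) : ∃ δ > 0, ∀ x ∈ K, δ ≤ dist x a := by
  rcases K.eq_empty_or_nonempty with rfl | hne
  · exact ⟨1, one_pos, fun x hx => absurd hx (notMem_empty x)⟩
  · obtain ⟨x₁, hx₁, hmin⟩ := hK.exists_isMinOn hne
      (f := fun x => dist x a) (by fun_prop)
    refine ⟨dist x₁ a, dist_pos.2 fun h => ha (h ▸ hx₁), fun x hx => hmin hx⟩

/-- The geometric data with crossing points away from a compact set. -/
theorem exists_geo' {M : Type} [MetricSpace M] {ρ : ℝ} (hU : LS.UniqSeg M ρ) (hρ : 0 < ρ) {n : ℕ}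
    (hn : 2 ≤ n) {x₀ a b : M} (h1 : x₀ ≠ a) (h2 : x₀ ≠ b) (h3 : a ≠ b) {K : Set M}
    (hK : IsCompact K) (ha : a ∉ K) (hb : b ∉ K) :
    ∃ G : Geo M n, G.x₀ = x₀ ∧ ∀ c, ∀ x ∈ K, G.ρ₁ ≤ dist x (G.y c) := by
  obtain ⟨δ₁, hδ₁, hda⟩ := exists_dist_le hK ha
  obtain ⟨δ₂, hδ₂, hdb⟩ := exists_dist_le hK hb
  have d1 : 0 < dist x₀ a := dist_pos.2 h1
  have d2 : 0 < dist x₀ b := dist_pos.2 h2
  have d3 : 0 < dist a b := dist_pos.2 h3
  set m := min (min δ₁ δ₂) (min (ρ / 4) (min (dist x₀ a) (min (dist x₀ b) (dist a b)))) with hm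
  have e0 : m ≤ ρ / 4 := (min_le_right _ _).trans (min_le_left _ _)
  have e1 : m ≤ dist x₀ a := (min_le_right _ _).trans ((min_le_right _ _).trans (min_le_left _ _))
  have e2 : m ≤ dist x₀ b := (min_le_right _ _).trans ((min_le_right _ _).trans
    ((min_le_right _ _).trans (min_le_left _ _)))
  have e3 : m ≤ dist a b := (min_le_right _ _).trans ((min_le_right _ _).trans
    ((min_le_right _ _).trans (min_le_right _ _)))
  have e4 : m ≤ δ₁ := (min_le_left _ _).trans (min_le_left _ _)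
  have e5 : m ≤ δ₂ := (min_le_left _ _).trans (min_le_right _ _)
  have hm0 : 0 < m := by positivity
  refine ⟨⟨ρ, m, ρ / 2, x₀, fun c => bif c then a else b, hU, by linarith, by linarith, hm0,
    by linarith, ?_, ?_, hn⟩, rfl, ?_⟩
  · rintro (_ | _)
    · exact e2
    · exact e1
  · rintro (_ | _)
    · exact e3.trans (by rw [dist_comm]; exact le_rfl)
    · exact e3
  · rintro (_ | _) x hx
    · exact e5.trans (hdb x hx)
    · exact e4.trans (hda x hx)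

/-- There are infinitely many points outside `L h`. -/
theorem infinite_compl {M : Type} [TopologicalSpace M] {d h : ℕ} (C : H133C.CellDec M d h)
    (hdh : 0 < d * h) : (C.L h)ᶜ.Infinite := by
  set Q := C.cell h le_rfl with hQ
  have : Nonempty (Fin (d * h)) := ⟨⟨0, hdh⟩⟩
  have hcube : ∀ t ∈ Ioo (0 : ℝ) 1, ∀ i : Fin (d * h), (fun _ => t : Fin (d * h) → ℝ) i ∈
      Icc (0 : ℝ) 1 := fun t ht _ => ⟨ht.1.le, ht.2.le⟩
  have hinj : Set.InjOn (fun t : ℝ => Q.ψ fun _ => t) (Ioo (0 : ℝ) 1) := by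
    intro s hs t ht hst
    have h1 := Q.φψ _ (hcube s hs)
    have h2 := Q.φψ _ (hcube t ht)
    have h3 : Q.ψ (fun _ => s) = Q.ψ (fun _ => t) := hst
    rw [h3, h2] at h1
    exact (congrFun h1 (Classical.arbitrary _)).symm
  refine ((Ioo_infinite (zero_lt_one (α := ℝ))).image hinj).mono ?_
  rintro _ ⟨t, ht, rfl⟩ hL
  have hmem : Q.ψ (fun _ => t) ∈ C.D h := Q.ψ_mem _ (hcube t ht)
  obtain ⟨i, hi⟩ := Q.φ_bd (Q.ψ fun _ => t) ⟨hmem, hL⟩
  rw [Q.φψ _ (hcube t ht)] at hi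
  rcases hi with h0 | h0
  · exact absurd h0 ht.1.ne'
  · exact absurd h0 ht.2.ne

/-- **OMEGA of P216-C** for manifolds with a decomposition in cells of dimensions `d j`. -/
theorem omegaC_dec {M : Type} [MetricSpace M] [CompactSpace M] [SimplyConnectedSpace M]
    {d h : ℕ} (C : H133C.CellDec M d h) (hd : 2 ≤ d) (hh : 2 ≤ h) {ρ : ℝ} (hρ : 0 < ρ)
    (hU : LS.UniqSeg M ρ) (hT : H133C.ThomOut M (d * h))
    (hM : MidOutC C (d - 1) (d * (h + 1) - 2)) (x₀ : M) :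
    ∃ B : ℝ, 0 < B ∧ ∀ (k : Type) [Field k], (2 : k) ≠ 0 →
      Nonempty (B64.OmegaOutC M (d - 1) (d * (h + 1) - 2) x₀ B k) := by
  obtain ⟨B0, hB0, hL⟩ := C313.lowC C (by omega) hρ hU
  have h1 : d * 2 ≤ d * h := Nat.mul_le_mul_left d hh
  have h2 : d * (h + 1) = d * h + d := by ring
  have hK : IsCompact (C.L h) := (C.isClosed_L h).isCompact
  obtain ⟨a, ha, ha'⟩ := (infinite_compl C (by omega)).exists_notMem_finite (Set.finite_singleton x₀)
  obtain ⟨b, hb, hb'⟩ := (infinite_compl C (by omega)).exists_notMem_finite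
    ((Set.finite_singleton x₀).insert a)
  simp only [mem_singleton_iff, mem_insert_iff, not_or] at ha' hb'
  obtain ⟨G, rfl, hG⟩ := exists_geo' hU hρ (n := d * h) (by omega) (fun h => ha' h.symm)
    (fun h => hb'.2 h.symm) (fun h => hb'.1 h.symm) hK ha hb
  obtain ⟨Dp, hDp, hne, hj⟩ := H250.pi0 hρ hU
  obtain ⟨s, hs, H⟩ := hM G hG
  have hCa : 1 + (⌈Dp⌉₊ : ℝ) + s ≤ 1 + ⌈Dp⌉₊ + s := le_rfl
  have hCa0 : (0 : ℝ) ≤ 1 + ⌈Dp⌉₊ + s := by positivity
  have hD : d * (h + 1) - 2 + 1 = d * h + (d - 1) := by omega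
  refine ⟨OmSysC.BC G.r (1 + ⌈Dp⌉₊ + s) Dp B0, ?_, fun k _ h2 => ?_⟩
  · have := G.hr
    unfold OmSysC.BC
    linarith
  · obtain ⟨τ, hτ⟩ := hT k h2 G.ρ₁ G.h1
    obtain ⟨E, hE, hmid⟩ := H k h2 τ hτ
    have hv : ∀ b, ∃ v : ℝ →ᵇ M, v ∈ P (G.y (!b)) (G.y b) ⌈Dp⌉₊ := fun b => by
      obtain ⟨v, hv⟩ := hne (G.y (!b)) (G.y b)
      exact ⟨v, P_mono (Nat.le_ceil Dp) hv⟩
    exact ⟨(omSysC G τ E hD hE (by omega) (by omega) hs hCa hv hmid).out (r₀ := G.ρ₁) (εt := τ.ε)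
      (D := Dp) G.seg G.hr G.hrρ G.h1r τ.hε ⟨τ.nrm, τ.coc, fun l _ _ h => τ.supp l h⟩
      ⟨hDp, hne, hj⟩ hCa0 (by omega) hD (by omega) hB0 hL h2⟩

end Vale.Agent.P216.H977C
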