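import Vale.Agent.P216.H977C.Mk7
import Vale.Agent.P216.H892.FibO

/-!
# P216-D, block MID: R2 for all the pairs of points

`exists_vanU`, `midEph`: the delay does not depend on the points.
-/

set_option linter.all false

open Set BoundedContinuousFunction

namespace Vale.Agent.P216.H977C

open Vale.Agent.P216.Sl Vale.Agent.P216.PS Vale.Agent.P216.E2L
open Vale.Agent.P216.MV337 (evz)
open Vale.Agent.P216.H456 (PF PF_mono)
open Vale.Agent.P216.H892 (FibU fbr nbc)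

section

variable {k : Type} [Field k] {M E E' : Type} [MetricSpace M] [PseudoMetricSpace E]
  [PseudoMetricSpace E'] {π : E → M} {X : ℝ → Set E} {O : ℝ → Set E'} {c r0 B t : ℝ}
  {φ : M → ℝ → E → E'} {ψ : M → ℝ → E' → E} {q : ℕ}

theorem exL_pull {Z : Set E} {Y : Set E'} {f : E → E'} (h1 : ∀ w ∈ Z, f w ∈ Y)
    (h2 : ∀ ε > 0, ∃ δ > 0, ∀ w ∈ Z, ∀ w' ∈ Z, dist w w' < δ → dist (f w) (f w') < ε)
    {F : List E' → k} (hF : ExL Y q F) : ExL Z q fun l => F (l.map f) := by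
  obtain ⟨g, hg0, ε, hε, hg⟩ := hF
  obtain ⟨δ, hδ, h⟩ := h2 ε hε
  refine ⟨fun l => g (l.map f), fun h0 l => hg0 h0 _, δ, hδ, fun l hl hs => ?_⟩
  rw [dl_map]
  exact hg _ (by rw [List.length_map, hl]) (H892.SmL.map' hs fun w hw =>
    ⟨h1 w hw, fun w' hw' hd => h w hw w' hw' hd⟩)

theorem cocL_pull {Z : Set E} {Y : Set E'} {f : E → E'} (h1 : ∀ w ∈ Z, f w ∈ Y)
    (h2 : ∀ ε > 0, ∃ δ > 0, ∀ w ∈ Z, ∀ w' ∈ Z, dist w w' < δ → dist (f w) (f w') < ε)
    {F : List E' → k} (hF : CocL Y q F) : CocL Z q fun l => F (l.map f) := by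
  obtain ⟨ε, hε, hg⟩ := hF
  obtain ⟨δ, hδ, h⟩ := h2 ε hε
  refine ⟨δ, hδ, fun l hl hs => ?_⟩
  rw [dl_map]
  exact hg _ (by rw [List.length_map, hl]) (H892.SmL.map' hs fun w hw =>
    ⟨h1 w hw, fun w' hw' hd => h w hw w' hw' hd⟩)

/-- The vanishing on the fibre over `x₀` gives the vanishing on all the fibres. -/
theorem van_move (U : FibU π X O c r0 φ ψ) (ht : 0 < t) (hB : 0 ≤ B) (hq : q ≠ 0)
    (hO : ∀ z : List E' → k, CocL (O (t + c + B)) q z → ExL (O (t + c)) q z) (a : M)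
    {F : List E → k} (hF : CocL (fbr π (X (t + (B + 2 * c))) a) q F) :
    ExL (fbr π (X t) a) q F := by
  have hc := U.hc
  set T := t + c + B with hT
  have hT0 : 0 < T := by linarith
  have e1 : t + (B + 2 * c) = T + c := by rw [hT]; ring
  rw [e1] at hF
  have hsub : fbr π (X t) a ⊆ nbc π (X t) a r0 := fun w hw => ⟨hw.1, by
    rw [hw.2, dist_self]; exact U.hr.le⟩
  -- `z'`
  have h1 := hO _ (cocL_pull ((U.um' T hT0).1 a) (fun ε hε => by
    obtain ⟨δ, hδ, h⟩ := (U.um' T hT0).2 ε hε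
    exact ⟨δ, hδ, h a⟩) hF)
  -- `ψ` at the levels `t + c` and `T`
  have h2 : ExL (O (t + c)) q fun l => F (l.map (ψ a T)) - F (l.map (ψ a (t + c))) := by
    obtain ⟨r, hr, h⟩ := hF
    obtain ⟨δ, hδ, h1⟩ := (U.h4' (t + c) (by linarith) T (by linarith)).list (k := k) q r hr
    obtain ⟨G, -, hG⟩ := h1 a F h
    exact ⟨G, fun h => absurd h hq, δ, hδ, hG⟩
  have h3 := K3.exL_comb h1 h2 1 (-1)
  have e3 : (fun l : List E' => (1 : k) * F (l.map (ψ a T)) +
      -1 * (F (l.map (ψ a T)) - F (l.map (ψ a (t + c))))) = fun l => F (l.map (ψ a (t + c))) := by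
    funext l
    ring
  rw [e3] at h3
  -- pull back by `φ`
  have h4 := exL_pull (Z := fbr π (X t) a) (f := φ a t) (fun w hw => (U.um t ht).1 a (hsub hw))
    (fun ε hε => by
      obtain ⟨δ, hδ, h⟩ := (U.um t ht).2 ε hε
      exact ⟨δ, hδ, fun w hw w' hw' hd => h a w (hsub hw) w' (hsub hw') hd⟩) h3
  -- the homotopy
  have hfib : ∀ s, nbc π (X s) a 0 = fbr π (X s) a := fun s => by
    ext w
    exact ⟨fun hw => ⟨hw.1, (dist_le_zero.1 hw.2).symm⟩, fun hw => ⟨hw.1, by rw [hw.2, dist_self]⟩⟩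
  have h5 : ExL (fbr π (X t) a) q fun l =>
      F (l.map fun w => ψ a (t + c) (φ a t w)) - F (l.map id) := by
    obtain ⟨r, hr, h⟩ := hF
    obtain ⟨δ, hδ, h1⟩ := (U.h2 t ht).list (k := k) q r hr
    obtain ⟨G, -, hG⟩ := h1 (a, ⟨0, U.hr.le⟩) F fun l h2 h3 => h l h2 (by
      have h3' : SmL (nbc π (X (t + 2 * c)) a 0) r l := h3
      rw [hfib] at h3'
      exact h3'.mono (fun w hw => ⟨U.monoX (by linarith) hw.1, hw.2⟩) le_rfl)
    refine ⟨G, fun h => absurd h hq, δ, hδ, fun l h2 h3 => hG l h2 ?_⟩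
    show SmL (nbc π (X t) a 0) δ l
    rw [hfib]
    exact h3
  have h6 := K3.exL_comb h4 h5 1 (-1)
  have e6 : (fun l : List E => (1 : k) * F ((l.map (φ a t)).map (ψ a (t + c))) +
      -1 * (F (l.map fun w => ψ a (t + c) (φ a t w)) - F (l.map id))) = F := by
    funext l
    rw [List.map_id, List.map_map]
    show (1 : k) * F (l.map fun w => ψ a (t + c) (φ a t w)) + _ = _
    ring
  rwa [e6] at h6

end

/-- **R2**, uniform in the end point. -/
theorem exists_vanU {Kf : Fld} {M : Type} [MetricSpace M] [CompactSpace M]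
    [SimplyConnectedSpace M] {ρ : ℝ} (hρ : 0 < ρ) (hU : LS.UniqSeg M ρ) {d h : ℕ} (hd : 2 ≤ d)
    (hh : 1 ≤ h) (hb : ∀ (k : Type) [Field k], Kf k → Nonempty (H934D.BaseK k M d h))
    (hBE : BaseExK Kf M d h) (x₀ : M) :
    ∀ Q, Q + 1 < d * (h + 1) → ∃ B, 0 ≤ B ∧ ∀ b, VanP Kf x₀ b d Q B := by
  obtain ⟨B0, hB0, hL⟩ := H934D.lowK_of_base Kf hρ hU (by omega) hh hb
  obtain ⟨s, hs, hE⟩ := H994.etaNeK_of_low hρ hU hd hB0 hL
  obtain ⟨Dp, hDp, hne, hj⟩ := H250.pi0 hρ hU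
  have hD : IsPi M Dp := ⟨hDp, hne, hj⟩
  obtain ⟨c, r0, hF⟩ := H971.Low.exists_fibPF hρ hU x₀
  have hc : 0 ≤ c := by
    obtain ⟨φ, ψ, U, -⟩ := hF x₀
    exact U.hc
  intro Q
  induction Q with
  | zero => exact fun _ => ⟨0, le_rfl, fun b k _ _ q _ h => absurd h (by omega)⟩
  | succ Q ih =>
    intro hQ
    obtain ⟨B, hB, hV⟩ := ih (by omega)
    by_cases hdQ : d - 1 < Q
    · set t₀ : ℝ := max (max s Dp) 1 with ht₀
      set β : ℝ := 2 * c + Dp + (B0 + B) with hβ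
      have hβ0 : 0 ≤ β := by positivity
      have ht0 : 0 < t₀ := lt_of_lt_of_le one_pos (le_max_right _ _)
      have hqβ : 0 ≤ (Q : ℝ) * β := by positivity
      refine ⟨max B (t₀ + Q * β + c), le_max_of_le_left hB, fun b k _ hk q h1 h2 t ht F hF' => ?_⟩
      obtain ⟨φ, ψ, U, hx⟩ := hF b
      rcases lt_or_ge q Q with hq | hq
      · exact hV b k hk q h1 hq t ht F (hF'.mono (P_mono (by
          have := le_max_left B (t₀ + Q * β + c)
          linarith)))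
      · obtain rfl : q = Q := by omega
        obtain ⟨Bk⟩ := hb k hk
        obtain ⟨N, hN⟩ := exists_nat_one_div_lt (show (0 : ℝ) < Bk.ε / 4 by linarith [Bk.hε])
        have hxi := K3.ne_xi hh Bk
        have Hne : ∀ x, ¬ ExL (P x b t₀) (d - 1) (H140.eta N Bk.ξ) := fun x hx =>
          hE k hk Bk.ξ Bk.ε Bk.hε Bk.nξ Bk.cξ hxi N hN x b
            (hx.mono (P_mono ((le_max_left _ _).trans (le_max_left _ _))))
        have H := fun T => K3.data_eta hd Bk.hε Bk.nξ Bk.cξ hN b T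
        refine K3.r2_step (x₀ := x₀) ht0.le hβ0 hc H
          (H456D.ne_PF hD ((le_max_right s Dp).trans (le_max_left _ _)))
          (H456D.fibNe_PF (by omega) Hne) hdQ
          (fibS_of_van U hD hd hB0 hL hB (hV b) ht0 hk H Hne)
          (hBE k hk Bk q h1 (by omega)) (fun t ht z hz => ?_) ht
          (hF'.mono (P_mono ?_))
        · refine ⟨fun x l => z (l.map (φ x t)), U.famV univ ht le_rfl hz, ?_⟩
          have e := H892.UH.list_one (hx t ht) hz (by omega)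
          simpa only [List.map_id] using e
        · have := le_max_right B (t₀ + q * β + c)
          linarith
    · exact ⟨B, hB, fun b k _ hk q h1 h2 => absurd h1 (by omega)⟩

/-- **R2**, for all the pairs of points: the stable vanishing of the cohomology of the paths in the
degrees `e < q < D`, `e + 1 = d`, `D + 2 = d (h + 1)`. -/
theorem midEph {Kf : Fld} {M : Type} [MetricSpace M] [CompactSpace M]
    [SimplyConnectedSpace M] {ρ : ℝ} (hρ : 0 < ρ) (hU : LS.UniqSeg M ρ) {d h : ℕ} (hd : 2 ≤ d)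
    (hh : 1 ≤ h) (hb : ∀ (k : Type) [Field k], Kf k → Nonempty (H934D.BaseK k M d h))
    (hBE : BaseExK Kf M d h) {e D : ℕ} (he : e + 1 = d) (hD : D + 2 = d * (h + 1)) :
    ∃ B : ℝ, 0 ≤ B ∧ ∀ (k : Type) [Field k], Kf k → ∀ q, e < q → q < D → ∀ (a b : M),
      ∀ t > 0, ∀ F : List (ℝ →ᵇ M) → k, CocL (P a b (t + B)) q F → ExL (P a b t) q F := by
  obtain ⟨x₀⟩ : Nonempty M := inferInstance
  obtain ⟨c, r0, hF⟩ := H971.Low.exists_fibPF hρ hU x₀
  have hc : 0 ≤ c := by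
    obtain ⟨φ, ψ, U, -⟩ := hF x₀
    exact U.hc
  obtain ⟨B, hB, hV⟩ := exists_vanU hρ hU hd hh hb hBE x₀ D (by omega)
  refine ⟨B + 2 * c, by positivity, fun k _ hk q h1 h2 a b t ht F hF' => ?_⟩
  obtain ⟨φ, ψ, U, hx⟩ := hF b
  rw [← H456D.fbr_PF] at hF' ⊢
  exact van_move (X := fun t => PF b t) U ht hB (by omega)
    (fun z hz => hV b k hk q (by omega) h2 (t + c) (by linarith) z hz) a hF'

end Vale.Agent.P216.H977C
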