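import Vale.Agent.P216.H977C.MkDefs

/-!
# P216-D, block MID: a closed triple which is exact on the fibres is exact
-/

set_option linter.all false

open Set

namespace Vale.Agent.P216.H977C

open Vale.Agent.P216.Sl Vale.Agent.P216.PS Vale.Agent.P216.E2L

namespace K3

variable {k : Type} [Field k] {M E : Type} [PseudoMetricSpace M] [PseudoMetricSpace E]
variable {π : E → M} {e : ℕ} {η : List E → k} {ξ : List M → k} {X X' : Set E} {ε r r' : ℝ}
  {xs : List M} {m p N : ℕ} {F F' : List M → T3 k M E}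

theorem exL_congr_dl {Z : Type} [PseudoMetricSpace Z] {Y : Set Z} {q : ℕ} {f f' : List Z → k}
    (h : ExL Y q f) (h' : ∀ l, l.length = q + 1 → (∀ x ∈ l, x ∈ Y) → f' l = f l) : ExL Y q f' := by
  obtain ⟨g, hg, ε, hε, h⟩ := h
  exact ⟨g, hg, ε, hε, fun l h1 h2 => by rw [h' l h1 h2.1, h l h1 h2]⟩

theorem vert_map {x : M} {ws : List E} (h : ∀ w ∈ ws, π w = x) :
    ws.map π = List.replicate ws.length x := by
  rw [List.eq_replicate_iff]
  refine ⟨List.length_map _, fun y hy => ?_⟩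
  obtain ⟨w, hw, rfl⟩ := List.mem_map.1 hy
  exact h w hw

theorem not_chain_replicate {x : M} {n : ℕ} (hn : 2 ≤ n) :
    ¬ (List.replicate n x).IsChain (· ≠ ·) := by
  intro hc
  obtain ⟨n', rfl⟩ : ∃ n', n = n' + 2 := ⟨n - 2, by omega⟩
  rw [List.replicate_succ, List.replicate_succ, List.isChain_cons_cons] at hc
  exact hc.1 rfl

theorem not_chain_cons_self {x : M} {l : List M} : ¬ (x :: x :: l).IsChain (· ≠ ·) := by
  intro hc
  rw [List.isChain_cons_cons] at hc
  exact hc.1 rfl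

variable (H : Data π e η ξ X ε)

include H

/-- **The local step, fibrewise exact triples.** -/
theorem klocL (hX : X' ⊆ X) (hm : 1 ≤ m) (hne : m = e → FibNe π e η X)
    (hF : FibLoc k π X X' (m - 1)) : ∀ r > 0, ∃ r' > 0, ∀ (x : M) (xs : List M),
      SmL univ r' (x :: xs) → ∀ t : T3 k M E, Good t →
        V π e X r (x :: xs) (m + 1) (D e π η ξ t) → ExL (H892.fbr π X x) (m - 1) t.1 →
          ∃ u : T3 k M E, Good u ∧ V π e X' r' (x :: xs) m (t - D e π η ξ u) := by
  intro r hr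
  set r₀ := min r ε with hr₀
  have hr0 : 0 < r₀ := lt_min hr H.hε
  obtain ⟨r', hr', hS⟩ := hF r₀ hr0
  refine ⟨min r' r₀, lt_min hr' hr0, fun x xs hx t ht hD hfx => ?_⟩
  have hx0 : SmL univ r₀ (x :: xs) := hx.mono subset_rfl (min_le_right _ _)
  have hD0 := hD.mono subset_rfl (min_le_left r ε : r₀ ≤ r)
  -- `c`
  obtain ⟨h, h0, hN, hh, hv⟩ : ∃ h : List M → k, h [] = 0 ∧ Nrm h ∧
      (∀ ys, ys.length = m + 1 - e → Dom id univ univ r₀ (x :: xs) ys →
        t.2.2 ys + dl h ys = 0) ∧ ∀ n, h (List.replicate n x) = 0 := by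
    have hc : ∀ ys, ys.length = m + 2 - e → Dom id univ univ r₀ (x :: xs) ys →
        dl t.2.2 ys = 0 := by
      intro ys h1 h2
      have := hD0.c ys h1 h2
      rwa [D_c, neg_eq_zero] at this
    rcases Nat.lt_or_ge e m with hm' | hm'
    · refine ⟨fun ys => -cn x t.2.2 ys, by show -cn x t.2.2 [] = 0; rw [cn_nil, neg_zero],
        fun ys hys => by show -cn x t.2.2 ys = 0; rw [nrm_cn ht.nc ys hys, neg_zero],
        fun ys h1 h2 => ?_, fun n => ?_⟩
      · have h3 : dl (fun ys => -cn x t.2.2 ys) ys = -dl (cn x t.2.2) ys := by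
          rw [show (fun ys => -cn x t.2.2 ys) = fun ys => (-1) * cn x t.2.2 ys by funext ys; ring,
            dl_mul_left]
          ring
        rw [h3, dl_cn (by omega), hc (x :: ys) (by rw [List.length_cons]; omega) (dom_cons hr0 h2)]
        ring
      · show -cn x t.2.2 (List.replicate n x) = 0
        rcases n with _ | n
        · rw [List.replicate_zero, cn_nil, neg_zero]
        · rw [List.replicate_succ, cn_of_ne (by simp), ht.nc _ not_chain_cons_self, neg_zero]
    · obtain ⟨h, h0, hN, hh⟩ := kloc_c H hr0 hne hx0 ht hD0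
      refine ⟨fun _ => 0, rfl, fun _ _ => rfl, fun ys h1 h2 => ?_, fun _ => rfl⟩
      rw [dl_zero_fun, add_zero]
      have h3 := hh ys h1 h2
      rcases Nat.eq_zero_or_pos ys.length with h4 | h4
      · rw [List.length_eq_zero_iff.1 h4, ht.c0]
      · obtain ⟨y, rfl⟩ := List.length_eq_one_iff.1 (by omega : ys.length = 1)
        rw [dl_one, h0, add_zero] at h3
        exact h3
  have gh : Good ((0, 0, h) : T3 k M E) := ⟨rfl, rfl, h0, fun _ _ => rfl, hN⟩
  set t₁ : T3 k M E := t - D e π η ξ (0, 0, h) with ht₁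
  have g₁ : Good t₁ := ht.sub (gh.D H.nξ)
  have hD₁ : V π e X r₀ (x :: xs) (m + 1) (D e π η ξ t₁) := by
    rw [ht₁, map_sub]
    exact hD0.sub (V.DD H (min_le_right _ _) h0 _)
  have hc₁ : ∀ ys, ys.length = m + 1 - e → Dom id univ univ r₀ (x :: xs) ys →
      t₁.2.2 ys = 0 := by
    intro ys h1 h2
    show t.2.2 ys - (D e π η ξ ((0, 0, h) : T3 k M E)).2.2 ys = 0
    rw [D_c]
    have := hh ys h1 h2
    linear_combination this
  -- `a`
  set b : List M → k := fun ys => -cn x t₁.2.1 ys with hb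
  have b0 : b [] = 0 := by rw [hb]; show -cn x t₁.2.1 [] = 0; rw [cn_nil, neg_zero]
  have bN : Nrm b := fun ys hys => by
    show -cn x t₁.2.1 ys = 0
    rw [nrm_cn g₁.na ys hys, neg_zero]
  have bv : ∀ n, b (List.replicate n x) = 0 := by
    intro n
    show -cn x t₁.2.1 (List.replicate n x) = 0
    rcases n with _ | n
    · rw [List.replicate_zero, cn_nil, neg_zero]
    · rw [List.replicate_succ, cn_of_ne (by simp), g₁.na _ not_chain_cons_self, neg_zero]
  have gb : Good ((0, b, 0) : T3 k M E) := ⟨rfl, b0, rfl, bN, fun _ _ => rfl⟩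
  set t₂ : T3 k M E := t₁ - D e π η ξ (0, b, 0) with ht₂
  have g₂ : Good t₂ := g₁.sub (gb.D H.nξ)
  have hD₂ : V π e X r₀ (x :: xs) (m + 1) (D e π η ξ t₂) := by
    rw [ht₂, map_sub]
    exact hD₁.sub (V.DD H (min_le_right _ _) rfl _)
  have hc₂ : ∀ ys, ys.length = m + 1 - e → Dom id univ univ r₀ (x :: xs) ys →
      t₂.2.2 ys = 0 := by
    intro ys h1 h2
    show t₁.2.2 ys - (D e π η ξ ((0, b, 0) : T3 k M E)).2.2 ys = 0
    rw [D_b, hc₁ ys h1 h2]
    exact sub_zero _
  have ha₂ : ∀ ys, ys.length = m + 1 → Dom id univ univ r₀ (x :: xs) ys →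
      t₂.2.1 ys = 0 := by
    intro ys h1 h2
    show t₁.2.1 ys - (D e π η ξ ((0, b, 0) : T3 k M E)).2.1 ys = 0
    rw [D_b]
    show t₁.2.1 ys - -dl b ys = 0
    have h3 : dl b ys = -dl (cn x t₁.2.1) ys := by
      rw [hb, show (fun ys => -cn x t₁.2.1 ys) = fun ys => (-1) * cn x t₁.2.1 ys by funext ys; ring,
        dl_mul_left]
      ring
    have h4 : dl t₁.2.1 (x :: ys) = 0 := by
      have h5 := hD₁.a (x :: ys) (by rw [List.length_cons, h1]) (dom_cons hr0 h2)
      have h6 : rc (e + 1) id t₁.2.2 ξ (x :: ys) = 0 := by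
        unfold rc
        rw [List.map_id, hc₁ _ (by rw [List.length_take, List.length_cons]; omega)
          ((dom_cons hr0 h2).sub (fun _ h => h) fun y hy => List.mem_of_mem_take hy), zero_mul]
      rw [D_a, h6, mul_zero, add_zero, neg_eq_zero] at h5
      exact h5
    rw [h3, dl_cn (by omega), h4]
    ring
  -- `f`
  have hf₂ : ∀ ws, ws.length = m + 1 → Dom π univ X r₀ (x :: xs) ws → dl t₂.1 ws = 0 := by
    intro ws h1 h2
    have h3 := hD₂.f ws h1 h2
    have h4 : t₂.2.1 (ws.map π) = 0 := ha₂ _ (by rw [List.length_map, h1]) (dom_map H.hπ h2)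
    have h5 : rc e π t₂.2.2 η ws = 0 := by
      unfold rc
      rw [hc₂ _ (by rw [List.length_map, List.length_take]; omega)
        ((dom_map H.hπ h2).sub (fun _ h => h) fun y hy => by
          rw [List.map_take] at hy
          exact List.mem_of_mem_take hy), zero_mul]
    rw [D_f, h4, h5] at h3
    linear_combination h3
  have hfx₂ : ExL (H892.fbr π X x) (m - 1) t₂.1 := by
    refine exL_congr_dl hfx fun ws h1 h2 => ?_
    show t.1 ws - (D e π η ξ ((0, 0, h) : T3 k M E)).1 ws -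
      (D e π η ξ ((0, b, 0) : T3 k M E)).1 ws = t.1 ws
    rw [D_h, D_b]
    show t.1 ws - -rc e π h η ws - -b (ws.map π) = t.1 ws
    have h3 := vert_map (π := π) (x := x) (ws := ws) fun w hw => (h2 w hw).2
    have h4 : rc e π h η ws = 0 := by
      unfold rc
      rw [vert_map (π := π) (x := x) (ws := ws.take (ws.length - e))
        (fun w hw => (h2 w (List.mem_of_mem_take hw)).2), hv, zero_mul]
    rw [h3, bv, h4]
    ring
  obtain ⟨g, g0, hg⟩ := hS x xs (hx.mono subset_rfl (min_le_left _ _)) t₂.1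
    (fun ws h1 h2 => hf₂ ws (by omega) h2) hfx₂
  -- the primitive, `0` on the empty list
  set g' : List E → k := fun ws => if ws = [] then 0 else g ws with hg'
  have hdl : ∀ ws, ws.length = m → dl g' ws = dl g ws := by
    intro ws h1
    rcases Nat.lt_or_ge m 2 with h2 | h2
    · have h3 : m = 1 := by omega
      obtain ⟨w, rfl⟩ := List.length_eq_one_iff.1 (h1.trans h3)
      rw [dl_one, dl_one, g0 (by omega)]
      rfl
    · exact dl_congr fun l' h3 _ => if_neg (by rintro rfl; simp at h3; omega)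
  have gu : Good ((g', 0, 0) : T3 k M E) :=
    ⟨by show g' [] = 0; rw [hg']; exact if_pos rfl, rfl, rfl, fun _ _ => rfl, fun _ _ => rfl⟩
  refine ⟨(0, 0, h) + ((0, b, 0) + (g', 0, 0)), gh.add (gb.add gu), ?_⟩
  have e0 : t - D e π η ξ ((0, 0, h) + ((0, b, 0) + (g', 0, 0))) =
      t₂ - D e π η ξ (g', 0, 0) := by
    rw [map_add, map_add, ht₂, ht₁]
    abel
  rw [e0]
  refine ⟨fun ws h1 h2 => ?_, fun ys h1 h2 => ?_, fun ys h1 h2 => ?_⟩
  · have h3 := hg ws (by omega) (h2.mono subset_rfl (min_le_left _ _))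
    show t₂.1 ws - (D e π η ξ _).1 ws = 0
    rw [D_f, h3]
    show dl g ws - (dl g' ws - 0 - rc e π (fun _ => (0 : k)) η ws) = 0
    rw [rc_zero, hdl ws h1]
    ring
  · have h2' := h2.mono (subset_rfl) (min_le_right r' r₀)
    show t₂.2.1 ys - (D e π η ξ _).2.1 ys = 0
    rw [ha₂ ys h1 h2', D_a]
    show 0 - -(dl (fun _ => (0 : k)) ys + _ * rc (e + 1) id (fun _ => (0 : k)) ξ ys) = 0
    rw [dl_zero_fun, rc_zero]
    ring
  · have h2' := h2.mono (subset_rfl) (min_le_right r' r₀)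
    show t₂.2.2 ys - (D e π η ξ _).2.2 ys = 0
    rw [hc₂ ys h1 h2', D_c]
    show 0 - -dl (fun _ => (0 : k)) ys = 0
    rw [dl_zero_fun]
    ring

omit H in
/-- the constant Čech cochain on one vertex -/
def cst1 (v : T3 k M E) (xs : List M) : T3 k M E := if xs.length = 1 then v else 0

omit H in
theorem cst1_one (v : T3 k M E) {xs : List M} (h : xs.length = 1) : cst1 v xs = v := if_pos h

omit H in
theorem del_two (F : List M → T3 k M E) (x y : M) : del F [x, y] = F [y] - F [x] := by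
  refine Prod.ext (funext fun l => ?_) (Prod.ext (funext fun l => ?_) (funext fun l => ?_))
  · show dl (fun ys => (F ys).1 l) [x, y] = (F [y]).1 l - (F [x]).1 l
    rw [dl_cons, dl_one]
  · show dl (fun ys => (F ys).2.1 l) [x, y] = (F [y]).2.1 l - (F [x]).2.1 l
    rw [dl_cons, dl_one]
  · show dl (fun ys => (F ys).2.2 l) [x, y] = (F [y]).2.2 l - (F [x]).2.2 l
    rw [dl_cons, dl_one]

omit H in
/-- `C 0` of a constant. -/
theorem C_cst (v : T3 k M E) : (∀ l : List E, l ≠ [] → (C π 0 (cst1 v)).1 l = v.1 l) ∧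
    (∀ l : List M, l ≠ [] → (C π 0 (cst1 v)).2.1 l = v.2.1 l) ∧
    ∀ l : List M, l ≠ [] → (C π 0 (cst1 v)).2.2 l = v.2.2 l := by
  refine ⟨fun l hl => ?_, fun l hl => ?_, fun l hl => ?_⟩
  · rw [C_f, cst1_one v (by
      rw [List.length_map, List.length_take]
      have := List.length_pos_iff.2 hl
      omega)]
    rfl
  · rw [C_a, cst1_one v (by
      rw [List.length_take]
      have := List.length_pos_iff.2 hl
      omega), pow_zero, one_mul]
    rfl
  · rw [C_c, cst1_one v (by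
      rw [List.length_take]
      have := List.length_pos_iff.2 hl
      omega), pow_zero, one_mul]
    rfl

omit H in
/-- **R3core**: a closed triple of degree `m - 1` which is exact on all the fibres is exact. -/
theorem exact_of_fibres {X : ℝ → Set E} (hmono : ∀ s t, s ≤ t → X s ⊆ X t) {T t₀ β : ℝ}
    (hβ : 0 ≤ β) (H : Data π e η ξ (X T) ε) (hne0 : ∀ x, ∃ w ∈ X t₀, π w = x)
    (hne : FibNe π e η (X t₀)) {m : ℕ} (hm : 1 ≤ m)
    (hS : ∀ j, 1 ≤ j → j < m → ∀ t, t₀ ≤ t → t + β ≤ T → FibS π e η ξ (X (t + β)) (X t) j)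
    (hL : ∀ t, t₀ ≤ t → t + β ≤ T → FibLoc k π (X (t + β)) (X t) (m - 1)) {t : ℝ} (ht : t₀ ≤ t)
    (htT : t + m * β ≤ T) {v : T3 k M E} (gv : Good v)
    (hv : GZ e (X (t + m * β)) (m + 1) (D e π η ξ v))
    (hfib : ∀ x, ExL (H892.fbr π (X (t + m * β)) x) (m - 1) v.1) :
    ∃ u : T3 k M E, Good u ∧ GZ e (X t) m (v - D e π η ξ u) := by
  obtain ⟨m', rfl⟩ : ∃ m', m = m' + 1 := ⟨m - 1, by omega⟩
  have e1 : t + (m' + 1 : ℕ) * β = (t + m' * β) + β := by push_cast; ring
  rw [e1] at htT hv hfib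
  have hmβ : 0 ≤ (m' : ℝ) * β := by positivity
  have hX : X (t + m' * β) ⊆ X (t + m' * β + β) := hmono _ _ (by linarith)
  have H' := H.mono (hmono _ T htT) H.hε le_rfl
  have hne' : FibNe π e η (X (t + m' * β + β)) := fun r hr x c f h =>
    hne r hr x c f fun ws h1 h2 h3 => h ws h1 (h2.mono (hmono _ _ (by linarith)) le_rfl) h3
  have he1 := H.he
  -- the first step
  obtain ⟨r, hr, hv1, hv2, hv3⟩ := hv
  obtain ⟨r', hr', hK⟩ := klocL H' hX hm (fun _ => hne') (hL _ (by linarith) htT) r hr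
  have hVD : ∀ xs : List M, V π e (X (t + m' * β + β)) r xs (m' + 1 + 1) (D _ π η ξ v) :=
    fun xs => ⟨fun ws h1 h2 => hv1 ws h1 h2.2.1, fun ys h1 h2 => hv2 ys h1 h2.2.1,
      fun ys h1 h2 => hv3 ys h1 h2.2.1⟩
  choose Y₀ hY₀ hV₀ using fun x : M => hK x [] ⟨fun _ _ => mem_univ _, fun y hy z hz => by
    rw [List.mem_singleton.1 hy, List.mem_singleton.1 hz, dist_self]; exact hr'⟩ v gv (hVD [x])
    (hfib x)
  set Y : List M → T3 k M E := fun xs => match xs with
    | [x] => Y₀ x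
    | _ => 0 with hY
  have gY : ∀ xs, Good (Y xs) := by
    intro xs
    rcases xs with _ | ⟨x, _ | ⟨y, l⟩⟩
    · exact Good.zero
    · exact hY₀ x
    · exact Good.zero
  have nY : ∀ xs : List M, ¬ xs.IsChain (· ≠ ·) → Y xs = 0 := by
    intro xs hx
    rcases xs with _ | ⟨x, _ | ⟨y, l⟩⟩
    · rfl
    · exact absurd (List.isChain_singleton x) hx
    · rfl
  have gC : ∀ xs, Good (cst1 v xs) := fun xs => by
    unfold cst1
    split_ifs
    · exact gv
    · exact Good.zero
  have hd : KZ π e (X (t + m' * β)) (0 + 1) (m' + 1) fun xs => cst1 v xs - D e π η ξ (Y xs) := by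
    refine ⟨r', hr', fun xs hx => ?_⟩
    obtain ⟨x, rfl⟩ := List.length_eq_one_iff.1 hx
    exact hV₀ x
  have hstep := C_step H' hX gC gY hd
  rw [pow_zero, one_smul] at hstep
  -- the next bicocycle
  have hnext : KBC π e η ξ (X (t + m' * β)) 1 m' (del Y) := by
    refine ⟨Good.del gY, nrm_del nY, ?_, ?_⟩
    · have h1 := hd.del
      obtain ⟨r₁, hr₁, h1⟩ := h1
      refine ⟨r₁, hr₁, fun xs hx => ?_⟩
      obtain ⟨x, y, rfl⟩ := List.length_eq_two.1 hx
      have h2 := (h1 [x, y] (by rfl)).smul (-1)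
      show V π e _ r₁ [x, y] (m' + 1) (D e π η ξ (del Y [x, y]))
      rw [D_del]
      have h3 : del (fun ys => D e π η ξ (Y ys)) [x, y] =
          (-1 : k) • del (fun xs => cst1 v xs - D e π η ξ (Y xs)) [x, y] := by
        rw [del_two, del_two]
        show _ = (-1 : k) • ((cst1 v [y] - D e π η ξ (Y [y])) - (cst1 v [x] - D e π η ξ (Y [x])))
        rw [cst1_one v (xs := [y]) (by rfl), cst1_one v (xs := [x]) (by rfl), neg_one_smul]
        abel
      rw [h3]
      exact h2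
    · refine ⟨1, one_pos, fun xs _ => ?_⟩
      rw [del_del]
      exact V.zero
  obtain ⟨G, hG, -, hGZ⟩ := kkill hmono hβ H hne0 hne
    (m₀ := m') (fun j h1 h2 => hS j h1 (by omega)) m' 1 t le_rfl ht (by linarith) _ hnext
  refine ⟨C π 0 Y - G, (Good.C 0 gY nY).sub hG, ?_⟩
  have h1 := (hstep.mono (hmono t (t + m' * β) (by linarith))).sub hGZ
  have h2 : GZ e (X t) (m' + 1) (C π 0 (cst1 v) - D e π η ξ (C π 0 Y - G)) := by
    convert h1 using 1
    rw [map_sub]
    abel
  obtain ⟨r₂, hr₂, a1, a2, a3⟩ := h2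
  obtain ⟨c1, c2, c3⟩ := C_cst (π := π) v
  refine ⟨r₂, hr₂, fun l b1 b2 => ?_, fun l b1 b2 => ?_, fun l b1 b2 => ?_⟩
  · have := a1 l b1 b2
    show v.1 l - (D e π η ξ (C π 0 Y - G)).1 l = 0
    rwa [← c1 l (by rintro rfl; simp at b1)]
  · have := a2 l b1 b2
    show v.2.1 l - (D e π η ξ (C π 0 Y - G)).2.1 l = 0
    rwa [← c2 l (by rintro rfl; simp at b1)]
  · rcases Classical.em (l = []) with hl | hl
    · subst hl
      show v.2.2 [] - (D e π η ξ (C π 0 Y - G)).2.2 [] = 0
      rw [gv.c0, (((Good.C 0 gY nY).sub hG).D H.nξ).c0, sub_zero]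
    · have := a3 l b1 b2
      show v.2.2 l - (D e π η ξ (C π 0 Y - G)).2.2 l = 0
      rwa [← c3 l hl]

end K3

end Vale.Agent.P216.H977C
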