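import Vale.Agent.P216.H977C.Mk2

/-!
# P216-D, block MID: the zigzag in the cone complex
-/

set_option linter.all false

open Set

namespace Vale.Agent.P216.H977C

open Vale.Agent.P216.Sl Vale.Agent.P216.PS Vale.Agent.P216.E2L

namespace K3

variable {k : Type} [Field k] {M E : Type} [PseudoMetricSpace M] [PseudoMetricSpace E]

section

variable (π : E → M) (e : ℕ)

/-- vanishing on the small double lists -/
def KZ (X : Set E) (p m : ℕ) (F : List M → T3 k M E) : Prop :=
  ∃ r > 0, ∀ xs, xs.length = p → V π e X r xs m (F xs)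

/-- vanishing on the small lists -/
def GZ (X : Set E) (N : ℕ) (t : T3 k M E) : Prop :=
  ∃ r > 0, (∀ l, l.length = N → SmL X r l → t.1 l = 0) ∧
    (∀ ys, ys.length = N + 1 → SmL univ r ys → t.2.1 ys = 0) ∧
    ∀ ys, ys.length = N + 1 - e → SmL univ r ys → t.2.2 ys = 0

/-- vanishing on vertical lists -/
def VVt (t : T3 k M E) : Prop :=
  ∀ l : List E, 2 ≤ l.length → (∀ w ∈ l, ∀ w' ∈ l, π w = π w') → t.1 l = 0

/-- A bicocycle of the cone complex. -/
structure KBC (η : List E → k) (ξ : List M → k) (X : Set E) (p m : ℕ)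
    (F : List M → T3 k M E) : Prop where
  g : ∀ xs, Good (F xs)
  n : ∀ xs : List M, ¬ xs.IsChain (· ≠ ·) → F xs = 0
  ce : KZ π e X (p + 1) (m + 1) fun xs => D e π η ξ (F xs)
  cd : KZ π e X (p + 2) m (del F)

end

variable {π : E → M} {e : ℕ} {η : List E → k} {ξ : List M → k} {X X' : Set E} {ε r r' : ℝ}
  {m p N : ℕ} {F F' : List M → T3 k M E}

theorem KZ.mono (h : KZ π e X p m F) (hX : X' ⊆ X) : KZ π e X' p m F := by
  obtain ⟨r, hr, h⟩ := h
  exact ⟨r, hr, fun xs hx => (h xs hx).mono hX le_rfl⟩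

theorem KZ.add (h : KZ π e X p m F) (h' : KZ π e X p m F') :
    KZ π e X p m fun xs => F xs + F' xs := by
  obtain ⟨r, hr, h⟩ := h
  obtain ⟨r', hr', h'⟩ := h'
  exact ⟨min r r', lt_min hr hr', fun xs hx => ((h xs hx).mono subset_rfl (min_le_left _ _)).add
    ((h' xs hx).mono subset_rfl (min_le_right _ _))⟩

theorem KZ.smul (a : k) (h : KZ π e X p m F) : KZ π e X p m fun xs => a • F xs := by
  obtain ⟨r, hr, h⟩ := h
  exact ⟨r, hr, fun xs hx => (h xs hx).smul a⟩

theorem KZ.sub (h : KZ π e X p m F) (h' : KZ π e X p m F') :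
    KZ π e X p m fun xs => F xs - F' xs := by
  have h1 := h.add (h'.smul (-1))
  convert h1 using 2 with xs
  rw [neg_smul, one_smul, sub_eq_add_neg]

theorem del_add (F F' : List M → T3 k M E) (xs : List M) :
    del (fun ys => F ys + F' ys) xs = del F xs + del F' xs := by
  refine Prod.ext (funext fun l => ?_) (Prod.ext (funext fun l => ?_) (funext fun l => ?_))
  · exact Sl.dl_add _ _ _
  · exact Sl.dl_add _ _ _
  · exact Sl.dl_add _ _ _

theorem del_smul (a : k) (F : List M → T3 k M E) (xs : List M) :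
    del (fun ys => a • F ys) xs = a • del F xs := by
  refine Prod.ext (funext fun l => ?_) (Prod.ext (funext fun l => ?_) (funext fun l => ?_))
  · exact dl_mul_left _ _ _
  · exact dl_mul_left _ _ _
  · exact dl_mul_left _ _ _

theorem del_sub (F F' : List M → T3 k M E) (xs : List M) :
    del (fun ys => F ys - F' ys) xs = del F xs - del F' xs := by
  have h1 := del_add F (fun ys => (-1 : k) • F' ys) xs
  rw [del_smul] at h1
  rw [sub_eq_add_neg, ← neg_one_smul k (del F' xs), ← h1]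
  congr 1
  funext ys
  rw [neg_smul, one_smul, sub_eq_add_neg]

theorem KZ.del (h : KZ π e X p m F) : KZ π e X (p + 1) m (del F) := by
  obtain ⟨r, hr, h⟩ := h
  refine ⟨r, hr, fun xs hx => ⟨fun ws h1 h2 => ?_, fun ys h1 h2 => ?_, fun ys h1 h2 => ?_⟩⟩
  · show dl (fun ys => (F ys).1 ws) xs = 0
    rw [dl_congr (g := fun _ => (0 : k)) fun l' h3 h4 => (h l' (by omega)).f ws h1
      (h2.sub h4 fun _ h => h), dl_zero_fun]
  · show dl (fun zs => (F zs).2.1 ys) xs = 0
    rw [dl_congr (g := fun _ => (0 : k)) fun l' h3 h4 => (h l' (by omega)).a ys h1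
      (h2.sub h4 fun _ h => h), dl_zero_fun]
  · show dl (fun zs => (F zs).2.2 ys) xs = 0
    rw [dl_congr (g := fun _ => (0 : k)) fun l' h3 h4 => (h l' (by omega)).c ys h1
      (h2.sub h4 fun _ h => h), dl_zero_fun]

theorem KZ.D (hπ : ∀ w w', dist (π w) (π w') ≤ dist w w') (h : KZ π e X p m F) :
    KZ π e X p (m + 1) fun xs => D e π η ξ (F xs) := by
  obtain ⟨r, hr, h⟩ := h
  exact ⟨r, hr, fun xs hx => (h xs hx).D hπ⟩

theorem GZ.mono {t : T3 k M E} (h : GZ e X N t) (hX : X' ⊆ X) : GZ e X' N t := by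
  obtain ⟨r, hr, h1, h2, h3⟩ := h
  exact ⟨r, hr, fun l a b => h1 l a (b.mono hX le_rfl), h2, h3⟩

theorem GZ.add {t t' : T3 k M E} (h : GZ e X N t) (h' : GZ e X N t') : GZ e X N (t + t') := by
  obtain ⟨r, hr, h1, h2, h3⟩ := h
  obtain ⟨r', hr', h1', h2', h3'⟩ := h'
  refine ⟨min r r', lt_min hr hr', fun l a b => ?_, fun l a b => ?_, fun l a b => ?_⟩
  · show t.1 l + t'.1 l = 0
    rw [h1 l a (b.mono subset_rfl (min_le_left _ _)), h1' l a (b.mono subset_rfl (min_le_right _ _)),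
      add_zero]
  · show t.2.1 l + t'.2.1 l = 0
    rw [h2 l a (b.mono subset_rfl (min_le_left _ _)), h2' l a (b.mono subset_rfl (min_le_right _ _)),
      add_zero]
  · show t.2.2 l + t'.2.2 l = 0
    rw [h3 l a (b.mono subset_rfl (min_le_left _ _)), h3' l a (b.mono subset_rfl (min_le_right _ _)),
      add_zero]

theorem GZ.smul {t : T3 k M E} (a : k) (h : GZ e X N t) : GZ e X N (a • t) := by
  obtain ⟨r, hr, h1, h2, h3⟩ := h
  exact ⟨r, hr, fun l x y => by show a * t.1 l = 0; rw [h1 l x y, mul_zero],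
    fun l x y => by show a * t.2.1 l = 0; rw [h2 l x y, mul_zero],
    fun l x y => by show a * t.2.2 l = 0; rw [h3 l x y, mul_zero]⟩

theorem GZ.neg {t : T3 k M E} (h : GZ e X N t) : GZ e X N (-t) := by
  rw [← neg_one_smul k t]
  exact h.smul _

theorem GZ.sub {t t' : T3 k M E} (h : GZ e X N t) (h' : GZ e X N t') : GZ e X N (t - t') := by
  rw [sub_eq_add_neg]
  exact h.add h'.neg

theorem dom_take (hπ : ∀ w w', dist (π w) (π w') ≤ dist w w') {l : List E} (hl : SmL X r l)
    (p : ℕ) : Dom π univ X r ((l.take (p + 1)).map π) (l.drop p) :=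
  dom_aw (A := univ) hπ (hl.mono (fun x hx => ⟨hx, mem_univ _⟩) le_rfl)
    (fun x hx => by
      obtain ⟨w, hw, rfl⟩ := List.mem_map.1 hx
      exact List.mem_map.2 ⟨w, List.mem_of_mem_take hw, rfl⟩)
    fun w hw => List.mem_of_mem_drop hw

/-- `C` of a bicochain which vanishes. -/
theorem KZ.C (hπ : ∀ w w', dist (π w) (π w') ≤ dist w w') (hg : ∀ xs, Good (F xs))
    (h : KZ π e X (p + 1) m F) : GZ e X (m + p) (C π p F) := by
  obtain ⟨r, hr, h⟩ := h
  refine ⟨r, hr, fun l h1 h2 => ?_, fun l h1 h2 => ?_, fun l h1 h2 => ?_⟩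
  · rw [C_f]
    rcases Nat.eq_zero_or_pos m with rfl | hm
    · rw [List.drop_eq_nil_of_le (by omega), (hg _).f0]
    · exact (h _ (by rw [List.length_map, List.length_take]; omega)).f _
        (by rw [List.length_drop]; omega) (dom_take hπ h2 p)
  · rw [C_a]
    have h3 := dom_take (π := id) (X := univ) (fun _ _ => le_rfl) h2 p
    rw [List.map_id] at h3
    rw [(h _ (by rw [List.length_take]; omega)).a _ (by rw [List.length_drop]; omega) h3, mul_zero]
  · rw [C_c]
    have h3 := dom_take (π := id) (X := univ) (fun _ _ => le_rfl) h2 p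
    rw [List.map_id] at h3
    rcases Nat.lt_or_ge l.length (p + 1) with h4 | h4
    · rw [List.drop_eq_nil_of_le (by omega), (hg _).c0, mul_zero]
    · rw [(h _ (by rw [List.length_take]; omega)).c _ (by rw [List.length_drop]; omega) h3,
        mul_zero]

theorem C_add (p : ℕ) (F F' : List M → T3 k M E) :
    C π p (fun xs => F xs + F' xs) = C π p F + C π p F' := by
  refine Prod.ext rfl (Prod.ext (funext fun l => ?_) (funext fun l => ?_))
  · show (C π p _).2.1 l = (C π p F).2.1 l + (C π p F').2.1 l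
    rw [C_a, C_a, C_a]
    exact mul_add _ _ _
  · show (C π p _).2.2 l = (C π p F).2.2 l + (C π p F').2.2 l
    rw [C_c, C_c, C_c]
    exact mul_add _ _ _

theorem C_sub (p : ℕ) (F F' : List M → T3 k M E) :
    C π p (fun xs => F xs - F' xs) = C π p F - C π p F' := by
  refine Prod.ext rfl (Prod.ext (funext fun l => ?_) (funext fun l => ?_))
  · show (C π p _).2.1 l = (C π p F).2.1 l - (C π p F').2.1 l
    rw [C_a, C_a, C_a]
    exact mul_sub _ _ _
  · show (C π p _).2.2 l = (C π p F).2.2 l - (C π p F').2.2 l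
    rw [C_c, C_c, C_c]
    exact mul_sub _ _ _

theorem Good.del (hF : ∀ xs, Good (F xs)) (xs : List M) : Good (del F xs) where
  f0 := by
    show dl (fun ys => (F ys).1 []) xs = 0
    rw [show (fun ys => (F ys).1 []) = fun _ => (0 : k) from funext fun ys => (hF ys).f0,
      dl_zero_fun]
  a0 := by
    show dl (fun ys => (F ys).2.1 []) xs = 0
    rw [show (fun ys => (F ys).2.1 []) = fun _ => (0 : k) from funext fun ys => (hF ys).a0,
      dl_zero_fun]
  c0 := by
    show dl (fun ys => (F ys).2.2 []) xs = 0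
    rw [show (fun ys => (F ys).2.2 []) = fun _ => (0 : k) from funext fun ys => (hF ys).c0,
      dl_zero_fun]
  na := fun l hl => by
    show dl (fun ys => (F ys).2.1 l) xs = 0
    rw [show (fun ys => (F ys).2.1 l) = fun _ => (0 : k) from funext fun ys => (hF ys).na l hl,
      dl_zero_fun]
  nc := fun l hl => by
    show dl (fun ys => (F ys).2.2 l) xs = 0
    rw [show (fun ys => (F ys).2.2 l) = fun _ => (0 : k) from funext fun ys => (hF ys).nc l hl,
      dl_zero_fun]

theorem nrm_del (hF : ∀ xs : List M, ¬ xs.IsChain (· ≠ ·) → F xs = 0) (xs : List M)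
    (hx : ¬ xs.IsChain (· ≠ ·)) : del F xs = 0 := by
  refine Prod.ext (funext fun l => ?_) (Prod.ext (funext fun l => ?_) (funext fun l => ?_))
  · exact (show Nrm fun ys => (F ys).1 l from fun ys hy => by
      show (F ys).1 l = 0; rw [hF ys hy]; rfl).dl xs hx
  · exact (show Nrm fun ys => (F ys).2.1 l from fun ys hy => by
      show (F ys).2.1 l = 0; rw [hF ys hy]; rfl).dl xs hx
  · exact (show Nrm fun ys => (F ys).2.2 l from fun ys hy => by
      show (F ys).2.2 l = 0; rw [hF ys hy]; rfl).dl xs hx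

theorem chain_of_take_drop {α : Type} {l : List α} {n : ℕ}
    (h3 : (l.take (n + 1)).IsChain (· ≠ ·)) (h4 : (l.drop n).IsChain (· ≠ ·)) :
    l.IsChain (· ≠ ·) := by
  rw [List.isChain_iff_getElem] at h3 h4 ⊢
  intro i hi
  by_cases hin : i < n
  · have := h3 i (by simp only [List.length_take]; omega)
    simpa [List.getElem_take] using this
  · have := h4 (i - n) (by simp only [List.length_drop]; omega)
    simp only [List.getElem_drop] at this
    have e1 : n + (i - n) = i := by omega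
    have e2 : n + (i - n + 1) = i + 1 := by omega
    simpa [e1, e2] using this

theorem Good.C (p : ℕ) (hF : ∀ xs, Good (F xs))
    (hn : ∀ xs : List M, ¬ xs.IsChain (· ≠ ·) → F xs = 0) : Good (C π p F) where
  f0 := by rw [C_f, List.drop_nil, (hF _).f0]
  a0 := by rw [C_a, List.drop_nil, (hF _).a0, mul_zero]
  c0 := by rw [C_c, List.drop_nil, (hF _).c0, mul_zero]
  na := fun l hl => by
    rw [C_a]
    by_cases h : (l.take (p + 1)).IsChain (· ≠ ·)
    · rw [(hF _).na _ fun h' => hl (chain_of_take_drop h h'), mul_zero]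
    · rw [hn _ h]
      exact mul_zero _
  nc := fun l hl => by
    rw [C_c]
    by_cases h : (l.take (p + 1)).IsChain (· ≠ ·)
    · rw [(hF _).nc _ fun h' => hl (chain_of_take_drop h h'), mul_zero]
    · rw [hn _ h]
      exact mul_zero _

theorem VVt.add {t t' : T3 k M E} (h : VVt π t) (h' : VVt π t') : VVt π (t + t') :=
  fun l h1 h2 => by show t.1 l + t'.1 l = 0; rw [h l h1 h2, h' l h1 h2, add_zero]

theorem VVt.smul {t : T3 k M E} (a : k) (h : VVt π t) : VVt π (a • t) :=
  fun l h1 h2 => by show a * t.1 l = 0; rw [h l h1 h2, mul_zero]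

theorem VVt.C (hp : 1 ≤ p) (hn : ∀ xs : List M, ¬ xs.IsChain (· ≠ ·) → F xs = 0) :
    VVt π (C π p F) := by
  intro l hl hv
  rcases l with _ | ⟨w, _ | ⟨w', l⟩⟩
  · simp at hl
  · simp at hl
  obtain ⟨p, rfl⟩ : ∃ p', p = p' + 1 := ⟨p - 1, by omega⟩
  rw [C_f, hn _ fun hc => ?_]
  · rfl
  · rw [List.take_succ_cons, List.take_succ_cons, List.map_cons, List.map_cons,
      List.isChain_cons_cons] at hc
    exact hc.1 (hv w (by simp) w' (by simp))

variable (H : Data π e η ξ X ε)

include H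

/-- The pointwise choice of a primitive. -/
theorem exists_Y3 (hX : X' ⊆ X) (hm : 1 ≤ m) (hne : m = e → FibNe π e η X)
    (hF : FibS π e η ξ X X' m) (hg : ∀ xs, Good (F xs))
    (hn : ∀ xs : List M, ¬ xs.IsChain (· ≠ ·) → F xs = 0)
    (hD : KZ π e X (p + 1) (m + 1) fun xs => D e π η ξ (F xs)) :
    ∃ Y : List M → T3 k M E, (∀ xs, Good (Y xs)) ∧
      (∀ xs : List M, ¬ xs.IsChain (· ≠ ·) → Y xs = 0) ∧
      KZ π e X' (p + 1) m fun xs => F xs - D e π η ξ (Y xs) := by
  obtain ⟨r, hr, h⟩ := hD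
  obtain ⟨r', hr', h'⟩ := kloc H hX hm hne hF r hr
  have key : ∀ xs : List M, ∃ g : T3 k M E, Good g ∧ (¬ xs.IsChain (· ≠ ·) → g = 0) ∧
      (xs.length = p + 1 → xs.IsChain (· ≠ ·) → SmL univ r' xs →
        V π e X' r' xs m (F xs - D e π η ξ g)) := by
    intro xs
    by_cases hc : xs.IsChain (· ≠ ·)
    · by_cases hs : SmL univ r' xs ∧ xs.length = p + 1
      · obtain ⟨hs, hl⟩ := hs
        rcases xs with _ | ⟨x, xs⟩
        · simp at hl
        obtain ⟨g, hg', hg⟩ := h' x xs hs (F (x :: xs)) (hg _) (h (x :: xs) hl)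
        exact ⟨g, hg', fun h => absurd hc h, fun _ _ _ => hg⟩
      · exact ⟨0, Good.zero, fun _ => rfl, fun h1 _ h2 => absurd ⟨h2, h1⟩ hs⟩
    · exact ⟨0, Good.zero, fun _ => rfl, fun _ h => absurd h hc⟩
  choose Y hY0 hY1 hY2 using key
  refine ⟨Y, hY0, hY1, r', hr', fun xs hx => ?_⟩
  by_cases hs : SmL univ r' xs
  · by_cases hc : xs.IsChain (· ≠ ·)
    · exact hY2 xs hx hc hs
    · have : F xs - D e π η ξ (Y xs) = 0 := by rw [hn xs hc, hY1 xs hc, map_zero, sub_zero]
      show V π e X' r' xs m (F xs - D e π η ξ (Y xs))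
      rw [this]
      exact V.zero
  · exact ⟨fun _ _ h2 => absurd h2.1 hs, fun _ _ h2 => absurd h2.1 hs,
      fun _ _ h2 => absurd h2.1 hs⟩

omit H in
/-- The next bicocycle. -/
theorem KBC.next {Y : List M → T3 k M E} (h : KBC π e η ξ X p (m + 1) F) (hX : X' ⊆ X)
    (hY : ∀ xs, Good (Y xs)) (hYn : ∀ xs : List M, ¬ xs.IsChain (· ≠ ·) → Y xs = 0)
    (hd : KZ π e X' (p + 1) (m + 1) fun xs => F xs - D e π η ξ (Y xs)) :
    KBC π e η ξ X' (p + 1) m (del Y) := by
  refine ⟨Good.del hY, nrm_del hYn, ?_, ?_⟩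
  · have h1 := hd.del
    have h2 := (h.cd.mono hX).sub h1
    convert h2 using 2 with xs
    rw [D_del, del_sub]
    abel
  · refine ⟨1, one_pos, fun xs _ => ?_⟩
    rw [del_del]
    exact V.zero

/-- One step of the zigzag. -/
theorem C_step (hX : X' ⊆ X) {Y : List M → T3 k M E} (hF : ∀ xs, Good (F xs))
    (hY : ∀ xs, Good (Y xs)) (hd : KZ π e X' (p + 1) m fun xs => F xs - D e π η ξ (Y xs)) :
    GZ e X' (m + p) (C π p F - (-1 : k) ^ p • (D e π η ξ (C π p Y) - C π (p + 1) (del Y))) := by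
  have h1 := hd.C H.hπ fun xs => (hF xs).sub ((hY xs).D H.nξ)
  rw [C_sub, show C π p F - C π p (fun xs => D e π η ξ (Y xs)) =
    C π p F - (-1 : k) ^ p • (D e π η ξ (C π p Y) - C π (p + 1) (del Y)) from ?_] at h1
  · exact h1
  · have h6 : (-1 : k) ^ p * (-1 : k) ^ p = 1 := by rw [← mul_pow]; simp
    rw [D_C p hY, add_sub_cancel_left, smul_smul, h6, one_smul]

omit H in
/-- **The zigzag.** -/
theorem kkill {X : ℝ → Set E} (hmono : ∀ s t, s ≤ t → X s ⊆ X t) {T t₀ β : ℝ} (hβ : 0 ≤ β)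
    (H : Data π e η ξ (X T) ε) (hne0 : ∀ x, ∃ w ∈ X t₀, π w = x) (hne : FibNe π e η (X t₀))
    {m₀ : ℕ} (hS : ∀ m, 1 ≤ m → m ≤ m₀ → ∀ t, t₀ ≤ t → t + β ≤ T →
      FibS π e η ξ (X (t + β)) (X t) m) :
    ∀ (m p : ℕ) (t : ℝ), m ≤ m₀ → t₀ ≤ t → t + m * β ≤ T → ∀ F : List M → T3 k M E,
      KBC π e η ξ (X (t + m * β)) p m F → ∃ G : T3 k M E, Good G ∧ (1 ≤ p → VVt π G) ∧
        GZ e (X t) (m + p) (C π p F - D e π η ξ G) := by
  intro m
  induction m with
  | zero =>
    intro p t _ ht hT F hF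
    refine ⟨0, Good.zero, fun _ _ _ _ => rfl, ?_⟩
    rw [map_zero, sub_zero]
    rw [Nat.cast_zero, zero_mul, add_zero] at hT hF
    have H' := H.mono (hmono t T hT) H.hε le_rfl
    refine KZ.C H.hπ hF.g ?_
    obtain ⟨r, hr, h⟩ := hF.ce
    refine ⟨r, hr, fun xs hx => ?_⟩
    by_cases hs : SmL univ r xs
    · rcases xs with _ | ⟨x, xs⟩
      · simp at hx
      exact kloc0 H' subset_rfl (fun x => by
        obtain ⟨w, hw, h⟩ := hne0 x
        exact ⟨w, hmono _ _ ht hw, h⟩) hr hs (hF.g _) (h (x :: xs) hx)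
    · exact ⟨fun _ _ h2 => absurd h2.1 hs, fun _ _ h2 => absurd h2.1 hs,
        fun _ _ h2 => absurd h2.1 hs⟩
  | succ m ih =>
    intro p t hm ht hT F hF
    have e1 : t + (m + 1 : ℕ) * β = (t + m * β) + β := by push_cast; ring
    rw [e1] at hT hF
    have hmβ : 0 ≤ (m : ℝ) * β := by positivity
    have hX : X (t + m * β) ⊆ X (t + m * β + β) := hmono _ _ (by linarith)
    have H' := H.mono (hmono _ T hT) H.hε le_rfl
    have hne' : FibNe π e η (X (t + m * β + β)) := fun r hr x c f h =>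
      hne r hr x c f fun ws h1 h2 h3 => h ws h1 (h2.mono (hmono _ _ (by linarith)) le_rfl) h3
    obtain ⟨Y, hY, hYn, hd⟩ := exists_Y3 (p := p) H' hX (by omega : 1 ≤ m + 1) (fun _ => hne')
      (hS (m + 1) (by omega) hm _ (by linarith) hT) hF.g hF.n hF.ce
    obtain ⟨G, hG, hGv, hGZ⟩ := ih (p + 1) t (by omega) ht (by linarith) (del Y)
      (hF.next hX hY hYn hd)
    have h1 := C_step H' hX hF.g hY hd
    refine ⟨(-1 : k) ^ p • (C π p Y - G), ((Good.C p hY hYn).sub hG).smul _, fun hp =>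
      VVt.smul _ ?_, ?_⟩
    · have := (VVt.C hp hYn (π := π)).add ((hGv (by omega)).smul (-1))
      rwa [neg_smul, one_smul, ← sub_eq_add_neg] at this
    · have hGZ' : GZ e (X t) (m + 1 + p) (C π (p + 1) (del Y) - D e π η ξ G) := by
        rwa [show m + 1 + p = m + (p + 1) by ring]
      have h2 := (h1.mono (hmono t (t + m * β) (by linarith))).sub (hGZ'.smul ((-1 : k) ^ p))
      convert h2 using 1
      rw [map_smul, map_sub, smul_sub, smul_sub, smul_sub]
      abel

end K3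

end Vale.Agent.P216.H977C
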