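import Vale.Agent.P216.H977C.Cap
import Vale.Agent.P216.N929.Sys

/-!
# P216-C, block C03: births, and the interface `OmSysC`

`⟨W b (j + 1), z · u⟩ = ± ⟨∫ τ ∪ eta, u⟩ ⟨W (!b) j, z⟩`.
-/

open Finsupp Set BoundedContinuousFunction

namespace Vale.Agent.P216.H977C

open Vale.Agent.P216.Sl Vale.Agent.P216.PS Vale.Agent.P216.N929

variable {k : Type} [Field k] {M : Type} [MetricSpace M] [CompactSpace M]

section

variable {m m' : ℕ} {ρ₀ ρ₁ r ε η : ℝ} {x₀ p q q' : M} {c s : ℝ}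

/-- Product of chains of paths. -/
noncomputable def conc (c : ℝ) (z u : Ch k (ℝ →ᵇ M)) : Ch k (ℝ →ᵇ M) := mp (catc c) (sh z u)

omit [MetricSpace M] [CompactSpace M] in
theorem sh_Ln0 {α β : Type} {z : Ch k α} (hz : z ∈ Sp k (Ln 0)) (u : Ch k β) : sh z u = 0 := by
  have := eq_of_mem (F := (sh (k := k) (α := α) (β := β)).flip u) (G := 0) (fun l hl => by
    rw [List.length_eq_zero_iff.1 hl, LinearMap.flip_apply, sh_nil_left, LinearMap.zero_apply]) hz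
  simpa using this

/-- The product of two fine cycles is a fine cycle. -/
theorem conc_cy (hc : 0 ≤ c) (hs : 0 ≤ s) (hm : 1 ≤ m) {z u : Ch k (ℝ →ᵇ M)}
    (hz : Cy (P x₀ q c) η m' z) (hu : Cy (P q q' s) η m u) :
    Cy (P x₀ q' (c + s)) η (m' + m) (conc c z u) := by
  refine ⟨?_, ?_⟩
  · refine map_mem _ (P := fun L => L.length = m' + m + 1 ∧ (∀ x ∈ L, x.1 ∈ P x₀ q c ∧
      x.2 ∈ P q q' s) ∧ ∀ x ∈ L, ∀ y ∈ L, dist x.1 y.1 < η ∧ dist x.2 y.2 < η)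
      (fun L hL => ?_) (sh_mem (fun a b L ha hb hG => ?_) hz.1 hu.1)
    · rw [mp_single]
      refine single_mem ⟨by rw [List.length_map, hL.1], fun w hw => ?_, fun w hw w' hw' => ?_⟩ _
      · obtain ⟨x, hx, rfl⟩ := List.mem_map.1 hw
        exact cat_mem hc hs (hL.2.1 x hx).1 (hL.2.1 x hx).2
      · obtain ⟨x, hx, rfl⟩ := List.mem_map.1 hw
        obtain ⟨y, hy, rfl⟩ := List.mem_map.1 hw'
        have h1 := hL.2.1 x hx
        have h2 := hL.2.1 y hy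
        have h3 := hL.2.2 x hx y hy
        exact (dist_cat_cat_le h1.1.1 h2.1.1 h1.2.1 h2.2.1
          (by rw [eq_right h1.1 le_rfl, eq_left h1.2 le_rfl])
          (by rw [eq_right h2.1 le_rfl, eq_left h2.2 le_rfl])).trans_lt (max_lt h3.1 h3.2)
    · refine ⟨?_, fun x hx => ⟨ha.2.1 _ (hG.2 x hx).1, hb.2.1 _ (hG.2 x hx).2⟩,
        fun x hx y hy => ⟨ha.2.2 _ (hG.2 x hx).1 _ (hG.2 y hy).1,
          hb.2.2 _ (hG.2 x hx).2 _ (hG.2 y hy).2⟩⟩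
      have h1 := hG.1
      have h2 := ha.1
      have h3 := hb.1
      omega
  · have hbu : bd u = 0 := bd_eq_zero hu (by omega)
    have h0 : bd (conc c z u) = 0 := by
      rw [conc, bd_mp, bd_sh (p := m') (q := m) (by omega) (Sp_mono (fun l hl => hl.1) hz.1)
        (Sp_mono (fun l hl => hl.1) hu.1), hbu, map_zero, smul_zero, add_zero,
        sh_Ln0 hz.2, map_zero]
    rw [h0]
    exact Submodule.zero_mem _

omit [MetricSpace M] [CompactSpace M] in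
/-- Composition of edges. -/
theorem edge_add {c s η : ℝ} (hc : 0 ≤ c) (hs : 0 ≤ s) {ι₁ ι : Ch k ℝ} (h1 : Edge 0 c η ι₁)
    (h : Edge 0 s η ι) : Edge 0 (c + s) η (ι₁ + mp (fun σ => c + σ) ι) := by
  have a1 : ι₁ ∈ Sp k (fun l => l.length = 2 ∧ Fine (Icc 0 (c + s)) η l) :=
    Sp_mono (fun l hl => ⟨hl.1, fun x hx => ⟨(hl.2.1 x hx).1, (hl.2.1 x hx).2.trans (by linarith)⟩,
      hl.2.2⟩) h1.1
  have a2 : mp (fun σ => c + σ) ι ∈ Sp k (fun l => l.length = 2 ∧ Fine (Icc 0 (c + s)) η l) := by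
    refine map_mem _ (fun l hl => ?_) h.1
    rw [mp_single]
    refine single_mem ⟨by rw [List.length_map, hl.1], fun x hx => ?_, fun x hx y hy => ?_⟩ _
    · obtain ⟨t, ht, rfl⟩ := List.mem_map.1 hx
      have := hl.2.1 t ht
      exact ⟨by linarith [this.1], by linarith [this.2]⟩
    · obtain ⟨t, ht, rfl⟩ := List.mem_map.1 hx
      obtain ⟨t', ht', rfl⟩ := List.mem_map.1 hy
      have := hl.2.2 t ht t' ht'
      rwa [Real.dist_eq, add_sub_add_left_eq_sub, ← Real.dist_eq]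
  refine ⟨Submodule.add_mem _ a1 a2, ?_⟩
  rw [map_add, bd_mp, h1.2, h.2, map_sub, mp_single, mp_single, List.map_cons, List.map_nil,
    List.map_cons, List.map_nil, add_zero]
  abel

end

variable {n e D : ℕ} (G : Geo M n) (τ : Tau k M n G.ρ₁) (E : Eta k M e) (hD : D + 1 = n + e)

/-- **The multiplication formula** for the classes `W`. -/
theorem W_mul (hE : AddE E.f) (he : 1 ≤ e) (hen : e + 1 < n) (b : Bool) (j : ℕ) {c : ℕ} {s : ℝ}
    (hs : 0 ≤ s) {η : ℝ} (hη : 0 < η) (hη' : η ≤ Wε G τ E hD b (j + 1)) {z u : Ch k (ℝ →ᵇ M)}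
    (hz : Cy (P G.x₀ (G.y (!b)) c) η (j * D) z) (hu : Cy (P (G.y (!b)) (G.y b) s) η D u)
    {ι : Ch k ℝ} (hι : Edge 0 s η ι) :
    ev (W G τ E hD b (j + 1)) (conc c z u) =
      ((-1) ^ ((j * D + 1 + 1) * n) * (-1) ^ ((j * D + 1 + 1) * e)) *
        (ev (Sg.aL n τ.f E.f G.r (G.y (!b))) (sh u ι) * ev (W G τ E hD (!b) j) z) := by
  have hn := G.hn
  have hD1 : 1 ≤ D := by omega
  have hc : (0 : ℝ) ≤ c := Nat.cast_nonneg c
  obtain ⟨ι₁, h1, h2⟩ := Sg.exists_seg' k hc hη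
  have hι₁ : Edge 0 (c : ℝ) η ι₁ := ⟨h1, h2⟩
  have hcy := conc_cy hc hs hD1 hz hu
  rw [show j * D + D = (j + 1) * D by ring] at hcy
  rw [W_eval G τ E hD b j (by linarith) le_rfl hη hη' hcy (edge_add hc hs hι₁ hι), conc]
  have hscl := (W_scl G τ E hD b j).mono hη hη'
  rw [cap_formula τ G.seg G.hr G.hrρ hscl (A_nrm G τ E hD (!b) j) hD hD1
    (Sp_mono (fun l hl => ⟨hl.1, hl.2.1⟩) hz.1) hu.1
    (Sp_mono (fun l hl => ⟨hl.1, fun σ hσ => (hl.2.1 σ hσ).2⟩) h1) hι.1 hc]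
  have hcap := capE_cy τ G.seg G.hr G.hrρ (by omega) he hD hscl hu hι
  rw [A_cat G τ E hD hE he hen (!b) j (s := s + G.r) (by linarith [G.hr])
    (Sp_mono (fun l hl => ⟨hl.1, hl.2.1⟩) hz.1) (Sp_mono (fun l hl => ⟨hl.1, hl.2.1⟩) hcap.1),
    ev_capE]
  ring

/-- The `W_1`-integral is not changed by a path in front. -/
theorem aL_front {p q q' : M} (hE : AddE E.f) (he : 1 ≤ e) (hen : e + 1 < n) (hm : D + 1 = n + e)
    {c : ℕ} {s : ℝ} (hs : 0 ≤ s) {ε η : ℝ} (hscl : Scl τ G.r p ε η) {v : ℝ →ᵇ M}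
    (hv : v ∈ P p q c) {u : Ch k (ℝ →ᵇ M)} (hu : Cy (P q q' s) η D u) {ι₁ ι : Ch k ℝ}
    (hι₁ : Edge 0 (c : ℝ) η ι₁) (hι : Edge 0 s η ι) :
    ev (Sg.aL n τ.f E.f G.r p) (sh (conc c (single [v] 1) u) (ι₁ + mp (fun σ => (c : ℝ) + σ) ι)) =
      ev (Sg.aL n τ.f E.f G.r p) (sh u ι) := by
  have hn := G.hn
  have hD1 : 1 ≤ D := by omega
  have hc : (0 : ℝ) ≤ c := Nat.cast_nonneg c
  have hv1 : (single [v] (1 : k)) ∈ Sp k fun l : List (ℝ →ᵇ M) =>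
      l.length = 0 + 1 ∧ ∀ w ∈ l, w ∈ P p q c := single_mem ⟨rfl, fun w hw => by
    rw [List.mem_singleton.1 hw]
    exact hv⟩ 1
  rw [conc, cap_formula τ G.seg G.hr G.hrρ hscl E.nrm hm hD1 hv1 hu.1
    (Sp_mono (fun l hl => ⟨hl.1, fun σ hσ => (hl.2.1 σ hσ).2⟩) hι₁.1) hι.1 hc]
  have hcap := capE_cy τ G.seg G.hr G.hrρ (by omega) he hm hscl hu hι
  rw [← ev_capE, sh_point_left v (Sp_mono (fun l hl => by
    have := hl.1
    rintro rfl
    simp at this) hcap.1), ev_mp, ev_mp]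
  have h2 : (-1 : k) ^ ((0 + 1 + 1) * n) = 1 := by
    rw [zero_add, pow_mul]
    norm_num
  rw [h2, one_mul]
  refine ev_congr (fun l hl => ?_) hcap.1
  have h3 := hE p q p c (s + G.r) (by linarith [G.hr]) (l.map fun w => (v, w))
    (by intro h0; have := hl.1; rw [List.map_eq_nil_iff.1 h0] at this; simp at this)
    (fun x hx => by
      obtain ⟨w, hw, rfl⟩ := List.mem_map.1 hx
      exact ⟨hv, hl.2.1 w hw⟩)
  rw [h3, List.map_map, List.map_map]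
  have e1 : l.map (Prod.snd ∘ fun w : ℝ →ᵇ M => (v, w)) = l := by
    conv_rhs => rw [← List.map_id l]
    rfl
  have e2 : E.f (l.map (Prod.fst ∘ fun w : ℝ →ᵇ M => (v, w))) = 0 := by
    refine Nrm_zero E.nrm ?_
    have : (l.map (Prod.fst ∘ fun w : ℝ →ᵇ M => (v, w))) = List.replicate l.length v := by
      rw [show (Prod.fst ∘ fun w : ℝ →ᵇ M => (v, w)) = fun _ => v from rfl, List.map_const']
    rw [this]
    have h4 : ∀ N, chg (List.replicate N v) = 0 := by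
      intro N
      induction N with
      | zero => simp
      | succ N ih =>
        rcases N with _ | N
        · simp
        · rw [List.replicate_succ, List.replicate_succ, chg_eq, ← List.replicate_succ, ih]
    rw [h4, List.length_replicate, hl.1]
    omega
  rw [e1, e2, zero_add]

/-- `W_1 ≠ 0` for the loops at `y b`. -/
def Mid (s : ℝ) : Prop := ∀ b : Bool, ∀ δ > 0, ∃ Y : Ch k (ℝ →ᵇ M),
  Cy (P (G.y b) (G.y b) s) δ D Y ∧ ∃ ι, Edge 0 s δ ι ∧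
    ev (Sg.aL n τ.f E.f G.r (G.y (!b))) (sh Y ι) ≠ 0

/-- `W_1 ≠ 0` in terms of exactness. -/
theorem mid_of {s : ℝ} (hs : 0 ≤ s) (hD : D + 1 = n + e)
    (h : ∀ b : Bool, ∃ δ₀ > 0, ∃ η₀, Scl τ G.r (G.y (!b)) E.ε η₀ ∧ δ₀ < η₀ ∧
      ¬ ExL (P (G.y b) (G.y b) s) D (stp n τ.f G.r δ₀ (G.y (!b)) E.f)) :
    Mid (D := D) G τ E s := by
  intro b δ hδ
  obtain ⟨δ₀, h0, η₀, h1, h2, h3⟩ := h b
  obtain ⟨Y, hY, hne⟩ := not_ex_iff.1 h3 (min δ η₀) (lt_min hδ h1.pos)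
  obtain ⟨ι, hι, hι'⟩ := Sg.exists_seg' k hs (lt_min hδ h1.pos)
  refine ⟨Y, hY.mono le_rfl (min_le_left _ _), ι,
    ⟨Sp_mono (fun l hl => ⟨hl.1, hl.2.mono le_rfl (min_le_left _ _)⟩) hι, hι'⟩, ?_⟩
  rwa [← stp_eval τ G.seg G.hr G.hrρ G.hn hD h1 (G.hy b) (fun T => E.coc _ _ T) h0 h2 hs le_rfl
    (lt_min hδ h1.pos) (min_le_right _ _) hY ⟨hι, hι'⟩]

/-- **Births**: `C (W (j + 1)) ≤ C (W j) + const`. -/
theorem W_up (hE : AddE E.f) (he : 1 ≤ e) (hen : e + 1 < n) (b : Bool) (j : ℕ) {t s : ℝ} {ℓ : ℕ}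
    (ht : 0 ≤ t) (hs : 0 ≤ s) {v : ℝ →ᵇ M} (hv : v ∈ P (G.y (!b)) (G.y b) ℓ)
    (hmid : Mid (D := D) G τ E s)
    (h : ¬ ExL (P G.x₀ (G.y (!b)) t) (j * D) (W G τ E hD (!b) j)) :
    ¬ ExL (P G.x₀ (G.y b) (t + (1 + ℓ + s))) ((j + 1) * D) (W G τ E hD b (j + 1)) := by
  have hn := G.hn
  have hD1 : 1 ≤ D := by omega
  rw [not_ex_iff] at h ⊢
  intro ε hε
  set η := min ε (Wε G τ E hD b (j + 1)) with hηdef
  have hη : 0 < η := lt_min hε (Wε_pos G τ E hD _ _)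
  have hη' : η ≤ Wε G τ E hD b (j + 1) := min_le_right _ _
  have hscl := (W_scl G τ E hD b j).mono hη hη'
  obtain ⟨z, hz, hzne⟩ := h η hη
  obtain ⟨Y, hY, ι, hι, hne⟩ := hmid b η hη
  set c : ℕ := ⌈t⌉₊ with hc
  have hct : t ≤ c := Nat.le_ceil t
  have hct' : (c : ℝ) ≤ t + 1 := (Nat.ceil_lt_add_one ht).le
  have hℓ : (0 : ℝ) ≤ ℓ := Nat.cast_nonneg ℓ
  obtain ⟨ι₁, h1, h2⟩ := Sg.exists_seg' k hℓ hη
  have hv1 : Cy (P (G.y (!b)) (G.y b) (ℓ : ℝ)) η 0 (single [v] (1 : k)) := by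
    have hf : Fine (P (G.y (!b)) (G.y b) (ℓ : ℝ)) η [v] := by
      refine ⟨fun w hw => ?_, fun w hw w' hw' => ?_⟩
      · rw [List.mem_singleton.1 hw]
        exact hv
      · rw [List.mem_singleton.1 hw, List.mem_singleton.1 hw', dist_self]
        exact hη
    exact ⟨single_mem ⟨rfl, hf⟩ 1, bd_mem' (single_mem (P := Ln 1) (l := [v]) rfl _)⟩
  have hu := conc_cy hℓ hs hD1 hv1 hY
  rw [zero_add] at hu
  have hz' : Cy (P G.x₀ (G.y (!b)) c) η (j * D) z := hz.mono (P_mono hct) le_rfl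
  have hιι := edge_add hℓ hs ⟨h1, h2⟩ hι
  refine ⟨conc c z (conc ℓ (single [v] 1) Y), ?_, ?_⟩
  · have := conc_cy (Nat.cast_nonneg c) (by linarith) hD1 hz' hu
    rw [show j * D + D = (j + 1) * D by ring] at this
    exact this.mono (P_mono (by linarith)) (min_le_left _ _)
  · rw [W_mul G τ E hD hE he hen b j (by linarith) hη hη' hz' hu hιι,
      aL_front G τ E hE he hen hD hs hscl hv hY ⟨h1, h2⟩ hι]
    refine mul_ne_zero (mul_ne_zero ?_ ?_) (mul_ne_zero hne hzne)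
    · exact pow_ne_zero _ (neg_ne_zero.2 one_ne_zero)
    · exact pow_ne_zero _ (neg_ne_zero.2 one_ne_zero)

/-- **The interface of 787.** -/
noncomputable def omSysC (hE : AddE E.f) (he : 1 ≤ e) (hen : e + 1 < n) {Ca s : ℝ} {ℓ : ℕ}
    (hs : 0 ≤ s) (hC : 1 + ℓ + s ≤ Ca)
    (hv : ∀ b, ∃ v : ℝ →ᵇ M, v ∈ P (G.y (!b)) (G.y b) ℓ) (hmid : Mid (D := D) G τ E s) :
    OmSysC k M n e D G.r Ca G.x₀ τ.f where
  e := G.y
  W := W G τ E hD
  A := A G τ E hD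
  ne b h := by
    have := G.hx b
    rw [h, dist_self] at this
    exact absurd this (not_le.2 G.h1)
  nrmW := W_nrm G τ E hD
  nrmA := A_nrm G τ E hD
  cocW := W_cocL G τ E hD
  cocA := A_cocL G τ E hD
  zero _ _ := rfl
  iA b j t _ h := A_down G τ E hD b j he h
  iW b j t ht h := W_down G τ E hD b j ht le_rfl h
  ii b j t ht h := by
    obtain ⟨v, hv⟩ := hv b
    exact fun h' => W_up G τ E hD hE he hen b j ht hs hv hmid h
      (h'.mono (P_mono (by linarith)))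
  prim b j T h := by
    obtain ⟨g, h1, _, h2⟩ := exists_nrm_prim (A_nrm G τ E hD b j) (A_cocL G τ E hD b j T) h
    exact ⟨g, h1, h2⟩
  det b j C g hC _ hne := by
    intro δ hδ
    exact W_det G τ E hD he b j hC hne δ hδ

end Vale.Agent.P216.H977C
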