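import Vale.Agent.P216.H977C.E2
import Vale.Agent.P216.H977C.Capf

/-!
# P216-C, block C03: the cap formula (E1)

`u` a fine cycle of paths from `q` to `q'`; `capE u ι` = cap product of `u × ι` with
`τ(u(σ), p)`, pushed by `(u, σ) ↦ u|[0, σ]` followed by the segment from `u σ` to `p`: a cycle of
paths from `q` to `p`, and `⟨∫ τ ∪ g, z · u⟩ = ± ⟨g, z · capE u ι⟩`.
-/

open Finsupp Set BoundedContinuousFunction

namespace Vale.Agent.P216.H977C

open Vale.Agent.P216.Sl Vale.Agent.P216.PS Vale.Agent.P216.N929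

variable {k : Type} [Field k] {M : Type} [MetricSpace M] [CompactSpace M]
  {n e m : ℕ} {ρ₀ ρ₁ r ε η : ℝ} {x₀ p q q' : M} {c s : ℝ}

/-- The cap product, pushed to the paths ending at `p`. -/
noncomputable def capE (n : ℕ) (f : List (M × M) → k) (r : ℝ) (p : M) (u : Ch k (ℝ →ᵇ M))
    (ι : Ch k ℝ) : Ch k (ℝ →ᵇ M) :=
  mp (cutp r p) (capf (fun l => f (l.map (evp p))) n (sh u ι))

/-- Evaluation on the cap product. -/
theorem ev_capE (f : List (M × M) → k) (g : List (ℝ →ᵇ M) → k) (u : Ch k (ℝ →ᵇ M)) (ι : Ch k ℝ) :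
    ev g (capE n f r p u ι) = ev (Sg.aL n f g r p) (sh u ι) := by
  rw [capE, ev_mp, ev_capf]
  rfl

omit [CompactSpace M] in
/-- The lists of `u × ι`. -/
theorem sh_fine {u : Ch k (ℝ →ᵇ M)}
    (hu : u ∈ Sp k fun l => l.length = m + 1 ∧ SmL (P q q' s) η l) {ι : Ch k ℝ}
    (hι : ι ∈ Sp k fun l => l.length = 2 ∧ SmL (Icc 0 s) η l) :
    sh u ι ∈ Sp k fun L => L.length = m + 2 ∧ Fine (PTm q q' s s) η L := by
  refine sh_mem (fun l t L hl ht hG => ⟨by have := hG.1; omega, fun x hx => ?_, fun x hx y hy => ?_⟩)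
    hu hι
  · have h1 := hl.2.1 _ (hG.2 x hx).1
    have h2 := ht.2.1 _ (hG.2 x hx).2
    exact ⟨h1, h2.1, h2.2⟩
  · rw [Prod.dist_eq]
    exact max_lt (hl.2.2 _ (hG.2 x hx).1 _ (hG.2 y hy).1) (ht.2.2 _ (hG.2 x hx).2 _ (hG.2 y hy).2)

/-- **The cap product is a fine cycle.** -/
theorem capE_cy (τ : Tau k M n ρ₁) (hseg : LS.UniqSeg M ρ₀) (hr : 0 < r) (hrρ : r < ρ₀)
    (hn : 1 ≤ n) (he : 1 ≤ e) (hm : m + 1 = n + e) (hs : Scl τ r p ε η) {u : Ch k (ℝ →ᵇ M)}
    (hu : Cy (P q q' s) η m u) {ι : Ch k ℝ} (hι : Edge 0 s η ι) :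
    Cy (P q p (s + r)) ε e (capE n τ.f r p u ι) := by
  have hsu := sh_fine hu.1 hι.1
  refine ⟨?_, ?_⟩
  · refine map_mem _ (P := fun l => l.length = e + 1 ∧ SmL (P q p (s + r)) ε (l.map (cutp r p)))
      (fun l hl => ?_) (capf_mem hsu fun L hL h0 => ⟨by rw [List.length_drop, hL.1]; omega, ?_⟩)
    · rw [mp_single]
      exact single_mem ⟨by rw [List.length_map]; exact hl.1, hl.2⟩ _
    · exact cut_fine (x₀ := q) (y' := q') (T := s) (S := s) τ hseg hr hrρ hs.pos hs.mod hs.h3' hL.2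
        (by rintro rfl; simp at hL) h0
  · have hbu : bd u = 0 := bd_eq_zero hu (by omega)
    have h0 : bd (capE n τ.f r p u ι) = 0 := by
      rw [capE, bd_mp, bd_capf (N := m + 2) (by omega), bd_sh (p := m) (q := 1) (by omega)
        (Sp_mono (fun l hl => hl.1) hu.1) (Sp_mono (fun l hl => hl.1) hι.1), hbu, map_zero,
        LinearMap.zero_apply, zero_add, map_smul, hι.2, map_sub,
        sh_point_right _ (Ln_ne (n := m) (Sp_mono (fun l hl => hl.1) hu.1)),
        sh_point_right _ (Ln_ne (n := m) (Sp_mono (fun l hl => hl.1) hu.1)), map_smul, map_sub,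
        capf_mp, capf_mp, capf_zero (P := fun l => l.length = m + 1 ∧ SmL (P q q' s) η l) hu.1,
        capf_zero (P := fun l => l.length = m + 1 ∧ SmL (P q q' s) η l) hu.1]
      · simp
      · intro l hl
        have : (List.map (fun a : ℝ →ᵇ M => (a, (0 : ℝ))) (List.take (n + 1) l)).map (evp p) =
            List.replicate (n + 1) ((q, p) : M × M) := by
          rw [List.map_map, List.eq_replicate_iff]
          refine ⟨by rw [List.length_map, List.length_take, hl.1]; omega, fun x hx => ?_⟩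
          obtain ⟨w, hw, rfl⟩ := List.mem_map.1 hx
          have hw' := hl.2.1 w (List.mem_of_mem_take hw)
          change ((w (0 : ℝ) : M), p) = (q, p)
          rw [eq_left hw' le_rfl]
        rw [this]
        refine τ.nrm _ fun hc => ?_
        rw [List.replicate_succ, show n = (n - 1) + 1 by omega, List.replicate_succ,
          List.isChain_cons_cons] at hc
        exact hc.1 rfl
      · intro l hl
        have : (List.map (fun a : ℝ →ᵇ M => (a, s)) (List.take (n + 1) l)).map (evp p) =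
            List.replicate (n + 1) ((q', p) : M × M) := by
          rw [List.map_map, List.eq_replicate_iff]
          refine ⟨by rw [List.length_map, List.length_take, hl.1]; omega, fun x hx => ?_⟩
          obtain ⟨w, hw, rfl⟩ := List.mem_map.1 hx
          have hw' := hl.2.1 w (List.mem_of_mem_take hw)
          change ((w s : M), p) = (q', p)
          rw [eq_right hw' le_rfl]
        rw [this]
        refine τ.nrm _ fun hc => ?_
        rw [List.replicate_succ, show n = (n - 1) + 1 by omega, List.replicate_succ,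
          List.isChain_cons_cons] at hc
        exact hc.1 rfl
      · refine Sp_mono (fun L hL => ⟨hL.1, ?_⟩) hsu
        rw [N929.dl_map τ.f (evp p)]
        refine τ.coc _ (by rw [List.length_map, List.length_take, hL.1]; omega)
          ⟨fun _ _ => mem_univ _, ?_⟩
        intro a ha b hb
        obtain ⟨x, hx, rfl⟩ := List.mem_map.1 ha
        obtain ⟨y, hy, rfl⟩ := List.mem_map.1 hb
        have hx' := List.mem_of_mem_take hx
        have hy' := List.mem_of_mem_take hy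
        have h3 := dist_ev_lt (hL.2.1 x hx') (hL.2.1 y hy') (hL.2.2 x hx' y hy')
        have hd : dist (evp p x) (evp p y) = dist (x.1 x.2) (y.1 y.2) := by
          rw [evp, evp, Prod.dist_eq, dist_self, max_eq_left dist_nonneg]
        rw [hd]
        linarith [hs.h2]
    rw [h0]
    exact Submodule.zero_mem _

/-- The cut of a concatenation, after the junction. -/
theorem cutp_right (hseg : LS.UniqSeg M ρ₀) (hr : 0 < r) (hrρ : r < ρ₀)
    {w v : ℝ →ᵇ M} (hw : w ∈ P x₀ q c) (hv : v ∈ P q q' s) {σ : ℝ} (hσ : 0 ≤ σ)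
    (hd : dist (v σ) p ≤ r) :
    cutp r p (catc c (w, v), c + σ) = catc c (w, cutp r p (v, σ)) := by
  have h0 : w c = v 0 := by rw [eq_right hw le_rfl, eq_left hv le_rfl]
  have hL : Lip (catc c (w, v) : ℝ → M) := by
    intro a b
    rw [catc, cat_apply hw.1 hv.1 h0, cat_apply hw.1 hv.1 h0]
    exact lip_catf hw.1 hv.1 h0 a b
  have e1 : catc c (w, v) (c + σ) = v σ := by
    rw [catc, cat_apply hw.1 hv.1 h0, catf_right h0 (by linarith)]
    congr 1
    ring
  have hd1 : dist (catc c (w, v) (c + σ)) (cst p 0) ≤ r := by rwa [e1, cst_apply]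
  have hd2 : dist (v σ) (cst p 0) ≤ r := by rwa [cst_apply]
  have hL2 : Lip (cutp r p (v, σ) : ℝ → M) := by
    intro a b
    rw [cutp, splice_apply hseg hr hrρ hv.1 (lip_cst p) hd2,
      splice_apply hseg hr hrρ hv.1 (lip_cst p) hd2]
    exact lip_spl hseg hr hrρ hv.1 (lip_cst p) hd2 a b
  have h1 : w c = cutp r p (v, σ) 0 := by
    rw [cutp, splice_apply hseg hr hrρ hv.1 (lip_cst p) hd2, spl_left hσ, h0]
  ext t
  rw [cutp, splice_apply hseg hr hrρ hL (lip_cst p) hd1]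
  rw [show catc c (w, cutp r p (v, σ)) t = cat c w (cutp r p (v, σ)) t from rfl,
    cat_apply hw.1 hL2 h1]
  rcases le_total t c with ht | ht
  · rw [spl_left (by linarith), catf_left ht, catc, cat_apply hw.1 hv.1 h0, catf_left ht]
  rw [catf_right h1 ht, cutp, splice_apply hseg hr hrρ hv.1 (lip_cst p) hd2]
  rcases le_total t (c + σ) with h2 | h2
  · rw [spl_left h2, spl_left (by linarith), catc, cat_apply hw.1 hv.1 h0, catf_right h0 ht]
  rcases le_total t (c + σ + r) with h3 | h3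
  · rw [spl_mid h2 h3, spl_mid (by linarith) (by linarith), e1]
    congr 2
    ring
  · rw [spl_right hr h3, spl_right hr (by linarith), cst_apply, cst_apply]

/-- The part of the integral before the junction vanishes. -/
theorem cap_before {f : List (M × M) → k} (hf : Nrm f) {g : List (ℝ →ᵇ M) → k} (hg : Nrm g)
    (hr : 0 < r) {m' : ℕ} (hm : 1 ≤ m) {z u : Ch k (ℝ →ᵇ M)}
    (hz : z ∈ Sp k fun l => l.length = m' + 1 ∧ ∀ w ∈ l, w ∈ P x₀ q c)
    (hu : u ∈ Sp k fun l => l.length = m + 1 ∧ ∀ w ∈ l, w ∈ P q q' s) {ι : Ch k ℝ}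
    (hι : ι ∈ Sp k fun l => l.length = 2 ∧ ∀ σ ∈ l, σ ≤ c) :
    ev (Sg.aL n f g r p) (sh (mp (catc c) (sh z u)) ι) = 0 := by
  have hid : mp (id : ℝ → ℝ) ι = ι := by
    have := lin_ext_apply (f := mp (k := k) (id : ℝ → ℝ)) (g := LinearMap.id)
      (fun l => by simp) ι
    simpa using this
  have h1 : sh (mp (catc c) (sh z u)) ι = mp (Prod.map (catc c) id) (sh (sh z u) ι) := by
    rw [← sh_mp, hid]
  rw [h1, ev_mp]
  refine ev_zero_of (fun L hL => ?_) (sh_chg_mem' (k := k)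
    (Prod.fst : (ℝ →ᵇ M) × (ℝ →ᵇ M) → ℝ →ᵇ M) (id : ℝ → ℝ)
    (sh_chg_mem' (k := k) (id : (ℝ →ᵇ M) → ℝ →ᵇ M) (fun _ : ℝ →ᵇ M => ()) hz hu) hι)
  obtain ⟨S, t, ⟨s₁, s₂, hs₁, hs₂, hG₁, hc₁⟩, ht, hG, hc⟩ := hL
  have e0 : Sg.aL n f g r p (L.map (Prod.map (catc c) id)) =
      intg n f g r p (L.map (Prod.map Prod.fst id)) := by
    change intg n f g r p (L.map (Prod.map (catc c) id)) = _
    have key : ∀ x ∈ L, (x.1.1 ∈ P x₀ q c ∧ x.1.2 ∈ P q q' s) ∧ x.2 ≤ c := fun x hx =>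
      ⟨⟨hs₁.2 _ (hG₁.2 _ (hG.2 x hx).1).1, hs₂.2 _ (hG₁.2 _ (hG.2 x hx).1).2⟩,
        ht.2 _ (hG.2 x hx).2⟩
    rw [intg_eq', intg_eq', List.map_map, List.map_map, List.map_map, List.map_map]
    have e1 : L.map (evp p ∘ Prod.map (catc c) id) = L.map (evp p ∘ Prod.map Prod.fst id) :=
      List.map_congr_left fun x hx => evp_left (key x hx).1.1 (key x hx).1.2 (key x hx).2
    have e2 : L.map (cutp r p ∘ Prod.map (catc c) id) =
        L.map (cutp r p ∘ Prod.map Prod.fst id) :=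
      List.map_congr_left fun x hx => cutp_left hr (key x hx).1.1 (key x hx).1.2 (key x hx).2
    rw [e1, e2]
  rw [e0]
  have hN : Nrm (intg n f g r p) := Nrm.cup n (hf.map _) (hg.map _)
  refine Nrm_zero hN ?_
  have a1 : chg (S.map Prod.fst) ≤ chg s₁ := by
    have : S.map Prod.fst = (S.map (Prod.map (id : (ℝ →ᵇ M) → ℝ →ᵇ M)
        (fun _ : ℝ →ᵇ M => ()))).map Prod.fst := by
      rw [List.map_map]
      rfl
    rw [this]
    refine (chg_map _ _).trans (hc₁.trans ?_)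
    rw [List.map_id, List.map_const']
    have : ∀ n, chg (List.replicate n ()) = 0 := by
      intro n
      induction n with
      | zero => simp
      | succ n ih =>
        rcases n with _ | n
        · simp
        · rw [List.replicate_succ, List.replicate_succ, chg_eq, ← List.replicate_succ, ih]
    rw [this, add_zero]
  have a2 := chg_le_length s₁
  have a3 := chg_le_length (t.map (id : ℝ → ℝ))
  have a4 := hG.1
  have a5 := hG₁.1
  have a6 := hs₁.1
  have a7 := hs₂.1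
  have a8 := ht.1
  rw [List.length_map] at a3 ⊢
  omega

/-- **(E1), the part after the junction.** -/
theorem cap_after (τ : Tau k M n ρ₁) (hseg : LS.UniqSeg M ρ₀) (hr : 0 < r) (hrρ : r < ρ₀)
    (hs : Scl τ r p ε η) (g : List (ℝ →ᵇ M) → k) {m' : ℕ} (hm : m + 1 = n + e) {z u : Ch k (ℝ →ᵇ M)}
    (hz : z ∈ Sp k fun l => l.length = m' + 1 ∧ ∀ w ∈ l, w ∈ P x₀ q c)
    (hu : u ∈ Sp k fun l => l.length = m + 1 ∧ SmL (P q q' s) η l) {ι : Ch k ℝ}
    (hι : ι ∈ Sp k fun l => l.length = 2 ∧ SmL (Icc 0 s) η l) (hc : 0 ≤ c) :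
    ev (Sg.aL n τ.f g r p) (sh (mp (catc c) (sh z u)) (mp (fun σ => c + σ) ι)) =
      (-1) ^ ((m' + 1 + 1) * n) * ev g (mp (catc c) (sh z (capE n τ.f r p u ι))) := by
  have hsu := sh_fine hu hι
  -- the left hand side as an integral over `z × (u × ι)`
  rw [sh_mp, ev_mp]
  have e0 : ev (fun L => Sg.aL n τ.f g r p (L.map (Prod.map (catc c) fun σ => c + σ)))
      (sh (sh z u) ι) = ev (fun L : List ((ℝ →ᵇ M) × ((ℝ →ᵇ M) × ℝ)) =>
        τ.f (((L.take (n + 1)).map Prod.snd).map (evp p)) *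
          (fun L' : List ((ℝ →ᵇ M) × ((ℝ →ᵇ M) × ℝ)) =>
            g (L'.map fun x => cutp r p (catc c (x.1, x.2.1), c + x.2.2))) (L.drop n))
        (sh z (sh u ι)) := by
    rw [ev_sh_assoc]
    refine ev_congr (P := fun L => ∀ x ∈ L, (x.1.1 ∈ P x₀ q c ∧ x.1.2 ∈ P q q' s) ∧ 0 ≤ x.2)
      (fun L hL => ?_) ?_
    · change intg n τ.f g r p _ = _
      have e2 : ∀ L' : List (((ℝ →ᵇ M) × (ℝ →ᵇ M)) × ℝ),
          (L'.map asc).map (fun x => cutp r p (catc c (x.1, x.2.1), c + x.2.2)) =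
            L'.map (cutp r p ∘ Prod.map (catc c) fun σ => c + σ) := by
        intro L'
        rw [List.map_map]
        rfl
      rw [intg_eq', List.map_map, List.map_map, ← List.map_take, ← List.map_drop,
        ← List.map_take, ← List.map_drop, List.map_map, List.map_map]
      change _ = τ.f _ * g (((L.drop n).map asc).map _)
      rw [e2]
      congr 2
      refine List.map_congr_left fun x hx => ?_
      have hx' := hL x (List.mem_of_mem_take hx)
      have h0 : x.1.1 c = x.1.2 0 := by rw [eq_right hx'.1.1 le_rfl, eq_left hx'.1.2 le_rfl]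
      change ((catc c x.1 (c + x.2) : M), p) = ((x.1.2 x.2 : M), p)
      rw [catc_right hx'.1.1 hx'.1.2 (by linarith [hx'.2])]
      congr 2
      ring
    · refine sh_mem (P := fun S => ∀ y ∈ S, y.1 ∈ P x₀ q c ∧ y.2 ∈ P q q' s)
        (fun S t L hS ht hG x hx => ⟨hS _ (hG.2 x hx).1, (ht.2.1 _ (hG.2 x hx).2).1⟩)
        (sh_mem (fun a b L ha hb hG x hx => ⟨ha.2 _ (hG.2 x hx).1, hb.2.1 _ (hG.2 x hx).2⟩) hz hu)
        hι
  rw [e0, front_right' (f := fun l => τ.f (l.map (evp p))) (τ.nrm.map (evp p))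
    (fun L' : List ((ℝ →ᵇ M) × ((ℝ →ᵇ M) × ℝ)) =>
            g (L'.map fun x => cutp r p (catc c (x.1, x.2.1), c + x.2.2))) n (p := m' + 1)
    (N := m + 2) (by omega) (by omega)
    (Sp_mono (fun l hl => ⟨hl.1, by rintro rfl; simp at hl⟩) hz)
    (Sp_mono (fun l hl => hl.1) hsu)]
  congr 1
  -- the right hand side
  have hid : mp (id : (ℝ →ᵇ M) → ℝ →ᵇ M) z = z := by
    have := lin_ext_apply (f := mp (k := k) (id : (ℝ →ᵇ M) → ℝ →ᵇ M)) (g := LinearMap.id)
      (fun l => by simp) z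
    simpa using this
  have h1 : sh z (capE n τ.f r p u ι) = mp (Prod.map id (cutp r p))
      (sh z (capf (fun l => τ.f (l.map (evp p))) n (sh u ι))) := by
    rw [← sh_mp, hid]
    rfl
  rw [h1, ev_mp, ev_mp]
  refine ev_congr (P := fun L => ∀ x ∈ L, x.1 ∈ P x₀ q c ∧ (x.2.1 ∈ P q q' s ∧ 0 ≤ x.2.2 ∧
    dist (x.2.1 x.2.2) p ≤ r)) (fun L hL => ?_) ?_
  · rw [List.map_map]
    congr 1
    refine List.map_congr_left fun x hx => ?_
    obtain ⟨a1, a2, a3, a4⟩ := hL x hx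
    exact cutp_right hseg hr hrρ a1 a2 a3 a4
  · refine sh_mem (Q := fun l => ∀ y ∈ l, y.1 ∈ P q q' s ∧ 0 ≤ y.2 ∧ dist (y.1 y.2) p ≤ r)
      (fun a b L ha hb hG x hx => ⟨ha.2 _ (hG.2 x hx).1, hb _ (hG.2 x hx).2⟩) hz
      (capf_mem hsu fun L hL h0 y hy => ?_)
    have hy' := List.mem_of_mem_drop hy
    refine ⟨(hL.2.1 y hy').1, (hL.2.1 y hy').2.1, ?_⟩
    obtain ⟨x, hx⟩ : ∃ x, x ∈ L.take (n + 1) := by
      obtain ⟨x, L, rfl⟩ := List.exists_cons_of_ne_nil (l := L) (by rintro rfl; simp at hL)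
      exact ⟨x, by rw [List.take_succ_cons]; exact List.mem_cons_self⟩
    have h4 : dist (x.1 x.2) p < ρ₁ := by
      by_contra hcon
      exact h0 (τ.supp _ ⟨evp p x, List.mem_map_of_mem hx, not_lt.1 hcon⟩)
    have hx' := List.mem_of_mem_take hx
    have h5 := dist_ev_lt (hL.2.1 y hy') (hL.2.1 x hx') (hL.2.2 y hy' x hx')
    linarith [dist_triangle (y.1 y.2) (x.1 x.2) p, hs.h3']

/-- **(E1), the cap formula.** -/
theorem cap_formula (τ : Tau k M n ρ₁) (hseg : LS.UniqSeg M ρ₀) (hr : 0 < r) (hrρ : r < ρ₀)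
    (hs : Scl τ r p ε η) {g : List (ℝ →ᵇ M) → k} (hg : Nrm g) {m' : ℕ} (hm : m + 1 = n + e)
    (hm1 : 1 ≤ m) {z u : Ch k (ℝ →ᵇ M)}
    (hz : z ∈ Sp k fun l => l.length = m' + 1 ∧ ∀ w ∈ l, w ∈ P x₀ q c)
    (hu : u ∈ Sp k fun l => l.length = m + 1 ∧ SmL (P q q' s) η l) {ι₁ ι : Ch k ℝ}
    (hι₁ : ι₁ ∈ Sp k fun l => l.length = 2 ∧ ∀ σ ∈ l, σ ≤ c)
    (hι : ι ∈ Sp k fun l => l.length = 2 ∧ SmL (Icc 0 s) η l) (hc : 0 ≤ c) :
    ev (Sg.aL n τ.f g r p) (sh (mp (catc c) (sh z u)) (ι₁ + mp (fun σ => c + σ) ι)) =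
      (-1) ^ ((m' + 1 + 1) * n) * ev g (mp (catc c) (sh z (capE n τ.f r p u ι))) := by
  rw [map_add, map_add, cap_before τ.nrm hg hr hm1 hz
    (Sp_mono (fun l hl => ⟨hl.1, hl.2.1⟩) hu) hι₁, zero_add,
    cap_after τ hseg hr hrρ hs g hm hz hu hι hc]

end Vale.Agent.P216.H977C
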