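import Vale.Agent.P216.N929.Gen
import Vale.Agent.P216.H787.COm

/-!
# P216-C, block C03: the classes `W c j` and `A c j = eta cup W c j`

`W c 0 = 1`, `A c j = eta cup W c j` (degree `j D + e`), `W c (j + 1)` = fibre integral of
`tau cup A (!c) j` (degree `(j + 1) D`), `D + 1 = n + e`. All meshes are of the form `1 / (N + 1)`.
-/

open Finsupp Set BoundedContinuousFunction

namespace Vale.Agent.P216.H977C

open Vale.Agent.P216.Sl Vale.Agent.P216.PS Vale.Agent.P216.N929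

/-- The class `eta` of degree `e`: one scale for all end points and durations. -/
structure Eta (k : Type) [Field k] (M : Type) [MetricSpace M] (e : ℕ) where
  f : List (ℝ →ᵇ M) → k
  nrm : Nrm f
  ε : ℝ
  hε : 0 < ε
  coc : ∀ (a b : M) (T : ℝ), Coc (P a b T) ε e f

section

variable {k : Type} [Field k] {α : Type} [PseudoMetricSpace α]

/-- The cup product of two cocycles. -/
theorem coc_cup {X : Set α} {ε ε' η : ℝ} {e m : ℕ} {f g : List α → k} (hf : Coc X ε e f)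
    (hg : Coc X ε' m g) (h : η ≤ ε) (h' : η ≤ ε') : Coc X η (m + e) (N929.cup e f g) := by
  intro l hl hs
  rw [N929.dl_cup _ _ _ _ (by omega)]
  have h1 : dl f (l.take (e + 2)) = 0 :=
    hf _ (by rw [List.length_take]; omega)
      ((hs.sub fun x hx => List.mem_of_mem_take hx).mono le_rfl h)
  have h2 : dl g (l.drop e) = 0 :=
    hg _ (by rw [List.length_drop]; omega)
      ((hs.sub fun x hx => List.mem_of_mem_drop hx).mono le_rfl h')
  rw [h1, h2]
  ring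

omit [PseudoMetricSpace α] in
theorem nrm_cup {e : ℕ} {f g : List α → k} (hf : Nrm f) (hg : Nrm g) :
    Nrm (N929.cup e f g) := N929.Nrm.cup e hf hg

/-- `eta cup g` is exact if `g` is. -/
theorem exL_cup {X : Set α} {ε : ℝ} (hε : 0 < ε) {e m : ℕ} {f g : List α → k} (he : 1 ≤ e)
    (hf : Coc X ε e f) (hg : ExL X m g) : ExL X (m + e) (N929.cup e f g) := by
  obtain ⟨s, hs0, ε', hε', hs⟩ := hg
  refine ⟨fun l => (-1 : k) ^ e * N929.cup e f s l, fun h0 => by omega, min ε ε',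
    lt_min hε hε', fun l hl hl' => ?_⟩
  have h1 : dl f (l.take (e + 2)) = 0 ∨ m = 0 := by
    rcases Nat.eq_zero_or_pos m with h0 | h0
    · exact Or.inr h0
    · exact Or.inl (hf _ (by rw [List.length_take]; omega)
        ((Fine.sub hl' fun x hx => List.mem_of_mem_take hx).mono le_rfl (min_le_left _ _)))
  have h2 : g (l.drop e) = dl s (l.drop e) :=
    hs _ (by rw [List.length_drop]; omega)
      (SmL.mono (Fine.sub hl' fun x hx => List.mem_of_mem_drop hx) le_rfl (min_le_right _ _))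
  have hsq : (-1 : k) ^ e * (-1) ^ e = 1 := by
    rw [← pow_add, ← two_mul]; simp
  rw [N929.dl_smul_fun]
  rcases Nat.eq_zero_or_pos m with h0 | h0
  · have e0 : s = fun _ => 0 := funext (hs0 h0)
    have e1 : N929.cup e f s = fun _ => 0 := by
      funext l
      rw [N929.cup, e0, mul_zero]
    rw [e1, PS.dl_zero_fun, mul_zero, N929.cup, h2, e0, PS.dl_zero_fun, mul_zero]
  · rw [N929.dl_cup _ _ _ _ (by omega), N929.cup, h2]
    rcases h1 with h1 | h1
    · rw [h1]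
      linear_combination (-(f (l.take (e + 1)) * dl s (l.drop e))) * hsq
    · omega

omit [Field k] [PseudoMetricSpace α] in
theorem exists_mesh {x : ℝ} (hx : 0 < x) : ∃ N : ℕ, 1 / ((N : ℝ) + 1) < x :=
  exists_nat_one_div_lt hx

end

variable {k : Type} [Field k] {M : Type} [MetricSpace M] [CompactSpace M]

/-- A stage of the recursion. -/
structure StageC (k : Type) [Field k] {n : ℕ} (G : Geo M n) (D : ℕ) (b : Bool) (j : ℕ) where
  f : List (ℝ →ᵇ M) → k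
  ε : ℝ
  hε : 0 < ε
  nrm : Nrm f
  coc : ∀ T, Coc (P G.x₀ (G.y b) T) ε (j * D) f

variable {n e D : ℕ} (G : Geo M n) (τ : Tau k M n G.ρ₁) (E : Eta k M e) (hD : D + 1 = n + e)

omit [CompactSpace M] in
theorem coc_A {b : Bool} {j : ℕ} (s : StageC k G D b j) (T : ℝ) :
    Coc (P G.x₀ (G.y b) T) (min E.ε s.ε) (j * D + e) (N929.cup e E.f s.f) :=
  coc_cup (E.coc _ _ _) (s.coc T) (min_le_left _ _) (min_le_right _ _)

/-- The recursion. -/
noncomputable def stg : ∀ (j : ℕ) (b : Bool), StageC k G D b j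
  | 0, _ => ⟨one1 k _, 1, one_pos, nrm_one1, fun T => by
      rw [Nat.zero_mul]; exact coc_one1 _ _⟩
  | j + 1, b =>
    let s := stg j (!b)
    let h := exists_scl (y := G.y (!b)) τ G.h1r (cutMod G.seg G.hr G.hrρ _)
      (lt_min E.hε s.hε)
    let N := exists_mesh h.choose_spec.pos
    ⟨stp n τ.f G.r (1 / ((N.choose : ℝ) + 1)) (G.y (!b)) (N929.cup e E.f s.f), h.choose,
      h.choose_spec.pos, nrm_stp τ (nrm_cup E.nrm s.nrm),
      fun T => by
        have h1 := stp_coc' (y' := G.y b) τ G.seg G.hr G.hrρ h.choose_spec (G.hy b) (G.hx _)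
          (by have := G.hn; omega) (fun T => coc_A G E s T)
          (δ := 1 / ((N.choose : ℝ) + 1)) (by positivity) N.choose_spec T
        have e' : n + (j * D + e) - 1 = (j + 1) * D := by
          have := G.hn
          rw [Nat.add_mul, Nat.one_mul]
          omega
        rwa [e'] at h1⟩

/-- The classes `W`. -/
noncomputable def W (b : Bool) (j : ℕ) : List (ℝ →ᵇ M) → k := (stg G τ E hD j b).f

/-- The scales. -/
noncomputable def Wε (b : Bool) (j : ℕ) : ℝ := (stg G τ E hD j b).ε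

/-- The classes `A = eta cup W`. -/
noncomputable def A (b : Bool) (j : ℕ) : List (ℝ →ᵇ M) → k := N929.cup e E.f (W G τ E hD b j)

/-- The scales. -/
noncomputable def Aε (b : Bool) (j : ℕ) : ℝ := min E.ε (Wε G τ E hD b j)

theorem Wε_pos (b : Bool) (j : ℕ) : 0 < Wε G τ E hD b j := (stg G τ E hD j b).hε

theorem Aε_pos (b : Bool) (j : ℕ) : 0 < Aε G τ E hD b j := lt_min E.hε (Wε_pos G τ E hD b j)

theorem W_nrm (b : Bool) (j : ℕ) : Nrm (W G τ E hD b j) := (stg G τ E hD j b).nrm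

theorem A_nrm (b : Bool) (j : ℕ) : Nrm (A G τ E hD b j) := nrm_cup E.nrm (W_nrm G τ E hD b j)

theorem W_coc (b : Bool) (j : ℕ) (T : ℝ) :
    Coc (P G.x₀ (G.y b) T) (Wε G τ E hD b j) (j * D) (W G τ E hD b j) :=
  (stg G τ E hD j b).coc T

theorem A_coc (b : Bool) (j : ℕ) (T : ℝ) :
    Coc (P G.x₀ (G.y b) T) (Aε G τ E hD b j) (j * D + e) (A G τ E hD b j) :=
  coc_A G E (stg G τ E hD j b) T

theorem W_zero (b : Bool) : W G τ E hD b 0 = one1 k _ := rfl

theorem W_succ (b : Bool) (j : ℕ) : ∃ N : ℕ, 1 / ((N : ℝ) + 1) < Wε G τ E hD b (j + 1) ∧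
    W G τ E hD b (j + 1) = stp n τ.f G.r (1 / ((N : ℝ) + 1)) (G.y (!b)) (A G τ E hD (!b) j) :=
  ⟨_, (exists_mesh (exists_scl (y := G.y (!b)) τ G.h1r (cutMod G.seg G.hr G.hrρ _)
    (lt_min E.hε (stg G τ E hD j (!b)).hε)).choose_spec.pos).choose_spec, rfl⟩

theorem W_scl (b : Bool) (j : ℕ) :
    Scl τ G.r (G.y (!b)) (Aε G τ E hD (!b) j) (Wε G τ E hD b (j + 1)) :=
  (exists_scl (y := G.y (!b)) τ G.h1r (cutMod G.seg G.hr G.hrρ _)
    (lt_min E.hε (stg G τ E hD j (!b)).hε)).choose_spec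

include hD in
omit [CompactSpace M] in
theorem deg_succ (j : ℕ) : (j + 1) * D + 1 = n + (j * D + e) := by
  rw [Nat.add_mul, Nat.one_mul]
  omega

theorem W_cocL (b : Bool) (j : ℕ) (T : ℝ) :
    CocL (P G.x₀ (G.y b) T) (j * D) (W G τ E hD b j) :=
  ⟨_, Wε_pos G τ E hD b j, W_coc G τ E hD b j T⟩

theorem A_cocL (b : Bool) (j : ℕ) (T : ℝ) :
    CocL (P G.x₀ (G.y b) T) (j * D + e) (A G τ E hD b j) :=
  ⟨_, Aε_pos G τ E hD b j, A_coc G τ E hD b j T⟩

/-- **Evaluation** of `W b (j + 1)` on fine cycles, with any fine mesh. -/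
theorem W_eval (b : Bool) (j : ℕ) {T T' : ℝ} (hT : 0 ≤ T) (hTT : T ≤ T') {η : ℝ} (hη : 0 < η)
    (hη' : η ≤ Wε G τ E hD b (j + 1)) {z : Ch k (ℝ →ᵇ M)}
    (hz : Cy (P G.x₀ (G.y b) T) η ((j + 1) * D) z) {ι : Ch k ℝ} (hι : Edge 0 T' η ι) :
    ev (W G τ E hD b (j + 1)) z =
      ev (Sg.aL n τ.f (A G τ E hD (!b) j) G.r (G.y (!b))) (sh z ι) := by
  obtain ⟨N, hN, hW⟩ := W_succ G τ E hD b j
  rw [hW]
  exact stp_eval τ G.seg G.hr G.hrρ G.hn (deg_succ hD j) (W_scl G τ E hD b j) (G.hy b)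
    (A_coc G τ E hD (!b) j) (by positivity) hN hT hTT hη hη' hz hι

/-- `C (A j) ≤ C (W (j + 1)) + r`. -/
theorem W_down (b : Bool) (j : ℕ) {S T : ℝ} (hT : 0 ≤ T) (hS : T + G.r ≤ S)
    (h : ExL (P G.x₀ (G.y (!b)) S) (j * D + e) (A G τ E hD (!b) j)) :
    ExL (P G.x₀ (G.y b) T) ((j + 1) * D) (W G τ E hD b (j + 1)) := by
  obtain ⟨N, hN, hW⟩ := W_succ G τ E hD b j
  rw [hW]
  exact stp_down τ G.seg G.hr G.hrρ G.h1r G.hn (deg_succ hD j) (W_scl G τ E hD b j) (G.hy b)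
    (A_coc G τ E hD (!b) j) (by positivity) hN hT hS h

/-- `C (W j) ≤ C (A j)`. -/
theorem A_down (b : Bool) (j : ℕ) (he : 1 ≤ e) {T : ℝ}
    (h : ExL (P G.x₀ (G.y b) T) (j * D) (W G τ E hD b j)) :
    ExL (P G.x₀ (G.y b) T) (j * D + e) (A G τ E hD b j) :=
  exL_cup E.hε he (E.coc _ _ _) h

/-- Detection. -/
theorem W_det (he : 1 ≤ e) (b : Bool) (j : ℕ) {C : ℝ} (hC : 0 ≤ C) {s : List (ℝ →ᵇ M) → k}
    (hne : ¬ ExL (P G.x₀ (G.y b) C) ((j + 1) * D) (W G τ E hD b (j + 1))) (δ : ℝ) (hδ : 0 < δ) :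
    ∃ z : Ch k (ℝ →ᵇ M), z ∈ Sp k (fun l => l.length = (j + 1) * D + 1 ∧
      SmL (P G.x₀ (G.y b) C) δ l) ∧ bd z = 0 ∧
      ∃ ι : Ch k ℝ, ι ∈ Sp k (fun l => l.length = 2 ∧ SmL (Icc 0 C) δ l) ∧
        bd ι = single [C] 1 - single [0] 1 ∧
        ev (Sg.aL n τ.f (fun l => A G τ E hD (!b) j l - dl s l) G.r (G.y (!b))) (sh z ι) = 1 := by
  obtain ⟨N, hN, hW⟩ := W_succ G τ E hD b j
  rw [hW] at hne
  exact stp_det τ G.seg G.hr G.hrρ G.hn (deg_succ hD j) (W_scl G τ E hD b j) (G.hy b)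
    (A_coc G τ E hD (!b) j) (by positivity) hN hC (fun h0 => by omega) hne δ hδ

end Vale.Agent.P216.H977C
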