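import Vale.Agent.P216.H977C.Sys
import Vale.Agent.P216.H787.CLow
import Vale.Agent.P216.C313.LowMain
import Vale.Agent.P216.H133C.ThomOut
import Vale.Agent.P216.H250.Pi0P

/-!
# P216-C, block C03: OMEGA from THOM, LOW and MID
-/

open Finsupp Set BoundedContinuousFunction

namespace Vale.Agent.P216.H977C

open Vale.Agent.P216.Sl Vale.Agent.P216.PS Vale.Agent.P216.N929

/-- **[MID], output (C12).** For every Thom cochain with non-exact slices there is a normalised,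
additive cocycle `eta` of degree `e` on the path spaces such that `∫ τ(w σ, p) ∪ eta` is not exact on
the loops at `q` of duration `s`, for the two pairs of base points `q = y b`, `p = y (!b)`; `s` does
not depend on the field. -/
def MidOut (M : Type) [MetricSpace M] [CompactSpace M] (n e D : ℕ) : Prop :=
  ∀ G : Geo M n, ∃ s : ℝ, 0 ≤ s ∧ ∀ (k : Type) [Field k], (2 : k) ≠ 0 →
    ∀ τ : Tau k M n G.ρ₁, (∀ y : M, ¬ ExL (univ : Set M) n fun l => τ.f (l.map fun x => (x, y))) →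
      ∃ E : Eta k M e, AddE E.f ∧ Mid (D := D) G τ E s

theorem chg_of_subsingleton {α : Type} [Subsingleton α] : ∀ l : List α, chg l = 0
  | [] => chg_nil
  | [a] => chg_one a
  | a :: b :: l => by
    rw [Subsingleton.elim a b, chg_eq]
    exact chg_of_subsingleton (b :: l)

/-- Three distinct points, one of them given. -/
theorem exists_points {M : Type} [MetricSpace M] [PathConnectedSpace M] {n : ℕ} (hn : 1 ≤ n)
    (h : H133C.ThomOut M n) (x₀ : M) : ∃ a b : M, x₀ ≠ a ∧ x₀ ≠ b ∧ a ≠ b := by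
  have hnt : Nontrivial M := by
    rw [← not_subsingleton_iff_nontrivial]
    intro hs
    obtain ⟨τ, hτ⟩ := h ℚ (by norm_num) 1 one_pos
    refine hτ x₀ ⟨fun _ => 0, fun _ _ => rfl, 1, one_pos, fun l hl _ => ?_⟩
    rw [PS.dl_zero_fun]
    have : Subsingleton (M × M) := inferInstance
    refine Nrm_zero τ.nrm ?_
    rw [chg_of_subsingleton, List.length_map, hl]
    omega
  have h5 : (univ : Set M).Infinite :=
    isPreconnected_univ.infinite_of_nontrivial Set.nontrivial_univ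
  obtain ⟨a, -, ha⟩ := h5.exists_notMem_finite (Set.finite_singleton x₀)
  obtain ⟨b, -, hb⟩ := h5.exists_notMem_finite ((Set.finite_singleton x₀).insert a)
  simp only [mem_singleton_iff, mem_insert_iff, not_or] at ha hb
  exact ⟨a, b, fun h => ha h.symm, fun h => hb.2 h.symm, fun h => hb.1 h.symm⟩

/-- **OMEGA of P216-C**, from THOM, LOW and MID. -/
theorem omegaC {M : Type} [MetricSpace M] [CompactSpace M] [SimplyConnectedSpace M]
    {n e D : ℕ} (he : 1 ≤ e) (hen : e + 1 < n) (hD : D + 1 = n + e) {ρ B0 : ℝ} (hρ : 0 < ρ)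
    (hU : LS.UniqSeg M ρ) (hT : H133C.ThomOut M n) (hB0 : 0 ≤ B0) (hL : C313.LowC M e B0)
    (hM : MidOut M n e D) (x₀ : M) :
    ∃ B : ℝ, 0 < B ∧ ∀ (k : Type) [Field k], (2 : k) ≠ 0 →
      Nonempty (B64.OmegaOutC M e D x₀ B k) := by
  obtain ⟨a, b, h1, h2, h3⟩ := exists_points (n := n) (by omega) hT x₀
  obtain ⟨G, rfl⟩ := exists_geo hU hρ (n := n) (by omega) h1 h2 h3
  obtain ⟨Dp, hDp, hne, hj⟩ := H250.pi0 hρ hU
  obtain ⟨s, hs, H⟩ := hM G
  have hCa : 1 + (⌈Dp⌉₊ : ℝ) + s ≤ 1 + ⌈Dp⌉₊ + s := le_rfl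
  have hCa0 : (0 : ℝ) ≤ 1 + ⌈Dp⌉₊ + s := by positivity
  refine ⟨OmSysC.BC G.r (1 + ⌈Dp⌉₊ + s) Dp B0, ?_, fun k _ h2 => ?_⟩
  · have := G.hr
    unfold OmSysC.BC
    linarith
  · obtain ⟨τ, hτ⟩ := hT k h2 G.ρ₁ G.h1
    obtain ⟨E, hE, hmid⟩ := H k h2 τ hτ
    have hv : ∀ b, ∃ v : ℝ →ᵇ M, v ∈ P (G.y (!b)) (G.y b) ⌈Dp⌉₊ := fun b => by
      obtain ⟨v, hv⟩ := hne (G.y (!b)) (G.y b)
      exact ⟨v, P_mono (Nat.le_ceil Dp) hv⟩
    exact ⟨(omSysC G τ E hD hE he hen hs hCa hv hmid).out (r₀ := G.ρ₁) (εt := τ.ε) (D := Dp)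
      G.seg G.hr G.hrρ G.h1r τ.hε ⟨τ.nrm, τ.coc, fun l _ _ h => τ.supp l h⟩ ⟨hDp, hne, hj⟩ hCa0
      (by omega) hD he hB0 hL h2⟩

/-- **OMEGA of P216-C** for manifolds with a decomposition in cells of dimensions `d j`. -/
theorem omegaC_cell {M : Type} [MetricSpace M] [CompactSpace M] [SimplyConnectedSpace M]
    {d h : ℕ} (C : H133C.CellDec M d h) (hd : 2 ≤ d) (hh : 2 ≤ h) {ρ : ℝ} (hρ : 0 < ρ)
    (hU : LS.UniqSeg M ρ) (hT : H133C.ThomOut M (d * h))
    (hM : MidOut M (d * h) (d - 1) (d * (h + 1) - 2)) (x₀ : M) :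
    ∃ B : ℝ, 0 < B ∧ ∀ (k : Type) [Field k], (2 : k) ≠ 0 →
      Nonempty (B64.OmegaOutC M (d - 1) (d * (h + 1) - 2) x₀ B k) := by
  obtain ⟨B0, hB0, hL⟩ := C313.lowC C (by omega) hρ hU
  have h1 : d * 2 ≤ d * h := Nat.mul_le_mul_left d hh
  have h2 : d * (h + 1) = d * h + d := by ring
  exact omegaC (n := d * h) (by omega) (by omega) (by omega) hρ hU hT hB0 hL hM x₀

end Vale.Agent.P216.H977C
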