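import Vale.Agent.P216.H977C.MainC
import Vale.Agent.P216.H977C.Eta
import Vale.Agent.P216.C337.KSeq

/-!
# P216-C: `MidOutC` from `W_1 ≠ 0`
-/

open Finsupp Set BoundedContinuousFunction

namespace Vale.Agent.P216.H977C

open Vale.Agent.P216.Sl Vale.Agent.P216.PS Vale.Agent.P216.N929

/-- **[W1], output.** `W_1` (the step applied to `eta`) is not exact on the loops at `y b` of a
duration `s` independent of the field. -/
def W1Out {M : Type} [MetricSpace M] [CompactSpace M] {d h : ℕ} (C : H133C.CellDec M d h) :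
    Prop :=
  ∀ G : Geo M (d * h), (∀ b, ∀ x ∈ C.L h, G.ρ₁ ≤ dist x (G.y b)) → ∃ s : ℝ, 0 ≤ s ∧
    ∀ (k : Type) [Field k], (2 : k) ≠ 0 → ∀ τ : Tau k M (d * h) G.ρ₁,
      (∀ y : M, ¬ ExL (univ : Set M) (d * h) fun l => τ.f (l.map fun x => (x, y))) →
        ∀ (S : H140.KSeq k C) (N : ℕ), 1 / ((N : ℝ) + 1) < S.ε / 4 → ∀ (b : Bool) (η₀ : ℝ),
          Scl τ G.r (G.y (!b)) (S.ε / 4) η₀ → 1 / ((N : ℝ) + 1) < η₀ →
            ¬ ExL (P (G.y b) (G.y b) s) (d * (h + 1) - 2)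
              (stp (d * h) τ.f G.r (1 / ((N : ℝ) + 1)) (G.y (!b)) (H140.eta N S.ξ))

/-- `MidOutC` from RING and [W1]. -/
theorem midOutC_of {M : Type} [MetricSpace M] [CompactSpace M] {d h : ℕ} (C : H133C.CellDec M d h)
    (hd : 2 ≤ d) (hh : 1 ≤ h) (hR : H133C.RingOut M C) (hW : W1Out C) :
    MidOutC C (d - 1) (d * (h + 1) - 2) := by
  intro G hG
  obtain ⟨s, hs, H⟩ := hW G hG
  refine ⟨s, hs, fun k _ h2 τ hτ => ?_⟩
  obtain ⟨S⟩ := C337.kSeqOut M d h C (by omega) hR k h2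
  have hε4 : 0 < S.ε / 4 := by have := S.hε; positivity
  obtain ⟨η₁, h1⟩ := exists_scl τ G.h1r (cutMod G.seg G.hr G.hrρ (G.y true)) hε4
  obtain ⟨η₂, h3⟩ := exists_scl τ G.h1r (cutMod G.seg G.hr G.hrρ (G.y false)) hε4
  obtain ⟨N, hN⟩ := exists_mesh (lt_min hε4 (lt_min h1.pos h3.pos))
  have hN1 : 1 / ((N : ℝ) + 1) < S.ε / 4 := hN.trans_le (min_le_left _ _)
  have hN2 : 1 / ((N : ℝ) + 1) < η₁ :=
    hN.trans_le ((min_le_right _ _).trans (min_le_left _ _))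
  have hN3 : 1 / ((N : ℝ) + 1) < η₂ :=
    hN.trans_le ((min_le_right _ _).trans (min_le_right _ _))
  have hc : Coc (univ : Set M) S.ε (d - 1 + 1) S.ξ := by
    rw [Nat.sub_add_cancel (by omega)]
    exact S.cξ
  refine ⟨etaE N S.nξ S.hε hc hN1, etaE_add N S.nξ S.hε hc hN1, ?_⟩
  have hdh : d * (h + 1) = d * h + d := by ring
  have hdh' : d ≤ d * h := Nat.le_mul_of_pos_right d hh
  refine mid_of G τ _ hs (by omega) fun b => ?_
  have hδ0 : (0 : ℝ) < 1 / ((N : ℝ) + 1) := by positivity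
  rcases b with _ | _
  · exact ⟨_, hδ0, η₁, h1, hN2, H k h2 τ hτ S N hN1 false η₁ h1 hN2⟩
  · exact ⟨_, hδ0, η₂, h3, hN3, H k h2 τ hτ S N hN1 true η₂ h3 hN3⟩

end Vale.Agent.P216.H977C
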