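import Vale.Agent.P216.E2L.Line
import Vale.Agent.P216.N929.Fib0

/-!
# P216-D, block MID: the cone complex of `C^*(M) ⊕ C^{*-e}(M) η → C^*(E)`, algebra

Triples `(f, a, c)`, `f` a cochain of `E`, `a`, `c` cochains of `M`; `η` a cochain of `E` of degree
`e` with `dη = ξ ∘ π`;
`D (f, a, c) = (df - a ∘ π - c ∪ η, -(da ± c ∪ ξ), -dc)`.
-/

set_option linter.all false

open Set

namespace Vale.Agent.P216.H977C

open Vale.Agent.P216.Sl Vale.Agent.P216.PS Vale.Agent.P216.E2L

namespace K3

variable {k : Type} [Field k] {M E Z : Type}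

/-- The cup product on the right with `g` of degree `e`, whatever the length of the list. -/
def rc (e : ℕ) (π : Z → M) (c : List M → k) (g : List Z → k) (l : List Z) : k :=
  c ((l.take (l.length - e)).map π) * g (l.drop (l.length - e - 1))

theorem rc_add (e : ℕ) (π : Z → M) (c c' : List M → k) (g : List Z → k) (l : List Z) :
    rc e π (c + c') g l = rc e π c g l + rc e π c' g l := add_mul _ _ _

theorem rc_smul (e : ℕ) (π : Z → M) (a : k) (c : List M → k) (g : List Z → k) (l : List Z) :
    rc e π (a • c) g l = a * rc e π c g l := mul_assoc _ _ _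

theorem rc_cup {e p : ℕ} (π : Z → M) (c : List M → k) (g : List Z → k) {l : List Z}
    (hl : l.length = p + e + 1) : rc e π c g l = cup p (fun l => c (l.map π)) g l := by
  unfold rc cup
  rw [hl, show p + e + 1 - e = p + 1 by omega, Nat.add_sub_cancel]

theorem rc_short {e : ℕ} (π : Z → M) {c : List M → k} (hc : c [] = 0) (g : List Z → k)
    {l : List Z} (hl : l.length ≤ e) : rc e π c g l = 0 := by
  unfold rc
  rw [show l.length - e = 0 by omega, List.take_zero, List.map_nil, hc, zero_mul]

/-- The Leibniz rule. -/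
theorem dl_rc (e : ℕ) (π : Z → M) {c : List M → k} (hc : c [] = 0) (g : List Z → k)
    (l : List Z) : dl (rc e π c g) l = rc e π (dl c) g l +
      (-1 : k) ^ (l.length - e) * rc (e + 1) π c (dl g) l := by
  rcases Nat.lt_or_ge l.length (e + 2) with h | h
  · have h1 : dl (rc e π c g) l = 0 := by
      rw [dl_congr (g := fun _ => (0 : k)) (l := l) fun l' h1 _ => rc_short π hc g (by omega)]
      exact dl_zero_fun _
    have h2 : rc e π (dl c) g l = 0 := by
      unfold rc
      rcases Nat.eq_zero_or_pos (l.length - e) with h0 | h0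
      · rw [h0, List.take_zero, List.map_nil, dl_nil, zero_mul]
      · have h3 : l.length - e = 1 := by omega
        rw [h3]
        rcases l with _ | ⟨x, l⟩
        · simp at h3
        · rw [List.take_succ_cons, List.take_zero, List.map_cons, List.map_nil, dl_one, hc,
            zero_mul]
    rw [h1, h2, rc_short π hc (dl g) (by omega), mul_zero, add_zero]
  · obtain ⟨p, hp⟩ : ∃ p, l.length = p + e + 2 := ⟨l.length - e - 2, by omega⟩
    rw [dl_congr (g := cup p (fun l => c (l.map π)) g) (l := l) fun l' h1 _ =>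
      rc_cup π c g (by omega), dl_cup p _ _ _ (by omega)]
    have h1 : cup (p + 1) (dl fun l => c (l.map π)) g l = rc e π (dl c) g l := by
      rw [rc_cup (p := p + 1) π (dl c) g (by omega)]
      unfold cup
      rw [dl_map]
    have h2 : cup p (fun l => c (l.map π)) (dl g) l = rc (e + 1) π c (dl g) l :=
      (rc_cup π c (dl g) (by omega)).symm
    rw [h1, h2]
    congr 2
    rw [show l.length - e = p + 2 by omega, pow_add]
    simp

theorem rc_map (e : ℕ) {Z' : Type} (π : Z → M) (φ : Z' → Z) (c : List M → k) (g : List Z → k)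
    (l : List Z') : rc e (π ∘ φ) c (fun l => g (l.map φ)) l = rc e π c g (l.map φ) := by
  unfold rc
  rw [List.length_map, ← List.map_take, ← List.map_drop, List.map_map]

theorem rc_eq_id (e : ℕ) (π : Z → M) (c g : List M → k) (l : List Z) :
    rc e π c (fun l => g (l.map π)) l = rc e id c g (l.map π) :=
  rc_map e id π c g l

theorem rc_congr {e : ℕ} {π : Z → M} {c c' : List M → k} {g g' : List Z → k} {l : List Z}
    (h : c ((l.take (l.length - e)).map π) = c' ((l.take (l.length - e)).map π))
    (h' : g (l.drop (l.length - e - 1)) = g' (l.drop (l.length - e - 1))) :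
    rc e π c g l = rc e π c' g' l := by
  unfold rc
  rw [h, h']

theorem nrm_rc (e : ℕ) {c g : List M → k} (hc0 : c [] = 0) (hc : Nrm c) (hg : Nrm g) :
    Nrm (rc e id c g) := by
  intro l hl
  rcases Nat.lt_or_ge l.length (e + 1) with h | h
  · exact rc_short id hc0 g (by omega)
  · obtain ⟨p, hp⟩ : ∃ p, l.length = p + e + 1 := ⟨l.length - e - 1, by omega⟩
    rw [rc_cup id c g hp]
    have h1 : N929.cup p (fun l => c (l.map id)) g l = 0 :=
      N929.Nrm.cup p (fun l hl => by rw [List.map_id]; exact hc l hl) hg l hl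
    exact h1

/-- Triples. -/
abbrev T3 (k M E : Type) [Field k] : Type := (List E → k) × (List M → k) × (List M → k)

variable (e : ℕ) (π : E → M) (η : List E → k) (ξ : List M → k)

/-- The differential of the cone. -/
noncomputable def D : T3 k M E →ₗ[k] T3 k M E where
  toFun t := (fun l => dl t.1 l - t.2.1 (l.map π) - rc e π t.2.2 η l,
    fun ys => -(dl t.2.1 ys + (-1 : k) ^ (ys.length - e) * rc (e + 1) id t.2.2 ξ ys),
    fun ys => -dl t.2.2 ys)
  map_add' t t' := by
    refine Prod.ext ?_ (Prod.ext ?_ ?_)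
    · funext l
      show dl (fun l => t.1 l + t'.1 l) l - (t.2.1 (l.map π) + t'.2.1 (l.map π)) -
        rc e π (t.2.2 + t'.2.2) η l = (dl t.1 l - t.2.1 (l.map π) - rc e π t.2.2 η l) +
        (dl t'.1 l - t'.2.1 (l.map π) - rc e π t'.2.2 η l)
      rw [Sl.dl_add, rc_add]
      ring
    · funext l
      show -(dl (fun l => t.2.1 l + t'.2.1 l) l + _ * rc (e + 1) id (t.2.2 + t'.2.2) ξ l) =
        -(dl t.2.1 l + _ * rc (e + 1) id t.2.2 ξ l) + -(dl t'.2.1 l + _ * rc (e + 1) id t'.2.2 ξ l)
      rw [Sl.dl_add, rc_add]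
      ring
    · funext l
      show -dl (fun l => t.2.2 l + t'.2.2 l) l = -dl t.2.2 l + -dl t'.2.2 l
      rw [Sl.dl_add]
      ring
  map_smul' a t := by
    refine Prod.ext ?_ (Prod.ext ?_ ?_)
    · funext l
      show dl (fun l => a * t.1 l) l - a * t.2.1 (l.map π) - rc e π (a • t.2.2) η l =
        a * (dl t.1 l - t.2.1 (l.map π) - rc e π t.2.2 η l)
      rw [dl_mul_left, rc_smul]
      ring
    · funext l
      show -(dl (fun l => a * t.2.1 l) l + _ * rc (e + 1) id (a • t.2.2) ξ l) =
        a * -(dl t.2.1 l + _ * rc (e + 1) id t.2.2 ξ l)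
      rw [dl_mul_left, rc_smul]
      ring
    · funext l
      show -dl (fun l => a * t.2.2 l) l = a * -dl t.2.2 l
      rw [dl_mul_left]
      ring

theorem D_f (t : T3 k M E) (l : List E) : (D e π η ξ t).1 l =
    dl t.1 l - t.2.1 (l.map π) - rc e π t.2.2 η l := rfl

theorem D_a (t : T3 k M E) (ys : List M) : (D e π η ξ t).2.1 ys =
    -(dl t.2.1 ys + (-1 : k) ^ (ys.length - e) * rc (e + 1) id t.2.2 ξ ys) := rfl

theorem D_c (t : T3 k M E) (ys : List M) : (D e π η ξ t).2.2 ys = -dl t.2.2 ys := rfl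

/-- Vanishing on the empty list, normalised in the base. -/
structure Good (t : T3 k M E) : Prop where
  f0 : t.1 [] = 0
  a0 : t.2.1 [] = 0
  c0 : t.2.2 [] = 0
  na : Nrm t.2.1
  nc : Nrm t.2.2

theorem Good.zero : Good (0 : T3 k M E) :=
  ⟨rfl, rfl, rfl, fun _ _ => rfl, fun _ _ => rfl⟩

variable {e π η ξ}

theorem Good.add {t t' : T3 k M E} (h : Good t) (h' : Good t') : Good (t + t') :=
  ⟨by show t.1 [] + t'.1 [] = 0; rw [h.f0, h'.f0, add_zero],
    by show t.2.1 [] + t'.2.1 [] = 0; rw [h.a0, h'.a0, add_zero],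
    by show t.2.2 [] + t'.2.2 [] = 0; rw [h.c0, h'.c0, add_zero],
    h.na.add h'.na, h.nc.add h'.nc⟩

theorem Good.smul {t : T3 k M E} (a : k) (h : Good t) : Good (a • t) :=
  ⟨by show a * t.1 [] = 0; rw [h.f0, mul_zero],
    by show a * t.2.1 [] = 0; rw [h.a0, mul_zero],
    by show a * t.2.2 [] = 0; rw [h.c0, mul_zero],
    h.na.smul a, h.nc.smul a⟩

theorem Good.neg {t : T3 k M E} (h : Good t) : Good (-t) := by
  rw [← neg_one_smul k t]
  exact h.smul _

theorem Good.sub {t t' : T3 k M E} (h : Good t) (h' : Good t') : Good (t - t') := by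
  rw [sub_eq_add_neg]
  exact h.add h'.neg

theorem Good.D (hξ : Nrm ξ) {t : T3 k M E} (h : Good t) : Good (D e π η ξ t) where
  f0 := by
    rw [D_f, dl_nil, List.map_nil, h.a0, rc_short π h.c0 η (by simp)]
    ring
  a0 := by
    rw [D_a, dl_nil, rc_short id h.c0 ξ (by simp)]
    ring
  c0 := by
    rw [D_c, dl_nil, neg_zero]
  na := fun l hl => by
    rw [D_a, h.na.dl l hl, nrm_rc (e + 1) h.c0 h.nc hξ l hl]
    ring
  nc := fun l hl => by
    rw [D_c, h.nc.dl l hl, neg_zero]

/-! ### Čech cochains with values in the cone complex -/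

/-- The Čech differential. -/
noncomputable def del (F : List M → T3 k M E) (xs : List M) : T3 k M E :=
  (fun ws => dl (fun ys => (F ys).1 ws) xs, fun zs => dl (fun ys => (F ys).2.1 zs) xs,
    fun zs => dl (fun ys => (F ys).2.2 zs) xs)

/-- The Alexander-Whitney map. -/
noncomputable def C (π : E → M) (p : ℕ) (F : List M → T3 k M E) : T3 k M E :=
  (aw π p fun xs => (F xs).1, fun ys => (-1 : k) ^ p * aw id p (fun xs => (F xs).2.1) ys,
    fun ys => (-1 : k) ^ p * aw id p (fun xs => (F xs).2.2) ys)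

theorem C_f (p : ℕ) (F : List M → T3 k M E) (l : List E) :
    (C π p F).1 l = (F ((l.take (p + 1)).map π)).1 (l.drop p) := rfl

theorem C_a (p : ℕ) (F : List M → T3 k M E) (ys : List M) :
    (C π p F).2.1 ys = (-1 : k) ^ p * (F (ys.take (p + 1))).2.1 (ys.drop p) := by
  show (-1 : k) ^ p * (F ((ys.take (p + 1)).map id)).2.1 (ys.drop p) = _
  rw [List.map_id]

theorem C_c (p : ℕ) (F : List M → T3 k M E) (ys : List M) :
    (C π p F).2.2 ys = (-1 : k) ^ p * (F (ys.take (p + 1))).2.2 (ys.drop p) := by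
  show (-1 : k) ^ p * (F ((ys.take (p + 1)).map id)).2.2 (ys.drop p) = _
  rw [List.map_id]

/-- `dl` of `aw`, all lengths. -/
theorem dl_aw' {p : ℕ} {F : Bi k M Z} {ρ : Z → M} (h0 : ∀ xs, F xs [] = 0) (l : List Z) :
    dl (aw ρ p F) l = aw ρ (p + 1) (dM F) l + (-1 : k) ^ p * aw ρ p (dE F) l := by
  rcases Nat.lt_or_ge l.length (p + 2) with h | h
  · have h1 : dl (aw ρ p F) l = 0 := by
      rw [dl_congr (g := fun _ => (0 : k)) (l := l) fun l' h1 _ => by
        rw [aw_apply, List.drop_eq_nil_of_le (by omega), h0]]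
      exact dl_zero_fun _
    have h2 : aw ρ (p + 1) (dM F) l = 0 := by
      rw [aw_apply, List.drop_eq_nil_of_le (by omega), dM_apply]
      rw [show (fun ys => F ys []) = fun _ => (0 : k) from funext h0]
      exact dl_zero_fun _
    have h3 : aw ρ p (dE F) l = 0 := by
      rcases Nat.lt_or_ge l.length (p + 1) with h' | h'
      · rw [aw_apply, List.drop_eq_nil_of_le (by omega), dE_apply, dl_nil]
      · obtain ⟨w, hw⟩ : ∃ w, l.drop p = [w] := List.length_eq_one_iff.1
          (by rw [List.length_drop]; omega)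
        rw [aw_apply, hw, dE_apply, dl_one, h0]
    rw [h1, h2, h3, mul_zero, add_zero]
  · exact dl_aw ρ p F l h

/-- `aw` and the cup product on the right. -/
theorem rc_aw {p : ℕ} {ρ : Z → M} {c : Bi k M M} (h0 : ∀ xs, c xs [] = 0) (g : List Z → k)
    (l : List Z) : rc e ρ (aw id p c) g l = aw ρ p (fun xs ws => rc e ρ (c xs) g ws) l := by
  rcases Nat.lt_or_ge l.length (e + p + 1) with h | h
  · have h1 : rc e ρ (aw id p c) g l = 0 := by
      unfold rc
      rw [aw_apply, List.drop_eq_nil_of_le (by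
        rw [List.length_map, List.length_take]; omega), h0, zero_mul]
    rw [h1, aw_apply, rc_short ρ (h0 _) g (by rw [List.length_drop]; omega)]
  · unfold rc
    rw [aw_apply, aw_apply, List.length_drop, List.map_id, ← List.map_take, List.take_take,
      min_eq_left (by omega), ← List.map_drop, List.drop_drop]
    congr 2
    · rw [List.drop_take]
      congr 2
      omega
    · congr 1
      omega

/-- **The total differential.** -/
theorem D_C (p : ℕ) {F : List M → T3 k M E} (hF : ∀ xs, Good (F xs)) : D e π η ξ (C π p F) =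
    C π (p + 1) (del F) + (-1 : k) ^ p • C π p fun xs => D e π η ξ (F xs) := by
  refine Prod.ext (funext fun l => ?_) (Prod.ext (funext fun l => ?_) (funext fun l => ?_))
  · rw [D_f]
    have h1 : dl (C π p F).1 l = aw π (p + 1) (dM fun xs => (F xs).1) l +
        (-1 : k) ^ p * aw π p (dE fun xs => (F xs).1) l := dl_aw' (fun xs => (hF xs).f0) l
    have h2 : rc e π (C π p F).2.2 η l =
        (-1 : k) ^ p * aw π p (fun xs ws => rc e π (F xs).2.2 η ws) l := by
      rw [← rc_aw (fun xs => (hF xs).c0) η l, ← rc_smul]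
      rfl
    have h3 : (C π p F).2.1 (l.map π) =
        (-1 : k) ^ p * aw π p (fun xs ws => (F xs).2.1 (ws.map π)) l := by
      rw [C_a, aw_apply, List.map_take, List.map_drop]
    have h4 : (C π (p + 1) (del F)).1 l = aw π (p + 1) (dM fun xs => (F xs).1) l := rfl
    have h5 : (C π p fun xs => D e π η ξ (F xs)).1 l = aw π p (dE fun xs => (F xs).1) l -
        aw π p (fun xs ws => (F xs).2.1 (ws.map π)) l -
        aw π p (fun xs ws => rc e π (F xs).2.2 η ws) l := rfl
    show _ = (C π (p + 1) (del F)).1 l + (-1 : k) ^ p * (C π p fun xs => D e π η ξ (F xs)).1 l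
    rw [h1, h2, h3, h4, h5]
    ring
  · rw [D_a]
    have h1 : dl (C π p F).2.1 l = (-1 : k) ^ p * (aw id (p + 1) (dM fun xs => (F xs).2.1) l +
        (-1 : k) ^ p * aw id p (dE fun xs => (F xs).2.1) l) := by
      rw [← dl_aw' (fun xs => (hF xs).a0) l, ← dl_mul_left]
      rfl
    have h2 : rc (e + 1) id (C π p F).2.2 ξ l =
        (-1 : k) ^ p * aw id p (fun xs ws => rc (e + 1) id (F xs).2.2 ξ ws) l := by
      rw [← rc_aw (fun xs => (hF xs).c0) ξ l, ← rc_smul]
      rfl
    have h4 : (C π (p + 1) (del F)).2.1 l =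
        (-1 : k) ^ (p + 1) * aw id (p + 1) (dM fun xs => (F xs).2.1) l := rfl
    have h5 : (C π p fun xs => D e π η ξ (F xs)).2.1 l = (-1 : k) ^ p *
        -(aw id p (dE fun xs => (F xs).2.1) l + (-1 : k) ^ ((l.drop p).length - e) *
          aw id p (fun xs ws => rc (e + 1) id (F xs).2.2 ξ ws) l) := rfl
    have h6 : (-1 : k) ^ p * (-1 : k) ^ p = 1 := by rw [← mul_pow]; simp
    have h7 : (-1 : k) ^ (l.length - e) * ((-1 : k) ^ p *
        aw id p (fun xs ws => rc (e + 1) id (F xs).2.2 ξ ws) l) =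
        (-1 : k) ^ ((l.drop p).length - e) *
          aw id p (fun xs ws => rc (e + 1) id (F xs).2.2 ξ ws) l := by
      rcases Nat.lt_or_ge l.length (p + e + 1) with h | h
      · have : aw id p (fun xs ws => rc (e + 1) id (F xs).2.2 ξ ws) l = 0 := by
          rw [aw_apply, rc_short id (hF _).c0 ξ (by rw [List.length_drop]; omega)]
        rw [this]
        ring
      · rw [List.length_drop, show l.length - e = (l.length - p - e) + p by omega, pow_add]
        linear_combination ((-1 : k) ^ (l.length - p - e) *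
          aw id p (fun xs ws => rc (e + 1) id (F xs).2.2 ξ ws) l) * h6
    show _ = (C π (p + 1) (del F)).2.1 l + (-1 : k) ^ p * (C π p fun xs => D e π η ξ (F xs)).2.1 l
    rw [h1, h2, h4, h5, h7, pow_succ]
    linear_combination ((-1 : k) ^ ((l.drop p).length - e) *
          aw id p (fun xs ws => rc (e + 1) id (F xs).2.2 ξ ws) l) * h6
  · rw [D_c]
    have h1 : dl (C π p F).2.2 l = (-1 : k) ^ p * (aw id (p + 1) (dM fun xs => (F xs).2.2) l +
        (-1 : k) ^ p * aw id p (dE fun xs => (F xs).2.2) l) := by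
      rw [← dl_aw' (fun xs => (hF xs).c0) l, ← dl_mul_left]
      rfl
    have h4 : (C π (p + 1) (del F)).2.2 l =
        (-1 : k) ^ (p + 1) * aw id (p + 1) (dM fun xs => (F xs).2.2) l := rfl
    have h5 : (C π p fun xs => D e π η ξ (F xs)).2.2 l = (-1 : k) ^ p *
        -(aw id p (dE fun xs => (F xs).2.2) l) := rfl
    show _ = (C π (p + 1) (del F)).2.2 l + (-1 : k) ^ p * (C π p fun xs => D e π η ξ (F xs)).2.2 l
    rw [h1, h4, h5, pow_succ]
    ring

/-! ### Relations between the operators -/

theorem rc_zero (e : ℕ) (π : Z → M) (g : List Z → k) (l : List Z) :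
    rc e π (fun _ => (0 : k)) g l = 0 := zero_mul _

theorem rc_neg (e : ℕ) (π : Z → M) (c : List M → k) (g : List Z → k) (l : List Z) :
    rc e π (fun l => -c l) g l = -rc e π c g l := neg_mul _ _

/-- `rc` commutes with the Čech differential. -/
theorem dl_rc_left (e : ℕ) (π : Z → M) (c : Bi k M M) (g : List Z → k) (xs : List M)
    (l : List Z) : dl (fun ys => rc e π (c ys) g l) xs = rc e π (dM c xs) g l := by
  have e1 : (fun ys => rc e π (c ys) g l) =
      fun ys => g (l.drop (l.length - e - 1)) * c ys ((l.take (l.length - e)).map π) := by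
    funext ys
    exact mul_comm _ _
  rw [e1, dl_mul_left, mul_comm]
  rfl

theorem dl_dl_comm {α β : Type} (f : List α → List β → k) (xs : List α) (l : List β) :
    dl (fun ys => dl (f ys) l) xs = dl (fun l' => dl (fun ys => f ys l') xs) l :=
  dM_dE_apply xs f l

/-- The two differentials commute. -/
theorem D_del (F : List M → T3 k M E) (xs : List M) :
    D e π η ξ (del F xs) = del (fun ys => D e π η ξ (F ys)) xs := by
  refine Prod.ext (funext fun l => ?_) (Prod.ext (funext fun l => ?_) (funext fun l => ?_))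
  · have h1 : (del (fun ys => D e π η ξ (F ys)) xs).1 l = dl (fun ys => (dl (F ys).1 l +
        (-1) * (F ys).2.1 (l.map π)) + (-1) * rc e π (F ys).2.2 η l) xs := by
      show dl (fun ys => (D e π η ξ (F ys)).1 l) xs = _
      congr 1
      funext ys
      rw [D_f]
      ring
    rw [h1, D_f, Sl.dl_add, Sl.dl_add, dl_mul_left, dl_mul_left, dl_dl_comm,
      dl_rc_left e π (fun ys => (F ys).2.2)]
    show dl (del F xs).1 l - (del F xs).2.1 (l.map π) - rc e π (del F xs).2.2 η l =
      dl (del F xs).1 l + (-1) * (del F xs).2.1 (l.map π) + (-1) * rc e π (del F xs).2.2 η l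
    ring
  · have h1 : (del (fun ys => D e π η ξ (F ys)) xs).2.1 l = dl (fun ys => (-1) * dl (F ys).2.1 l +
        (-(-1) ^ (l.length - e)) * rc (e + 1) id (F ys).2.2 ξ l) xs := by
      show dl (fun ys => (D e π η ξ (F ys)).2.1 l) xs = _
      congr 1
      funext ys
      rw [D_a]
      ring
    rw [h1, D_a, Sl.dl_add, dl_mul_left, dl_mul_left, dl_dl_comm,
      dl_rc_left (e + 1) id (fun ys => (F ys).2.2)]
    show -(dl (del F xs).2.1 l + _ * rc (e + 1) id (del F xs).2.2 ξ l) =
      (-1) * dl (del F xs).2.1 l + -_ * rc (e + 1) id (del F xs).2.2 ξ l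
    ring
  · have h1 : (del (fun ys => D e π η ξ (F ys)) xs).2.2 l = dl (fun ys => (-1) * dl (F ys).2.2 l) xs := by
      show dl (fun ys => (D e π η ξ (F ys)).2.2 l) xs = _
      congr 1
      funext ys
      rw [D_c]
      ring
    rw [h1, D_c, dl_mul_left, dl_dl_comm]
    show -dl (del F xs).2.2 l = (-1) * dl (del F xs).2.2 l
    ring

theorem del_del (F : List M → T3 k M E) (xs : List M) : del (del F) xs = 0 := by
  refine Prod.ext (funext fun l => ?_) (Prod.ext (funext fun l => ?_) (funext fun l => ?_))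
  · exact dl_dl (fun ys => (F ys).1 l) xs
  · exact dl_dl (fun ys => (F ys).2.1 l) xs
  · exact dl_dl (fun ys => (F ys).2.2 l) xs

/-- `D ∘ D`. -/
theorem D_D {t : T3 k M E} (h0 : t.2.2 [] = 0) :
    (∀ l, (∀ l' : List E, l'.Sublist l → l'.length = e + 2 → dl η l' = ξ (l'.map π)) →
      (D e π η ξ (D e π η ξ t)).1 l = 0) ∧
    (∀ l, (∀ l' : List M, l'.Sublist l → l'.length = e + 3 → dl ξ l' = 0) →
      (D e π η ξ (D e π η ξ t)).2.1 l = 0) ∧
    ∀ l, (D e π η ξ (D e π η ξ t)).2.2 l = 0 := by
  refine ⟨fun l hl => ?_, fun l hl => ?_, fun l => ?_⟩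
  · have h1 : dl (D e π η ξ t).1 l = -dl t.2.1 (l.map π) - (rc e π (dl t.2.2) η l +
        (-1 : k) ^ (l.length - e) * rc (e + 1) π t.2.2 (dl η) l) := by
      have e1 : (D e π η ξ t).1 = fun l => (dl t.1 l + (-1) * t.2.1 (l.map π)) +
          (-1) * rc e π t.2.2 η l := by
        funext l
        rw [D_f]
        ring
      rw [e1, Sl.dl_add, Sl.dl_add, dl_mul_left, dl_mul_left, dl_dl, dl_rc e π h0 η l, dl_map]
      ring
    have h2 : rc (e + 1) π t.2.2 (dl η) l = rc (e + 1) id t.2.2 ξ (l.map π) := by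
      rcases Nat.lt_or_ge l.length (e + 2) with h | h
      · rw [rc_short π h0 _ (by omega), rc_short id h0 _ (by rw [List.length_map]; omega)]
      · rw [← rc_eq_id]
        refine rc_congr rfl ?_
        exact hl _ (List.drop_sublist _ _) (by rw [List.length_drop]; omega)
    rw [D_f, h1, D_a, show (D e π η ξ t).2.2 = fun ys => -dl t.2.2 ys from rfl, rc_neg, h2,
      List.length_map]
    ring
  · have h1 : dl (D e π η ξ t).2.1 l = -(-1 : k) ^ (l.length - 1 - e) *
        (rc (e + 1) id (dl t.2.2) ξ l +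
          (-1 : k) ^ (l.length - (e + 1)) * rc (e + 1 + 1) id t.2.2 (dl ξ) l) := by
      have e1 : dl (D e π η ξ t).2.1 l = dl (fun ys => (-1) * dl t.2.1 ys +
          -(-1 : k) ^ (l.length - 1 - e) * rc (e + 1) id t.2.2 ξ ys) l := by
        refine dl_congr fun ys h _ => ?_
        rw [D_a, show ys.length = l.length - 1 by omega]
        ring
      rw [e1, Sl.dl_add, dl_mul_left, dl_mul_left, dl_dl, dl_rc (e + 1) id h0 ξ l]
      ring
    have h2 : rc (e + 1 + 1) id t.2.2 (dl ξ) l = 0 := by
      rcases Nat.lt_or_ge l.length (e + 3) with h | h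
      · exact rc_short id h0 _ (by omega)
      · unfold rc
        rw [hl _ (List.drop_sublist _ _) (by rw [List.length_drop]; omega), mul_zero]
    rw [D_a, h1, show (D e π η ξ t).2.2 = fun ys => -dl t.2.2 ys from rfl, rc_neg, h2]
    rcases Nat.lt_or_ge l.length (e + 2) with h | h
    · have h3 : rc (e + 1) id (dl t.2.2) ξ l = 0 := rc_short id (dl_nil _) _ (by omega)
      rw [h3]
      ring
    · rw [show l.length - e = (l.length - 1 - e) + 1 by omega, pow_succ]
      ring
  · rw [D_c]
    have : (D e π η ξ t).2.2 = fun ys => (-1) * dl t.2.2 ys := by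
      funext ys
      rw [D_c]
      ring
    rw [this, dl_mul_left, dl_dl, mul_zero, neg_zero]

end K3

end Vale.Agent.P216.H977C
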