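import Vale.Agent.P216.H977C.Mk1

/-!
# P216-D, block MID: the cone complex near one point of the base

`V X r xs m t`: the triple `t` vanishes in degree `m` on the double lists near `xs`.
`kloc`: a triple which is closed near `xs` is exact near `xs`.
-/

set_option linter.all false

open Set

namespace Vale.Agent.P216.H977C

open Vale.Agent.P216.Sl Vale.Agent.P216.PS Vale.Agent.P216.E2L

namespace K3

variable {k : Type} [Field k] {M E : Type} [PseudoMetricSpace M] [PseudoMetricSpace E]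

/-- The data: `η` of degree `e` on `E` with `dη = ξ ∘ π`, `ξ` a cocycle of degree `e + 1`. -/
structure Data (π : E → M) (e : ℕ) (η : List E → k) (ξ : List M → k) (X : Set E) (ε : ℝ) : Prop where
  hε : 0 < ε
  he : 1 ≤ e
  hπ : ∀ w w', dist (π w) (π w') ≤ dist w w'
  nξ : Nrm ξ
  dη : ∀ l, l.length = e + 2 → SmL X ε l → dl η l = ξ (l.map π)
  dξ : ∀ l, l.length = e + 3 → SmL (univ : Set M) ε l → dl ξ l = 0

theorem Data.mono {π : E → M} {e : ℕ} {η : List E → k} {ξ : List M → k} {X X' : Set E} {ε ε' : ℝ}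
    (h : Data π e η ξ X ε) (hX : X' ⊆ X) (hε' : 0 < ε') (hε : ε' ≤ ε) : Data π e η ξ X' ε' :=
  ⟨hε', h.he, h.hπ, h.nξ, fun l h1 h2 => h.dη l h1 (h2.mono hX hε),
    fun l h1 h2 => h.dξ l h1 (h2.mono subset_rfl hε)⟩

/-- vanishing in degree `m` on the double lists near `xs` -/
structure V (π : E → M) (e : ℕ) (X : Set E) (r : ℝ) (xs : List M) (m : ℕ) (t : T3 k M E) :
    Prop where
  f : ∀ ws, ws.length = m → Dom π univ X r xs ws → t.1 ws = 0
  a : ∀ ys, ys.length = m + 1 → Dom id univ univ r xs ys → t.2.1 ys = 0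
  c : ∀ ys, ys.length = m + 1 - e → Dom id univ univ r xs ys → t.2.2 ys = 0

variable {π : E → M} {e : ℕ} {η : List E → k} {ξ : List M → k} {X X' : Set E} {ε r r' : ℝ}
  {xs : List M} {m : ℕ}

theorem V.mono {t : T3 k M E} (h : V π e X r xs m t) (hX : X' ⊆ X) (hr : r' ≤ r) :
    V π e X' r' xs m t :=
  ⟨fun ws h1 h2 => h.f ws h1 (h2.mono hX hr), fun ys h1 h2 => h.a ys h1 (h2.mono subset_rfl hr),
    fun ys h1 h2 => h.c ys h1 (h2.mono subset_rfl hr)⟩

theorem V.zero : V π e X r xs m (0 : T3 k M E) :=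
  ⟨fun _ _ _ => rfl, fun _ _ _ => rfl, fun _ _ _ => rfl⟩

theorem V.add {t t' : T3 k M E} (h : V π e X r xs m t) (h' : V π e X r xs m t') :
    V π e X r xs m (t + t') :=
  ⟨fun ws h1 h2 => by show t.1 ws + t'.1 ws = 0; rw [h.f ws h1 h2, h'.f ws h1 h2, add_zero],
    fun ys h1 h2 => by show t.2.1 ys + t'.2.1 ys = 0; rw [h.a ys h1 h2, h'.a ys h1 h2, add_zero],
    fun ys h1 h2 => by show t.2.2 ys + t'.2.2 ys = 0; rw [h.c ys h1 h2, h'.c ys h1 h2, add_zero]⟩

theorem V.smul {t : T3 k M E} (a : k) (h : V π e X r xs m t) : V π e X r xs m (a • t) :=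
  ⟨fun ws h1 h2 => by show a * t.1 ws = 0; rw [h.f ws h1 h2, mul_zero],
    fun ys h1 h2 => by show a * t.2.1 ys = 0; rw [h.a ys h1 h2, mul_zero],
    fun ys h1 h2 => by show a * t.2.2 ys = 0; rw [h.c ys h1 h2, mul_zero]⟩

theorem V.neg {t : T3 k M E} (h : V π e X r xs m t) : V π e X r xs m (-t) := by
  rw [← neg_one_smul k t]
  exact h.smul _

theorem V.sub {t t' : T3 k M E} (h : V π e X r xs m t) (h' : V π e X r xs m t') :
    V π e X r xs m (t - t') := by
  rw [sub_eq_add_neg]
  exact h.add h'.neg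

theorem dom_map (hπ : ∀ w w', dist (π w) (π w') ≤ dist w w') {ws : List E}
    (h : Dom π univ X r xs ws) : Dom id univ univ r xs (ws.map π) := by
  refine ⟨h.1, ⟨fun _ _ => mem_univ _, fun y hy z hz => ?_⟩, fun x hx y hy => ?_⟩
  · obtain ⟨w, hw, rfl⟩ := List.mem_map.1 hy
    obtain ⟨w', hw', rfl⟩ := List.mem_map.1 hz
    exact (hπ w w').trans_lt (h.2.1.2 w hw w' hw')
  · obtain ⟨w, hw, rfl⟩ := List.mem_map.1 hy
    exact h.2.2 x hx w hw

/-- `D` is local. -/
theorem V.D (hπ : ∀ w w', dist (π w) (π w') ≤ dist w w') {t : T3 k M E}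
    (h : V π e X r xs m t) : V π e X r xs (m + 1) (D e π η ξ t) := by
  refine ⟨fun ws h1 h2 => ?_, fun ys h1 h2 => ?_, fun ys h1 h2 => ?_⟩
  · have e1 : dl t.1 ws = 0 := by
      rw [dl_congr (g := fun _ => (0 : k)) fun l' h3 h4 => h.f l' (by omega)
        (h2.sub (fun _ h => h) h4)]
      exact dl_zero_fun _
    have e2 : t.2.1 (ws.map π) = 0 := h.a _ (by rw [List.length_map, h1]) (dom_map hπ h2)
    have e3 : rc e π t.2.2 η ws = 0 := by
      unfold rc
      rw [h.c _ (by rw [List.length_map, List.length_take]; omega)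
        ((dom_map hπ h2).sub (fun _ h => h) fun y hy => ?_), zero_mul]
      rw [List.map_take] at hy
      exact List.mem_of_mem_take hy
    rw [D_f, e1, e2, e3]
    ring
  · have e1 : dl t.2.1 ys = 0 := by
      rw [dl_congr (g := fun _ => (0 : k)) fun l' h3 h4 => h.a l' (by omega)
        (h2.sub (fun _ h => h) h4)]
      exact dl_zero_fun _
    have e3 : rc (e + 1) id t.2.2 ξ ys = 0 := by
      unfold rc
      rw [List.map_id, h.c _ (by rw [List.length_take]; omega)
        (h2.sub (fun _ h => h) fun y hy => List.mem_of_mem_take hy), zero_mul]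
    rw [D_a, e1, e3]
    ring
  · rw [D_c]
    rcases Nat.eq_zero_or_pos ys.length with h0 | h0
    · rw [List.length_eq_zero_iff.1 h0, dl_nil, neg_zero]
    · rw [dl_congr (g := fun _ => (0 : k)) fun l' h3 h4 => h.c l' (by omega)
        (h2.sub (fun _ h => h) h4), dl_zero_fun, neg_zero]

/-- `D ∘ D = 0` on small lists. -/
theorem V.DD (H : Data π e η ξ X ε) (hr : r ≤ ε) {t : T3 k M E} (h0 : t.2.2 [] = 0) (m : ℕ) :
    V π e X r xs m (K3.D e π η ξ (K3.D e π η ξ t)) := by
  obtain ⟨h1, h2, h3⟩ := D_D (π := π) (e := e) (η := η) (ξ := ξ) h0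
  refine ⟨fun ws _ hw => h1 ws fun l' hs hl => H.dη l' hl ?_,
    fun ys _ hy => h2 ys fun l' hs hl => H.dξ l' hl ?_, fun ys _ _ => h3 ys⟩
  · exact SmL.sub' (hw.2.1.mono subset_rfl hr) fun x hx => hs.subset hx
  · exact SmL.sub' (hy.2.1.mono subset_rfl hr) fun x hx => hs.subset hx

/-- The fibre step in degree `m - 1`: constants if `m = 1`, a line if `m = e + 1`. -/
def FibS (π : E → M) (e : ℕ) (η : List E → k) (ξ : List M → k) (X X' : Set E) (m : ℕ) : Prop :=
  ∀ r > 0, ∃ r' > 0, ∀ (x : M) (xs : List M), SmL univ r' (x :: xs) → ∀ f : List E → k,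
    (∀ ws, ws.length = m + 1 → Dom π univ X r (x :: xs) ws → dl f ws = 0) →
      ∃ (μ ν : k) (g : List E → k), (m ≠ 1 → μ = 0) ∧ (m ≠ e + 1 → ν = 0) ∧ g [] = 0 ∧
        ∀ ws, ws.length = m → Dom π univ X' r' (x :: xs) ws →
          f ws = μ + ν * (η ws - ξ (x :: ws.map π)) + dl g ws

/-- `η` is not exact on the fibres. -/
def FibNe (π : E → M) (e : ℕ) (η : List E → k) (X : Set E) : Prop :=
  ∀ r > 0, ∀ (x : M) (c : k) (f : List E → k),
    (∀ ws, ws.length = e + 1 → SmL X r ws → (∀ w ∈ ws, π w = x) → c * η ws = dl f ws) → c = 0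

theorem dom_cons {x : M} {ys : List M} (hr : 0 < r) (h : Dom id univ univ r (x :: xs) ys) :
    Dom id univ univ r (x :: xs) (x :: ys) := by
  refine ⟨h.1, ⟨fun _ _ => mem_univ _, fun y hy z hz => ?_⟩, fun y hy z hz => ?_⟩
  · rcases List.mem_cons.1 hy with h1 | h1 <;> rcases List.mem_cons.1 hz with h2 | h2
    · rw [h1, h2, dist_self]; exact hr
    · rw [h1]; exact h.2.2 _ List.mem_cons_self z h2
    · rw [h2, dist_comm]; exact h.2.2 _ List.mem_cons_self y h1
    · exact h.2.1.2 y h1 z h2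
  · rcases List.mem_cons.1 hz with h1 | h1
    · rw [h1]; exact h.1.2 y hy _ List.mem_cons_self
    · exact h.2.2 y hy z h1

/-- The cone operator with apex `x`. -/
def cn (x : M) (a : List M → k) (ys : List M) : k :=
  match ys with
  | [] => 0
  | y :: l => a (x :: y :: l)

theorem cn_nil (x : M) (a : List M → k) : cn x a [] = 0 := rfl

theorem cn_of_ne {x : M} {a : List M → k} {ys : List M} (h : ys ≠ []) :
    cn x a ys = a (x :: ys) := by
  rcases ys with _ | ⟨y, l⟩
  · exact absurd rfl h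
  · rfl

theorem nrm_cn {x : M} {a : List M → k} (ha : Nrm a) : Nrm (cn x a) := by
  intro ys hys
  rcases ys with _ | ⟨y, l⟩
  · rfl
  · refine ha _ fun hc => hys ?_
    rw [List.isChain_cons_cons] at hc
    exact hc.2

theorem dl_cn {x : M} {a : List M → k} {ys : List M} (h : 2 ≤ ys.length) :
    dl (cn x a) ys = a ys - dl a (x :: ys) := by
  rw [dl_cons, dl_congr (f := cn x a) (g := fun l => a (x :: l)) fun l' h1 _ =>
    cn_of_ne (by rintro rfl; simp at h1; omega)]
  ring

/-- A cochain which is constant on lists of length one. -/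
def ko (μ : k) (ys : List M) : k := if ys.length = 1 then μ else 0

theorem ko_nil (μ : k) : ko μ ([] : List M) = 0 := rfl

theorem ko_one (μ : k) (y : M) : ko μ [y] = μ := rfl

theorem ko_long (μ : k) {ys : List M} (h : ys.length ≠ 1) : ko μ ys = 0 := if_neg h

theorem nrm_ko (μ : k) : Nrm (ko μ : List M → k) := by
  intro ys hys
  refine ko_long μ fun h => hys ?_
  obtain ⟨y, rfl⟩ := List.length_eq_one_iff.1 h
  exact List.isChain_singleton y

theorem dl_ko_two (μ : k) {ys : List M} (h : ys.length = 2) : dl (ko μ) ys = 0 := by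
  obtain ⟨y, z, rfl⟩ := List.length_eq_two.1 h
  rw [dl_cons, ko_one, dl_one, ko_one, sub_self]

variable (H : Data π e η ξ X ε)

include H

/-- First step: the component `c` dies. -/
theorem kloc_c {r : ℝ} (hr : 0 < r) (hne : m = e → FibNe π e η X)
    {x : M} {xs : List M} (hx : SmL univ r (x :: xs)) {t : T3 k M E}
    (ht : Good t) (hD : V π e X r (x :: xs) (m + 1) (D e π η ξ t)) :
    ∃ h : List M → k, h [] = 0 ∧ Nrm h ∧ ∀ ys, ys.length = m + 1 - e →
      Dom id univ univ r (x :: xs) ys → t.2.2 ys + dl h ys = 0 := by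
  have hc : ∀ ys, ys.length = m + 2 - e → Dom id univ univ r (x :: xs) ys → dl t.2.2 ys = 0 := by
    intro ys h1 h2
    have := hD.c ys h1 h2
    rwa [D_c, neg_eq_zero] at this
  rcases Nat.lt_trichotomy m e with hm | hm | hm
  · refine ⟨fun _ => 0, rfl, fun _ _ => rfl, fun ys h1 _ => ?_⟩
    rw [List.length_eq_zero_iff.1 (by omega : ys.length = 0), ht.c0, dl_nil, add_zero]
  · refine ⟨fun _ => 0, rfl, fun _ _ => rfl, fun ys h1 h2 => ?_⟩
    obtain ⟨y, rfl⟩ := List.length_eq_one_iff.1 (by omega : ys.length = 1)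
    have e1 : t.2.2 [y] = t.2.2 [x] := by
      have h3 := hc [x, y] (by simp; omega) (dom_cons hr h2)
      rw [dl_cons, dl_one] at h3
      exact sub_eq_zero.1 h3
    rw [dl_zero_fun, add_zero, e1]
    refine hne hm r hr x _ t.1 fun ws h3 h4 h5 => ?_
    have hd : Dom π univ X r (x :: xs) ws := ⟨hx, h4, fun z hz w hw => by
      rw [h5 w hw]
      exact hx.2 z hz x List.mem_cons_self⟩
    have h6 := hD.f ws (by omega) hd
    have h7 : ws.map π = List.replicate (e + 1) x := by
      rw [List.eq_replicate_iff]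
      refine ⟨by rw [List.length_map, h3], fun y hy => ?_⟩
      obtain ⟨w, hw, rfl⟩ := List.mem_map.1 hy
      exact h5 w hw
    have h8 : t.2.1 (ws.map π) = 0 := by
      refine ht.na _ fun hcn => ?_
      rw [h7] at hcn
      obtain ⟨e', he'⟩ : ∃ e', e = e' + 1 := ⟨e - 1, by have := H.he; omega⟩
      rw [he', List.replicate_succ, List.replicate_succ, List.isChain_cons_cons] at hcn
      exact hcn.1 rfl
    have h9 : rc e π t.2.2 η ws = t.2.2 [x] * η ws := by
      rw [rc_cup (p := 0) π t.2.2 η (by omega)]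
      show t.2.2 ((ws.take 1).map π) * η (ws.drop 0) = _
      rw [List.map_take, h7, List.drop_zero, List.replicate_succ, List.take_succ_cons,
        List.take_zero]
    rw [D_f, h8, h9] at h6
    linear_combination -h6
  · refine ⟨fun ys => -cn x t.2.2 ys, by show -cn x t.2.2 [] = 0; rw [cn_nil, neg_zero],
      fun ys hys => by show -cn x t.2.2 ys = 0; rw [nrm_cn ht.nc ys hys, neg_zero],
      fun ys h1 h2 => ?_⟩
    have h3 : dl (fun ys => -cn x t.2.2 ys) ys = -dl (cn x t.2.2) ys := by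
      rw [show (fun ys => -cn x t.2.2 ys) = fun ys => (-1) * cn x t.2.2 ys by funext ys; ring,
        dl_mul_left]
      ring
    rw [h3, dl_cn (by omega), hc (x :: ys) (by rw [List.length_cons]; omega) (dom_cons hr h2)]
    ring

omit H in
theorem D_h (h : List M → k) : D e π η ξ ((0, 0, h) : T3 k M E) =
    (fun ws => -rc e π h η ws, fun ys => -((-1 : k) ^ (ys.length - e) * rc (e + 1) id h ξ ys),
      fun ys => -dl h ys) := by
  refine Prod.ext (funext fun l => ?_) (Prod.ext (funext fun l => ?_) (funext fun l => ?_))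
  · rw [D_f]
    show dl (fun _ => (0 : k)) l - 0 - rc e π h η l = _
    rw [dl_zero_fun]
    ring
  · rw [D_a]
    show -(dl (fun _ => (0 : k)) l + _) = _
    rw [dl_zero_fun]
    ring
  · rfl

omit H in
theorem D_b (b : List M → k) : D e π η ξ ((0, b, 0) : T3 k M E) =
    (fun ws => -b (ws.map π), fun ys => -dl b ys, 0) := by
  refine Prod.ext (funext fun l => ?_) (Prod.ext (funext fun l => ?_) (funext fun l => ?_))
  · rw [D_f]
    show dl (fun _ => (0 : k)) l - b (l.map π) - rc e π (fun _ => (0 : k)) η l = _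
    rw [dl_zero_fun, rc_zero]
    ring
  · rw [D_a]
    show -(dl b l + _ * rc (e + 1) id (fun _ => (0 : k)) ξ l) = _
    rw [rc_zero]
    ring
  · rw [D_c]
    show -dl (fun _ => (0 : k)) l = 0
    rw [dl_zero_fun, neg_zero]

/-- Second step: `c` vanishes, the component `a` dies. -/
theorem kloc_a {r : ℝ} (hr : 0 < r) (hm : 1 ≤ m) {x : M} {xs : List M}
    (hx : SmL univ r (x :: xs)) {t : T3 k M E} (ht : Good t)
    (hD : V π e X r (x :: xs) (m + 1) (D e π η ξ t))
    (hc : ∀ ys, ys.length = m + 1 - e → Dom id univ univ r (x :: xs) ys → t.2.2 ys = 0) :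
    ∃ b : List M → k, b [] = 0 ∧ Nrm b ∧ ∀ ys, ys.length = m + 1 →
      Dom id univ univ r (x :: xs) ys → t.2.1 ys + dl b ys = 0 := by
  refine ⟨fun ys => -cn x t.2.1 ys, by show -cn x t.2.1 [] = 0; rw [cn_nil, neg_zero],
    fun ys hys => by show -cn x t.2.1 ys = 0; rw [nrm_cn ht.na ys hys, neg_zero],
    fun ys h1 h2 => ?_⟩
  have h3 : dl (fun ys => -cn x t.2.1 ys) ys = -dl (cn x t.2.1) ys := by
    rw [show (fun ys => -cn x t.2.1 ys) = fun ys => (-1) * cn x t.2.1 ys by funext ys; ring,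
      dl_mul_left]
    ring
  have h4 : dl t.2.1 (x :: ys) = 0 := by
    have h5 := hD.a (x :: ys) (by rw [List.length_cons, h1]) (dom_cons hr h2)
    have h6 : rc (e + 1) id t.2.2 ξ (x :: ys) = 0 := by
      unfold rc
      rw [List.map_id, hc _ (by rw [List.length_take, List.length_cons]; omega)
        ((dom_cons hr h2).sub (fun _ h => h) fun y hy => List.mem_of_mem_take hy), zero_mul]
    rw [D_a, h6, mul_zero, add_zero, neg_eq_zero] at h5
    exact h5
  rw [h3, dl_cn (by omega), h4]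
  ring

/-- **The local step.** -/
theorem kloc (hX : X' ⊆ X) (hm : 1 ≤ m) (hne : m = e → FibNe π e η X)
    (hF : FibS π e η ξ X X' m) : ∀ r > 0, ∃ r' > 0, ∀ (x : M) (xs : List M),
      SmL univ r' (x :: xs) → ∀ t : T3 k M E, Good t →
        V π e X r (x :: xs) (m + 1) (D e π η ξ t) →
          ∃ u : T3 k M E, Good u ∧ V π e X' r' (x :: xs) m (t - D e π η ξ u) := by
  intro r hr
  set r₀ := min r ε with hr₀
  have hr0 : 0 < r₀ := lt_min hr H.hε
  obtain ⟨r', hr', hS⟩ := hF r₀ hr0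
  refine ⟨min r' r₀, lt_min hr' hr0, fun x xs hx t ht hD => ?_⟩
  have hx0 : SmL univ r₀ (x :: xs) := hx.mono subset_rfl (min_le_right _ _)
  have hD0 := hD.mono subset_rfl (min_le_left r ε : r₀ ≤ r)
  -- `c`
  obtain ⟨h, h0, hN, hh⟩ := kloc_c H hr0 hne hx0 ht hD0
  have gh : Good ((0, 0, h) : T3 k M E) := ⟨rfl, rfl, h0, fun _ _ => rfl, hN⟩
  set t₁ : T3 k M E := t - D e π η ξ (0, 0, h) with ht₁
  have g₁ : Good t₁ := ht.sub (gh.D H.nξ)
  have hD₁ : V π e X r₀ (x :: xs) (m + 1) (D e π η ξ t₁) := by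
    rw [ht₁, map_sub]
    exact hD0.sub (V.DD H (min_le_right _ _) h0 _)
  have hc₁ : ∀ ys, ys.length = m + 1 - e → Dom id univ univ r₀ (x :: xs) ys →
      t₁.2.2 ys = 0 := by
    intro ys h1 h2
    show t.2.2 ys - (D e π η ξ ((0, 0, h) : T3 k M E)).2.2 ys = 0
    rw [D_c]
    have := hh ys h1 h2
    linear_combination this
  -- `a`
  obtain ⟨b, b0, bN, hb⟩ := kloc_a H hr0 hm hx0 g₁ hD₁ hc₁
  have gb : Good ((0, b, 0) : T3 k M E) := ⟨rfl, b0, rfl, bN, fun _ _ => rfl⟩
  set t₂ : T3 k M E := t₁ - D e π η ξ (0, b, 0) with ht₂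
  have g₂ : Good t₂ := g₁.sub (gb.D H.nξ)
  have hD₂ : V π e X r₀ (x :: xs) (m + 1) (D e π η ξ t₂) := by
    rw [ht₂, map_sub]
    exact hD₁.sub (V.DD H (min_le_right _ _) rfl _)
  have hc₂ : ∀ ys, ys.length = m + 1 - e → Dom id univ univ r₀ (x :: xs) ys →
      t₂.2.2 ys = 0 := by
    intro ys h1 h2
    show t₁.2.2 ys - (D e π η ξ ((0, b, 0) : T3 k M E)).2.2 ys = 0
    rw [D_b, hc₁ ys h1 h2]
    exact sub_zero _
  have ha₂ : ∀ ys, ys.length = m + 1 → Dom id univ univ r₀ (x :: xs) ys →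
      t₂.2.1 ys = 0 := by
    intro ys h1 h2
    show t₁.2.1 ys - (D e π η ξ ((0, b, 0) : T3 k M E)).2.1 ys = 0
    rw [D_b]
    have := hb ys h1 h2
    show t₁.2.1 ys - -dl b ys = 0
    linear_combination this
  -- `f`
  have hf₂ : ∀ ws, ws.length = m + 1 → Dom π univ X r₀ (x :: xs) ws → dl t₂.1 ws = 0 := by
    intro ws h1 h2
    have h3 := hD₂.f ws h1 h2
    have h4 : t₂.2.1 (ws.map π) = 0 := ha₂ _ (by rw [List.length_map, h1]) (dom_map H.hπ h2)
    have h5 : rc e π t₂.2.2 η ws = 0 := by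
      unfold rc
      rw [hc₂ _ (by rw [List.length_map, List.length_take]; omega)
        ((dom_map H.hπ h2).sub (fun _ h => h) fun y hy => by
          rw [List.map_take] at hy
          exact List.mem_of_mem_take hy), zero_mul]
    rw [D_f, h4, h5] at h3
    linear_combination h3
  obtain ⟨μ, ν, g, hμ, hν, g0, hg⟩ := hS x xs (hx.mono subset_rfl (min_le_left _ _)) t₂.1 hf₂
  have gu : Good ((g, fun ys => ko (-μ) ys + ν * cn x ξ ys, ko (-ν)) : T3 k M E) :=
    ⟨g0, by show ko (-μ) ([] : List M) + ν * cn x ξ [] = 0; rw [cn_nil, show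
      ko (-μ) ([] : List M) = 0 from rfl]; ring, rfl,
      (nrm_ko _).add ((nrm_cn H.nξ).smul ν), nrm_ko _⟩
  have he := H.he
  refine ⟨(0, 0, h) + ((0, b, 0) + (g, fun ys => ko (-μ) ys + ν * cn x ξ ys, ko (-ν))),
    gh.add (gb.add gu), ?_⟩
  have e0 : t - D e π η ξ ((0, 0, h) + ((0, b, 0) +
      (g, fun ys => ko (-μ) ys + ν * cn x ξ ys, ko (-ν)))) =
      t₂ - D e π η ξ (g, fun ys => ko (-μ) ys + ν * cn x ξ ys, ko (-ν)) := by
    rw [map_add, map_add, ht₂, ht₁]
    abel
  rw [e0]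
  refine ⟨fun ws h1 h2 => ?_, fun ys h1 h2 => ?_, fun ys h1 h2 => ?_⟩
  · have h3 := hg ws h1 (h2.mono subset_rfl (min_le_left _ _))
    show t₂.1 ws - (D e π η ξ _).1 ws = 0
    rw [D_f, h3]
    show μ + ν * (η ws - ξ (x :: ws.map π)) + dl g ws - (dl g ws -
      (ko (-μ) (ws.map π) + ν * cn x ξ (ws.map π)) - rc e π (ko (-ν)) η ws) = 0
    have h4 : ko (-μ) (ws.map π) = -μ := by
      by_cases hm1 : m = 1
      · unfold ko
        rw [if_pos (by rw [List.length_map]; omega)]
      · rw [hμ hm1]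
        unfold ko
        split_ifs <;> simp
    have h5 : ν * cn x ξ (ws.map π) = ν * ξ (x :: ws.map π) := by
      rw [cn_of_ne (by rintro h; rw [List.map_eq_nil_iff] at h; subst h; simp at h1; omega)]
    have h6 : rc e π (ko (-ν)) η ws = -ν * η ws := by
      by_cases hme : m = e + 1
      · rw [rc_cup (p := 0) π (ko (-ν)) η (by omega)]
        show ko (-ν) ((ws.take 1).map π) * η (ws.drop 0) = _
        unfold ko
        rw [if_pos (by rw [List.length_map, List.length_take]; omega), List.drop_zero]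
      · rw [hν hme]
        unfold rc ko
        split_ifs <;> simp
    rw [h4, h5, h6]
    ring
  · have h2' := h2.mono (subset_rfl) (min_le_right r' r₀)
    show t₂.2.1 ys - (D e π η ξ _).2.1 ys = 0
    rw [ha₂ ys h1 h2', D_a]
    show 0 - -(dl (fun ys => ko (-μ) ys + ν * cn x ξ ys) ys + (-1 : k) ^ (ys.length - e) *
      rc (e + 1) id (ko (-ν)) ξ ys) = 0
    rw [Sl.dl_add, dl_mul_left]
    have h4 : dl (ko (-μ)) ys = 0 := by
      by_cases hm1 : m = 1
      · exact dl_ko_two _ (by omega)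
      · rw [hμ hm1, show ko (-(0 : k)) = fun _ : List M => (0 : k) from ?_, dl_zero_fun]
        funext l
        unfold ko
        split_ifs <;> simp
    by_cases hme : m = e + 1
    · have h5 : dl (cn x ξ) ys = ξ ys := by
        rw [dl_cn (by omega), H.dξ (x :: ys) (by rw [List.length_cons]; omega)
          ((dom_cons (xs := xs) (lt_min hr' hr0) h2).2.1.mono subset_rfl
            ((min_le_right _ _).trans (min_le_right _ _))), sub_zero]
      have h6 : rc (e + 1) id (ko (-ν)) ξ ys = -ν * ξ ys := by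
        rw [rc_cup (p := 0) id (ko (-ν)) ξ (by omega)]
        show ko (-ν) ((ys.take 1).map id) * ξ (ys.drop 0) = _
        unfold ko
        rw [if_pos (by rw [List.length_map, List.length_take]; omega), List.drop_zero]
      rw [h4, h5, h6, show ys.length - e = 2 by omega]
      ring
    · have h6 : rc (e + 1) id (ko (-ν)) ξ ys = 0 := by
        rw [hν hme]
        unfold rc ko
        split_ifs <;> simp
      rw [h4, h6, hν hme]
      ring
  · have h2' := h2.mono (subset_rfl) (min_le_right r' r₀)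
    show t₂.2.2 ys - (D e π η ξ _).2.2 ys = 0
    rw [hc₂ ys h1 h2', D_c]
    show 0 - -dl (ko (-ν)) ys = 0
    by_cases hme : m = e + 1
    · rw [dl_ko_two _ (by omega)]
      ring
    · rw [hν hme, show ko (-(0 : k)) = fun _ : List M => (0 : k) from ?_, dl_zero_fun]
      · ring
      · funext l
        unfold ko
        split_ifs <;> simp

/-- **The local step in degree `0`.** -/
theorem kloc0 (hX : X' ⊆ X) (hne : ∀ x, ∃ w ∈ X, π w = x) {r : ℝ} (hr : 0 < r) {x : M}
    {xs : List M} (hx : SmL univ r (x :: xs)) {t : T3 k M E} (ht : Good t)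
    (hD : V π e X r (x :: xs) 1 (D e π η ξ t)) : V π e X' r (x :: xs) 0 t := by
  have he := H.he
  refine ⟨fun ws h1 _ => ?_, fun ys h1 h2 => ?_, fun ys h1 _ => ?_⟩
  · rw [List.length_eq_zero_iff.1 h1, ht.f0]
  · obtain ⟨y, rfl⟩ := List.length_eq_one_iff.1 h1
    obtain ⟨w, hw, rfl⟩ := hne y
    have h3 := hD.f [w] rfl ⟨hx, ⟨fun z hz => by rw [List.mem_singleton.1 hz]; exact hw,
      fun z hz z' hz' => by rw [List.mem_singleton.1 hz, List.mem_singleton.1 hz', dist_self]
                            exact hr⟩,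
      fun z hz z' hz' => by rw [List.mem_singleton.1 hz']; exact h2.2.2 z hz _ (by simp)⟩
    rw [D_f, dl_one, ht.f0, rc_short π ht.c0 η (by simpa using he)] at h3
    have : t.2.1 [π w] = 0 := by
      have h4 : t.2.1 ([w].map π) = 0 := by linear_combination -h3
      exact h4
    exact this
  · rw [List.length_eq_zero_iff.1 (by omega : ys.length = 0), ht.c0]

end K3

end Vale.Agent.P216.H977C
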