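import Vale.Agent.P216.H977C.Mk4
import Vale.Agent.P216.E2L.Ext

/-!
# P216-D, block MID: extension of a class of the fibres to the cone complex; R2
-/

set_option linter.all false

open Set

namespace Vale.Agent.P216.H977C

open Vale.Agent.P216.Sl Vale.Agent.P216.PS Vale.Agent.P216.E2L

namespace K3

variable {k : Type} [Field k] {M E : Type} [PseudoMetricSpace M] [PseudoMetricSpace E]
variable {π : E → M} {e : ℕ} {η : List E → k} {ξ : List M → k} {X X' : Set E} {ε r r' : ℝ}
  {xs : List M} {m p N : ℕ} {F F' : List M → T3 k M E}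

/-- `0` on the empty list -/
def nz (f : List E → k) (l : List E) : k := if l = [] then 0 else f l

theorem nz_of_ne {f : List E → k} {l : List E} (h : l ≠ []) : nz f l = f l := if_neg h

theorem dl_nz {f : List E → k} {l : List E} (h : 2 ≤ l.length) : dl (nz f) l = dl f l :=
  dl_congr fun l' h1 _ => nz_of_ne (by rintro rfl; simp at h1; omega)

theorem good_f {f : List E → k} (h : f [] = 0) : Good ((f, 0, 0) : T3 k M E) :=
  ⟨h, rfl, rfl, fun _ _ => rfl, fun _ _ => rfl⟩

theorem D_fst (f : List E → k) : D e π η ξ ((f, 0, 0) : T3 k M E) = (dl f, 0, 0) := by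
  refine Prod.ext (funext fun l => ?_) (Prod.ext (funext fun l => ?_) (funext fun l => ?_))
  · rw [D_f]
    show dl f l - 0 - rc e π (fun _ => (0 : k)) η l = _
    rw [rc_zero]
    ring
  · rw [D_a]
    show -(dl (fun _ => (0 : k)) l + _ * rc (e + 1) id (fun _ => (0 : k)) ξ l) = 0
    rw [dl_zero_fun, rc_zero]
    ring
  · rw [D_c]
    show -dl (fun _ => (0 : k)) l = 0
    rw [dl_zero_fun, neg_zero]

/-- the family as a Čech cochain -/
noncomputable def F0 (v : M → List E → k) (xs : List M) : T3 k M E :=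
  match xs with
  | [x] => (nz (v x), 0, 0)
  | _ => 0

open Classical in
/-- the primitives of the differences as a Čech cochain -/
noncomputable def Y1 (h : M → M → List E → k) (xs : List M) : T3 k M E :=
  match xs with
  | [x, y] => if x = y then 0 else (nz (h x y), 0, 0)
  | _ => 0

theorem F0_good (v : M → List E → k) (xs : List M) : Good (F0 v xs) := by
  rcases xs with _ | ⟨x, _ | ⟨y, l⟩⟩
  · exact Good.zero
  · exact good_f (if_pos rfl)
  · exact Good.zero

theorem Y1_good (h : M → M → List E → k) (xs : List M) : Good (Y1 h xs) := by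
  classical
  rcases xs with _ | ⟨x, _ | ⟨y, _ | ⟨z, l⟩⟩⟩
  · exact Good.zero
  · exact Good.zero
  · show Good (if x = y then 0 else (nz (h x y), 0, 0))
    split_ifs
    · exact Good.zero
    · exact good_f (if_pos rfl)
  · exact Good.zero

theorem Y1_nrm (h : M → M → List E → k) (xs : List M) (hx : ¬ xs.IsChain (· ≠ ·)) :
    Y1 h xs = 0 := by
  classical
  rcases xs with _ | ⟨x, _ | ⟨y, _ | ⟨z, l⟩⟩⟩
  · rfl
  · rfl
  · show (if x = y then 0 else (nz (h x y), 0, 0)) = (0 : T3 k M E)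
    refine if_pos ?_
    by_contra hxy
    exact hx (List.isChain_pair.2 hxy)
  · rfl

/-- **Extension of a family to a closed triple.** -/
theorem ext_fam {X : ℝ → Set E} (hmono : ∀ s t, s ≤ t → X s ⊆ X t) {T t₀ β : ℝ} (hβ : 0 ≤ β)
    (H : Data π e η ξ (X T) ε) (hne0 : ∀ x, ∃ w ∈ X t₀, π w = x) (hne : FibNe π e η (X t₀))
    {q : ℕ} (hq : 1 ≤ q)
    (hS : ∀ m, 1 ≤ m → m ≤ q → ∀ t, t₀ ≤ t → t + β ≤ T → FibS π e η ξ (X (t + β)) (X t) m)
    {t : ℝ} (ht : t₀ ≤ t) (htT : t + q * β ≤ T) {v : M → List E → k}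
    (hv : FamV π univ (X (t + q * β)) q v) :
    ∃ u : T3 k M E, Good u ∧ GZ e (X t) (q + 2) (D e π η ξ u) ∧
      ∀ (l : List E) (x : M), l.length = q + 1 → (∀ w ∈ l, π w = x) → u.1 l = v x l := by
  obtain ⟨⟨r₁, hr₁, h1⟩, h, r₂, hr₂, h2⟩ := hv
  have hqβ : 0 ≤ (q : ℝ) * β := by positivity
  have hXt := hmono t (t + q * β) (by linarith)
  -- `δ F0 - D Y1`
  have hd2 : KZ π e (X (t + q * β)) 2 (q + 1) fun xs => del (F0 v) xs - D e π η ξ (Y1 h xs) := by
    refine ⟨r₂, hr₂, fun xs hx => ?_⟩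
    obtain ⟨x, y, rfl⟩ := List.length_eq_two.1 hx
    show V π e _ r₂ [x, y] (q + 1) (del (F0 v) [x, y] - D e π η ξ (Y1 h [x, y]))
    rw [del_two]
    by_cases hxy : x = y
    · subst hxy
      have : Y1 h [x, x] = 0 := Y1_nrm h _ (fun hc => by
        rw [List.isChain_pair] at hc
        exact hc rfl)
      rw [this, map_zero, sub_self, sub_zero]
      exact V.zero
    · have : Y1 h [x, y] = (nz (h x y), 0, 0) := if_neg hxy
      rw [this, D_fst]
      refine ⟨fun ws h3 h4 => ?_, fun ys _ _ => ?_, fun ys _ _ => ?_⟩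
      · show nz (v y) ws - nz (v x) ws - dl (nz (h x y)) ws = 0
        rw [dl_nz (by omega), nz_of_ne (by rintro rfl; simp at h3),
          nz_of_ne (by rintro rfl; simp at h3), h2 x y ws h3 h4, sub_self]
      · show (0 : k) - 0 - 0 = 0
        ring
      · show (0 : k) - 0 - 0 = 0
        ring
  have hd1 : KZ π e (X (t + q * β)) (0 + 1) (q + 2) fun xs => D e π η ξ (F0 v xs) := by
    refine ⟨r₁, hr₁, fun xs hx => ?_⟩
    obtain ⟨x, rfl⟩ := List.length_eq_one_iff.1 hx
    show V π e _ r₁ [x] (q + 2) (D e π η ξ (nz (v x), 0, 0))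
    rw [D_fst]
    refine ⟨fun ws h3 h4 => ?_, fun _ _ _ => rfl, fun _ _ _ => rfl⟩
    show dl (nz (v x)) ws = 0
    rw [dl_nz (by omega)]
    exact h1 x ws h3 h4
  -- the bicocycle `δ Y1`
  have hB : KBC π e η ξ (X (t + q * β)) 2 q (del (Y1 h)) := by
    refine ⟨Good.del (Y1_good h), nrm_del (Y1_nrm h), ?_, ?_⟩
    · have h3 := (hd2.del).smul (-1)
      convert h3 using 2 with xs
      rw [D_del, del_sub, del_del, zero_sub, neg_one_smul, neg_neg]
    · refine ⟨1, one_pos, fun xs _ => ?_⟩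
      rw [del_del]
      exact V.zero
  obtain ⟨G, hG, hGv, hGZ⟩ := kkill hmono hβ H hne0 hne (m₀ := q) hS q 2 t le_rfl ht htT _ hB
  have hG' := hGv (by omega)
  refine ⟨C π 0 (F0 v) + C π 1 (Y1 h) - G,
    ((Good.C 0 (F0_good v) fun xs hx => ?_).add (Good.C 1 (Y1_good h) (Y1_nrm h))).sub hG,
    ?_, fun l x hl hx => ?_⟩
  · rcases xs with _ | ⟨x, _ | ⟨y, l⟩⟩
    · rfl
    · exact absurd (List.isChain_singleton x) hx
    · rfl
  · have e1 := D_C (e := e) (π := π) (η := η) (ξ := ξ) 0 (F0_good v)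
    have e2 := D_C (e := e) (π := π) (η := η) (ξ := ξ) 1 (Y1_good h)
    rw [pow_zero, one_smul] at e1
    rw [pow_one] at e2
    have g1 := (hd2.mono hXt).C H.hπ (fun xs => (Good.del (F0_good v) xs).sub
      ((Y1_good h xs).D H.nξ)) (p := 1)
    have g2 := (hd1.mono hXt).C H.hπ (fun xs => (F0_good v xs).D H.nξ) (p := 0)
    rw [C_sub] at g1
    have g3 := (g1.add g2).add hGZ
    convert g3 using 1
    rw [map_sub, map_add, e1, e2, neg_one_smul]
    simp only [zero_add, Nat.reduceAdd]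
    abel
  · have hl0 : l ≠ [] := by rintro rfl; simp at hl
    have hl2 : 2 ≤ l.length := by omega
    rcases l with _ | ⟨w, _ | ⟨w', l⟩⟩
    · simp at hl
    · simp at hl2
    have hw := hx w (by simp)
    have hw' := hx w' (by simp)
    have a1 : (C π 0 (F0 v)).1 (w :: w' :: l) = v x (w :: w' :: l) := by
      rw [C_f]
      show (F0 v [π w]).1 (w :: w' :: l) = _
      rw [hw]
      exact nz_of_ne (List.cons_ne_nil _ _)
    have a2 : (C π 1 (Y1 h)).1 (w :: w' :: l) = 0 := by
      rw [C_f]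
      show (Y1 h [π w, π w']).1 _ = 0
      rw [hw, hw', Y1_nrm h _ (fun hc => by
        rw [List.isChain_pair] at hc
        exact hc rfl)]
      rfl
    have a3 : G.1 (w :: w' :: l) = 0 := hG' _ hl2 fun y hy z hz => by rw [hx y hy, hx z hz]
    show (C π 0 (F0 v)).1 _ + (C π 1 (Y1 h)).1 _ - G.1 _ = _
    rw [a1, a2, a3]
    ring

/-- `D ∘ D = 0` on the small lists. -/
theorem GZ.DD (H : Data π e η ξ X ε) {t : T3 k M E} (h0 : t.2.2 [] = 0) (N : ℕ) :
    GZ e X N (D e π η ξ (D e π η ξ t)) := by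
  obtain ⟨h1, h2, h3⟩ := D_D (π := π) (e := e) (η := η) (ξ := ξ) h0
  refine ⟨ε, H.hε, fun ws _ hw => h1 ws fun l' hs hl => H.dη l' hl ?_,
    fun ys _ hy => h2 ys fun l' hs hl => H.dξ l' hl ?_, fun ys _ _ => h3 ys⟩
  · exact SmL.sub' hw fun x hx => hs.subset hx
  · exact SmL.sub' hy fun x hx => hs.subset hx

/-- **R2core**: if the base complex is exact in degree `q + 1` and the total space has no cohomology
in degree `q`, then every family of classes of degree `q` is zero. -/
theorem r2core {X : ℝ → Set E} (hmono : ∀ s t, s ≤ t → X s ⊆ X t) {T t₀ β : ℝ} (hβ : 0 ≤ β)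
    (H : Data π e η ξ (X T) ε) (hne0 : ∀ x, ∃ w ∈ X t₀, π w = x) (hne : FibNe π e η (X t₀))
    {q : ℕ} (hq : e < q)
    (hS : ∀ m, 1 ≤ m → m ≤ q → ∀ t, t₀ ≤ t → t + β ≤ T → FibS π e η ξ (X (t + β)) (X t) m)
    (hB : BaseEx ξ e q) {t : ℝ} (ht : t₀ ≤ t) (htT : t + q * β ≤ T)
    (hE : ∀ f : List E → k, CocL (X t) q f → ExL (X t) q f) {v : M → List E → k}
    (hv : FamV π univ (X (t + q * β)) q v) (x : M) : ExL (H892.fbr π (X t) x) q (v x) := by
  have he := H.he
  have hqβ : 0 ≤ (q : ℝ) * β := by positivity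
  obtain ⟨u, gu, ⟨r, hr, h1, h2, h3⟩, hu⟩ := ext_fam hmono hβ H hne0 hne (by omega) hS ht htT hv
  have H' := H.mono (hmono t T (by linarith)) H.hε le_rfl
  obtain ⟨a', c', a0, c0, na, nc, r', hr', h4, h5⟩ := hB u.2.1 u.2.2 gu.a0 gu.c0 gu.na gu.nc
    ⟨r, hr, fun ys b1 b2 => by
      have := h2 ys (by omega) b2
      rwa [D_a, neg_eq_zero] at this, fun ys b1 b2 => by
      have := h3 ys (by omega) b2
      rwa [D_c, neg_eq_zero] at this⟩
  obtain ⟨r₂, hr₂, d1, -, -⟩ := GZ.DD H' (t := ((0, a', c') : T3 k M E)) c0 (q + 2)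
  set f : List E → k := fun l => u.1 l - (D e π η ξ ((0, a', c') : T3 k M E)).1 l with hf
  have hfc : CocL (X t) q f := by
    refine ⟨min r (min r' r₂), lt_min hr (lt_min hr' hr₂), fun l hl hs => ?_⟩
    have e1 := h1 l hl (hs.mono subset_rfl (min_le_left _ _))
    have e2 := d1 l hl (hs.mono subset_rfl ((min_le_right _ _).trans (min_le_right _ _)))
    have hs' : SmL univ r' (l.map π) := ⟨fun _ _ => mem_univ _, fun y hy z hz => by
      obtain ⟨w, hw, rfl⟩ := List.mem_map.1 hy
      obtain ⟨w', hw', rfl⟩ := List.mem_map.1 hz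
      exact (H.hπ w w').trans_lt ((hs.2 w hw w' hw').trans_le
        ((min_le_right _ _).trans (min_le_left _ _)))⟩
    rw [D_f] at e1 e2
    have e3 : dl f l = dl u.1 l - dl (D e π η ξ ((0, a', c') : T3 k M E)).1 l := by
      rw [hf]
      exact E2L.dl_sub _ _ _
    have e4 : (D e π η ξ ((0, a', c') : T3 k M E)).2.1 (l.map π) = u.2.1 (l.map π) := by
      rw [D_a]
      exact (h4 _ (by rw [List.length_map, hl]) hs').symm
    have e5 : rc e π (D e π η ξ ((0, a', c') : T3 k M E)).2.2 η l = rc e π u.2.2 η l := by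
      refine rc_congr ?_ rfl
      rw [D_c]
      exact (h5 _ (by rw [List.length_map, List.length_take]; omega)
        (SmL.sub' hs' fun y hy => by
          rw [List.map_take] at hy
          exact List.mem_of_mem_take hy)).symm
    rw [e3]
    rw [e4, e5] at e2
    linear_combination e1 - e2
  have hfe := (hE f hfc).mono (show H892.fbr π (X t) x ⊆ X t from fun w hw => hw.1)
  refine exL_congr_dl hfe fun l hl hm => ?_
  have hvt : ∀ w ∈ l, π w = x := fun w hw => (hm w hw).2
  have e1 : (D e π η ξ ((0, a', c') : T3 k M E)).1 l = 0 := by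
    rw [D_f]
    have e2 : a' (l.map π) = 0 := by
      rw [vert_map hvt]
      exact na _ (not_chain_replicate (by omega))
    have e3 : rc e π c' η l = 0 := by
      unfold rc
      rw [vert_map (x := x) (fun w hw => hvt w (List.mem_of_mem_take hw)),
        nc _ (not_chain_replicate (by rw [List.length_take]; omega)), zero_mul]
    show dl (fun _ => (0 : k)) l - a' (l.map π) - rc e π c' η l = 0
    rw [dl_zero_fun, e2, e3]
    ring
  show v x l = u.1 l - (D e π η ξ ((0, a', c') : T3 k M E)).1 l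
  rw [e1, sub_zero, hu l x hl hvt]

end K3

end Vale.Agent.P216.H977C
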