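import Vale.Agent.P216.H977C.Mk5
import Vale.Agent.P216.H456D.MidF
import Vale.Agent.P216.H971.LowGood
import Vale.Agent.P216.H892.FamPF
import Vale.Agent.P216.H934D.BaseLow
import Vale.Agent.P216.H994.EtaNeF

/-!
# P216-D, block MID: R2 for the paths, `H^q(Ω) = 0` (stably) for `d - 1 < q < d (h + 1) - 2`
-/

set_option linter.all false

open Set BoundedContinuousFunction

namespace Vale.Agent.P216.H977C

open Vale.Agent.P216.Sl Vale.Agent.P216.PS Vale.Agent.P216.E2L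
open Vale.Agent.P216.MV337 (evz)
open Vale.Agent.P216.H456 (PF PF_mono)
open Vale.Agent.P216.N929 (Coc Fine)

namespace K3

variable {k : Type} [Field k] {M : Type} [MetricSpace M] [CompactSpace M] {e : ℕ}
  {η : List (ℝ →ᵇ M) → k} {ξ : List M → k} {b x₀ : M} {t T s ε : ℝ}

theorem dist_evz (w w' : ℝ →ᵇ M) : dist (evz w) (evz w') ≤ dist w w' :=
  BoundedContinuousFunction.dist_coe_le_dist 0

/-- The data of the class `η` of `ξ₀`, `ξ = (-1)^d ξ₀`. -/
theorem data_eta {d N : ℕ} {ξ₀ : List M → k} (hd : 2 ≤ d) (hε : 0 < ε) (hN : Nrm ξ₀)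
    (hc : Coc (univ : Set M) ε d ξ₀) (hNε : 1 / ((N : ℝ) + 1) < ε / 4) (b : M) (T : ℝ) :
    Data evz (d - 1) (H140.eta N ξ₀) (fun l => (-1 : k) ^ d * ξ₀ l) (PF b T) (ε / 4) := by
  obtain ⟨h1, h2, -⟩ := etaOut k M d N ε ξ₀ hd hε hN hc hNε
  refine ⟨by positivity, by omega, dist_evz, hN.smul _, fun l hl hs => ?_, fun l hl hs => ?_⟩
  · exact h2 b T l (by omega) hs
  · rw [dl_mul_left, hc l (by omega) (hs.mono subset_rfl (by linarith)), mul_zero]

/-- Sums with coefficients. -/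
theorem exL_comb {E : Type} [PseudoMetricSpace E] {X : Set E} {q : ℕ} {f g : List E → k}
    (hf : ExL X q f) (hg : ExL X q g) (a c : k) : ExL X q fun l => a * f l + c * g l := by
  obtain ⟨u, hu, r, hr, h⟩ := hf
  obtain ⟨v, hv, r', hr', h'⟩ := hg
  refine ⟨fun l => a * u l + c * v l, fun h0 l => by
    change a * u l + c * v l = 0
    rw [hu h0, hv h0]; ring, min r r',
    lt_min hr hr', fun l hl hs => ?_⟩
  rw [Sl.dl_add, Sl.dl_mul_left, Sl.dl_mul_left]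
  change a * f l + c * g l = _
  rw [h l hl (hs.mono subset_rfl (min_le_left _ _)),
    h' l hl (hs.mono subset_rfl (min_le_right _ _))]

/-- **R2, one degree.** -/
theorem r2_step {q : ℕ} {t₀ β Cf : ℝ} (ht₀ : 0 ≤ t₀) (hβ : 0 ≤ β) (hCf : 0 ≤ Cf)
    (H : ∀ T, Data evz e η ξ (PF b T) ε) (hne0 : ∀ x, ∃ w ∈ PF b t₀, evz w = x)
    (hne : FibNe evz e η (PF b t₀)) (hq : e < q)
    (hS : ∀ m, 1 ≤ m → m ≤ q → ∀ t, t₀ ≤ t → FibS evz e η ξ (PF b (t + β)) (PF b t) m)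
    (hB : BaseEx ξ e q)
    (hfam : ∀ t > 0, ∀ z : List (ℝ →ᵇ M) → k, CocL (P x₀ b (t + Cf)) q z →
      ∃ V, FamV evz univ (PF b t) q V ∧ ExL (P x₀ b t) q fun l => V x₀ l - z l)
    (ht : 0 < t) {z : List (ℝ →ᵇ M) → k} (hz : CocL (P x₀ b (t + (t₀ + q * β + Cf))) q z) :
    ExL (P x₀ b t) q z := by
  have hqβ : 0 ≤ (q : ℝ) * β := by positivity
  obtain ⟨V, hV, hVz⟩ := hfam (t₀ + t + q * β) (by linarith) z (by
    rwa [show t₀ + t + q * β + Cf = t + (t₀ + q * β + Cf) by ring])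
  have h1 := r2core (X := fun t => PF b t) (fun s t h => PF_mono h) hβ (H (t₀ + t + q * β)) hne0
    hne hq (fun m h1 h2 t ht _ => hS m h1 h2 t ht) hB (t := t₀ + t) (by linarith) le_rfl
    (fun f hf => H971.Low.exL_PF b (by linarith) (by omega) hf) hV x₀
  rw [H456D.fbr_PF] at h1
  have h2 := hVz.mono (P_mono (show t₀ + t ≤ t₀ + t + q * β by linarith))
  have h3 := exL_comb h1 h2 1 (-1)
  have h4 : (fun l => (1 : k) * V x₀ l + -1 * (V x₀ l - z l)) = z := by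
    funext l
    ring
  rw [h4] at h3
  exact h3.mono (P_mono (by linarith))


theorem ne_xi {d h : ℕ} (hh : 1 ≤ h) (B : H934D.BaseK k M d h) : ¬ ExL (univ : Set M) d B.ξ := by
  intro hx
  refine B.ne 1 hh ?_
  rw [mul_one]
  refine exL_congr_dl hx fun l hl _ => ?_
  show cup d B.ξ (fun l => if l.length = 1 then 1 else 0) l = _
  rw [cup, if_pos (by rw [List.length_drop]; omega), mul_one, List.take_of_length_le (by omega)]

theorem LowL.mono {B B' : ℝ} {i : ℕ} (h : LowL k M B i) (hB : B ≤ B') : LowL k M B' i :=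
  fun a b t ht f f' nf nf' hf hf' => h a b t ht f f' nf nf'
    (hf.mono (P_mono (by linarith))) (hf'.mono (P_mono (by linarith)))

theorem LowZ.ex {B : ℝ} {i : ℕ} (h : LowZ k M B i) (hi : 0 < i) (a b : M) (hs : 0 ≤ s)
    (hB : 0 ≤ B) {F : List (ℝ →ᵇ M) → k} (hF : CocL (P a b (s + B)) i F) : ExL (P a b s) i F := by
  obtain ⟨g, ng, hg, he⟩ := H971.Low.exists_nrm hF
  have h1 := H971.Low.exC_of_exL (h a b s hs g ng hg)
  refine H971.Low.ExC.exL (((he.mono (P_mono (by linarith))).add h1).congr fun l _ => ?_) hi.ne'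
  ring

end K3

/-- The stable vanishing of the cohomology of the paths from `x₀` to `b` in the degrees
`d - 1 < q < Q`, at a delay which does not depend on the field. -/
def VanP (Kf : Fld) {M : Type} [MetricSpace M] (x₀ b : M) (d Q : ℕ) (B : ℝ) : Prop :=
  ∀ (k : Type) [Field k], Kf k → ∀ q, d - 1 < q → q < Q → ∀ t > 0, ∀ F : List (ℝ →ᵇ M) → k,
    CocL (P x₀ b (t + B)) q F → ExL (P x₀ b t) q F

theorem VanP.mono {Kf : Fld} {M : Type} [MetricSpace M] {x₀ b : M} {d Q Q' : ℕ} {B B' : ℝ}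
    (h : VanP Kf x₀ b d Q B) (hQ : Q' ≤ Q) (hB : B ≤ B') : VanP Kf x₀ b d Q' B' :=
  fun k _ hk q h1 h2 t ht F hF => h k hk q h1 (by omega) t ht F
    (hF.mono (P_mono (by linarith)))

section

variable {Kf : Fld} {M : Type} [MetricSpace M] [CompactSpace M] {d h : ℕ} {x₀ b : M} {c r0 Dp B0 B t₀ : ℝ}
  {φ ψ : M → ℝ → (ℝ →ᵇ M) → ℝ →ᵇ M} {Q : ℕ}

/-- The fibre steps in the degrees `< Q`. -/
theorem fibS_of_van (U : H892.FibU evz (fun t => PF b t) (fun t => P x₀ b t) c r0 φ ψ)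
    (hD : IsPi M Dp) (hd : 2 ≤ d) (hB0 : 0 ≤ B0) (hL : LowK Kf M (d - 1) B0) (hB : 0 ≤ B)
    (hV : VanP Kf x₀ b d Q B) (ht₀ : 0 < t₀) {k : Type} [Field k] (hk : Kf k)
    {η : List (ℝ →ᵇ M) → k} {ξ : List M → k} {ε : ℝ}
    (H : ∀ T, K3.Data evz (d - 1) η ξ (PF b T) ε) (Hne : ∀ x, ¬ ExL (P x b t₀) (d - 1) η) :
    ∀ m, 1 ≤ m → m ≤ Q → ∀ t, t₀ ≤ t →
      K3.FibS evz (d - 1) η ξ (PF b (t + (2 * c + Dp + (B0 + B)))) (PF b t) m := by
  intro m hm hmQ t ht
  have ht0 : 0 < t := ht₀.trans_le ht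
  refine H456D.fibS_PF U hD (B0 := B0 + B) (by positivity) le_rfl le_rfl ht0 hm
    (fun h1 h2 s hs F hF => ?_) (fun _ => K3.LowL.mono ((hL k hk).1 _ (by omega) le_rfl)
      (by linarith)) (H _) fun _ x hx => Hne x (hx.mono (P_mono ht))
  rcases lt_or_gt_of_ne (show m - 1 ≠ d - 1 by omega) with h3 | h3
  · exact K3.LowZ.ex ((hL k hk).2 _ (by omega) h3) (by omega) x₀ b hs.le hB0
      (hF.mono (P_mono (by linarith)))
  · exact hV k hk _ h3 (by omega) s hs F (hF.mono (P_mono (by linarith)))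

end

/-- **R2**: the paths have no cohomology in the degrees `d - 1 < q < d (h + 1) - 2`. -/
theorem exists_van {Kf : Fld} {M : Type} [MetricSpace M] [CompactSpace M]
    [SimplyConnectedSpace M] {ρ : ℝ} (hρ : 0 < ρ) (hU : LS.UniqSeg M ρ) {d h : ℕ} (hd : 2 ≤ d)
    (hh : 1 ≤ h) (hb : ∀ (k : Type) [Field k], Kf k → Nonempty (H934D.BaseK k M d h))
    (hBE : ∀ (k : Type) [Field k], Kf k → ∀ (B : H934D.BaseK k M d h) (q : ℕ), d - 1 < q →
      q + 2 < d * (h + 1) → K3.BaseEx (fun l => (-1 : k) ^ d * B.ξ l) (d - 1) q) (x₀ b : M) :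
    ∀ Q, Q + 1 < d * (h + 1) → ∃ B, 0 ≤ B ∧ VanP Kf x₀ b d Q B := by
  obtain ⟨B0, hB0, hL⟩ := H934D.lowK_of_base Kf hρ hU (by omega) hh hb
  obtain ⟨s, hs, hE⟩ := H994.etaNeK_of_low hρ hU hd hB0 hL
  obtain ⟨Dp, hDp, hne, hj⟩ := H250.pi0 hρ hU
  have hD : IsPi M Dp := ⟨hDp, hne, hj⟩
  obtain ⟨c, r0, hF⟩ := H971.Low.exists_fibPF hρ hU x₀
  obtain ⟨φ, ψ, U, -⟩ := hF b
  obtain ⟨Cf, hCf, hfam⟩ := H892.famV_PF hρ hU x₀ b
  intro Q
  induction Q with
  | zero => exact fun _ => ⟨0, le_rfl, fun k _ _ q _ h => absurd h (by omega)⟩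
  | succ Q ih =>
    intro hQ
    obtain ⟨B, hB, hV⟩ := ih (by omega)
    by_cases hdQ : d - 1 < Q
    · set t₀ : ℝ := max (max s Dp) 1 with ht₀
      set β : ℝ := 2 * c + Dp + (B0 + B) with hβ
      have hc := U.hc
      have hβ0 : 0 ≤ β := by positivity
      have ht0 : 0 < t₀ := lt_of_lt_of_le one_pos (le_max_right _ _)
      have hqβ : 0 ≤ (Q : ℝ) * β := by positivity
      refine ⟨max B (t₀ + Q * β + Cf), le_max_of_le_left hB, fun k _ hk q h1 h2 t ht F hF => ?_⟩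
      rcases lt_or_ge q Q with hq | hq
      · exact hV k hk q h1 hq t ht F (hF.mono (P_mono (by
          have := le_max_left B (t₀ + Q * β + Cf)
          linarith)))
      · obtain rfl : q = Q := by omega
        obtain ⟨Bk⟩ := hb k hk
        obtain ⟨N, hN⟩ := exists_nat_one_div_lt (show (0 : ℝ) < Bk.ε / 4 by linarith [Bk.hε])
        have hxi := K3.ne_xi hh Bk
        have Hne : ∀ x, ¬ ExL (P x b t₀) (d - 1) (H140.eta N Bk.ξ) := fun x hx =>
          hE k hk Bk.ξ Bk.ε Bk.hε Bk.nξ Bk.cξ hxi N hN x b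
            (hx.mono (P_mono ((le_max_left _ _).trans (le_max_left _ _))))
        have H := fun T => K3.data_eta hd Bk.hε Bk.nξ Bk.cξ hN b T
        refine K3.r2_step (x₀ := x₀) ht0.le hβ0 hCf H
          (H456D.ne_PF hD ((le_max_right s Dp).trans (le_max_left _ _)))
          (H456D.fibNe_PF (by omega) Hne) hdQ
          (fibS_of_van U hD hd hB0 hL hB hV ht0 hk H Hne)
          (hBE k hk Bk q h1 (by omega)) (fun t ht z hz => hfam k q (by omega) t ht z hz) ht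
          (hF.mono (P_mono ?_))
        have := le_max_right B (t₀ + q * β + Cf)
        linarith
    · exact ⟨B, hB, fun k _ hk q h1 h2 => absurd h1 (by omega)⟩

end Vale.Agent.P216.H977C
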