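import Vale.Agent.P216.H977C.Mk6

/-!
# P216-D, block MID: R3 for the paths to a point

`exists_fibS`: the fibre steps for the paths to `b` in all the degrees `< d (h + 1) - 2`, with
constants which do not depend on the field. `exists_r3`: a closed triple of degree
`D = d (h + 1) - 2` whose `f`-component is exact on all the fibres is exact.
-/

set_option linter.all false

open Set BoundedContinuousFunction

namespace Vale.Agent.P216.H977C

open Vale.Agent.P216.Sl Vale.Agent.P216.PS Vale.Agent.P216.E2L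
open Vale.Agent.P216.MV337 (evz)
open Vale.Agent.P216.H456 (PF PF_mono)

/-- Input [BASE-EX] for a class of fields. -/
def BaseExK (Kf : Fld) (M : Type) [MetricSpace M] (d h : ℕ) : Prop :=
  ∀ (k : Type) [Field k], Kf k → ∀ (B : H934D.BaseK k M d h) (q : ℕ), d - 1 < q →
    q + 2 < d * (h + 1) → K3.BaseEx (fun l => (-1 : k) ^ d * B.ξ l) (d - 1) q

section

variable {Kf : Fld} {M : Type} [MetricSpace M] [CompactSpace M] [SimplyConnectedSpace M] {ρ : ℝ}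
  {d h : ℕ}

/-- **The fibre steps for the paths to `b`.** -/
theorem exists_fibS (hρ : 0 < ρ) (hU : LS.UniqSeg M ρ) (hd : 2 ≤ d)
    (hh : 1 ≤ h) (hb : ∀ (k : Type) [Field k], Kf k → Nonempty (H934D.BaseK k M d h))
    (hBE : BaseExK Kf M d h) (b : M) : ∃ t₁ β : ℝ, 0 < t₁ ∧ 0 ≤ β ∧
      (∀ x, ∃ w ∈ PF b t₁, evz w = x) ∧ ∀ (k : Type) [Field k], Kf k →
        (∀ (η : List (ℝ →ᵇ M) → k) (ξ : List M → k) (ε t₀ : ℝ), t₁ ≤ t₀ →
          (∀ T, K3.Data evz (d - 1) η ξ (PF b T) ε) → (∀ x, ¬ ExL (P x b t₀) (d - 1) η) →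
            ∀ m, 1 ≤ m → m + 1 < d * (h + 1) → ∀ t, t₀ ≤ t →
              K3.FibS evz (d - 1) η ξ (PF b (t + β)) (PF b t) m) ∧
        ∀ q t, t₁ ≤ t → K3.FibLoc k evz (PF b (t + β)) (PF b t) q := by
  obtain ⟨B0, hB0, hL⟩ := H934D.lowK_of_base Kf hρ hU (by omega) hh hb
  obtain ⟨Dp, hDp, hne, hj⟩ := H250.pi0 hρ hU
  have hD : IsPi M Dp := ⟨hDp, hne, hj⟩
  obtain ⟨c, r0, hF⟩ := H971.Low.exists_fibPF hρ hU b
  obtain ⟨φ, ψ, U, -⟩ := hF b
  have hdh : d * 1 ≤ d * h := Nat.mul_le_mul_left d hh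
  have hdh' : d * (h + 1) = d * h + d := by ring
  obtain ⟨B, hB, hV⟩ := exists_van hρ hU hd hh hb hBE b b (d * (h + 1) - 2) (by omega)
  have hc := U.hc
  refine ⟨max Dp 1, 2 * c + Dp + (B0 + B), lt_of_lt_of_le one_pos (le_max_right _ _),
    by positivity, H456D.ne_PF hD (le_max_left _ _), fun k _ hk => ⟨?_, ?_⟩⟩
  · intro η ξ ε t₀ ht₀ H Hne m hm hmD t ht
    exact fibS_of_van U hD hd hB0 hL hB hV (lt_of_lt_of_le one_pos ((le_max_right _ _).trans ht₀))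
      hk H Hne m hm (by omega) t ht
  · intro q t ht
    exact H456D.fibLoc_PF U (lt_of_lt_of_le one_pos ((le_max_right _ _).trans ht))
      (by linarith) q

/-- **R3 for the paths to `b`**: a closed triple of degree `D`, `D + 2 = d (h + 1)`, whose
`f`-component is exact on all the fibres is exact. -/
theorem exists_r3 (hρ : 0 < ρ) (hU : LS.UniqSeg M ρ) (hd : 2 ≤ d)
    (hh : 1 ≤ h) (hb : ∀ (k : Type) [Field k], Kf k → Nonempty (H934D.BaseK k M d h))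
    (hBE : BaseExK Kf M d h) (b : M) {D : ℕ} (hD : D + 2 = d * (h + 1)) :
    ∃ t₁ C : ℝ, 0 < t₁ ∧ 0 ≤ C ∧ (∀ x, ∃ w ∈ PF b t₁, evz w = x) ∧
      ∀ (k : Type) [Field k], Kf k →
        ∀ (η : List (ℝ →ᵇ M) → k) (ξ : List M → k) (ε t₀ : ℝ), t₁ ≤ t₀ →
          (∀ T, K3.Data evz (d - 1) η ξ (PF b T) ε) → (∀ x, ¬ ExL (P x b t₀) (d - 1) η) →
            ∀ t, t₀ ≤ t → ∀ v : K3.T3 k M (ℝ →ᵇ M), K3.Good v →
              K3.GZ (d - 1) (PF b (t + C)) (D + 2) (K3.D (d - 1) evz η ξ v) →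
                (∀ x, ExL (P x b (t + C)) D v.1) →
                  ∃ u, K3.Good u ∧ K3.GZ (d - 1) (PF b t) (D + 1) (v - K3.D (d - 1) evz η ξ u) := by
  obtain ⟨t₁, β, ht₁, hβ, hne, H⟩ := exists_fibS hρ hU hd hh hb hBE b
  refine ⟨t₁, (D + 1 : ℕ) * β, ht₁, by positivity, hne, fun k _ hk η ξ ε t₀ ht₀ Hd Hne t ht v gv hv
    hfib => ?_⟩
  obtain ⟨HS, HL⟩ := H k hk
  refine K3.exact_of_fibres (X := fun t => PF b t) (fun s t h => PF_mono h) hβ
    (Hd (t + (D + 1 : ℕ) * β)) (t₀ := t₀)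
    (fun x => ?_) (H456D.fibNe_PF (by omega) Hne) (m := D + 1) (by omega)
    (fun j hj hjD t ht _ => HS η ξ ε t₀ ht₀ Hd Hne j hj (by omega) t ht)
    (fun t ht _ => HL _ t (ht₀.trans ht)) ht le_rfl gv hv fun x => ?_
  · obtain ⟨w, hw, hx⟩ := hne x
    exact ⟨w, PF_mono ht₀ hw, hx⟩
  · rw [H456D.fbr_PF]
    exact hfib x

end

end Vale.Agent.P216.H977C
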