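import Vale.Agent.P216.H977C.Mk3
import Vale.Agent.P216.H892.FibU
import Vale.Agent.P216.H977C.OmD

/-!
# P216-D, block MID: exact statements of the pieces
-/

set_option linter.all false

open Set

namespace Vale.Agent.P216.H977C

open Vale.Agent.P216.Sl Vale.Agent.P216.PS Vale.Agent.P216.E2L

namespace K3

variable {k : Type} [Field k] {M E : Type} [PseudoMetricSpace M] [PseudoMetricSpace E]

/-- **[BASE-EX]** the base complex `C^*(M) ⊕ C^{*-e}(M)`, `(a, c) ↦ -(da ± c ∪ ξ, dc)`, is exact in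
degree `q + 1` (`a` of degree `q + 1`, `c` of degree `q + 1 - e`). -/
def BaseEx (ξ : List M → k) (e q : ℕ) : Prop := ∀ a c : List M → k, a [] = 0 → c [] = 0 →
  Nrm a → Nrm c →
  (∃ r > 0, (∀ ys, ys.length = q + 3 → SmL (univ : Set M) r ys →
      dl a ys + (-1 : k) ^ (ys.length - e) * rc (e + 1) id c ξ ys = 0) ∧
    ∀ ys, ys.length = q + 3 - e → SmL (univ : Set M) r ys → dl c ys = 0) →
  ∃ a' c' : List M → k, a' [] = 0 ∧ c' [] = 0 ∧ Nrm a' ∧ Nrm c' ∧
    ∃ r > 0, (∀ ys, ys.length = q + 2 → SmL (univ : Set M) r ys →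
      a ys = -(dl a' ys + (-1 : k) ^ (ys.length - e) * rc (e + 1) id c' ξ ys)) ∧
    ∀ ys, ys.length = q + 2 - e → SmL (univ : Set M) r ys → c ys = -dl c' ys

/-- **[LOC]** closed near `x`, exact on the vertical fibre over `x` ⇒ exact near `x`
(degree `q`, i.e. lists of length `q + 1`; at any scale). -/
def FibLoc (k : Type) [Field k] (π : E → M) (X X' : Set E) (q : ℕ) : Prop :=
  ∀ r > 0, ∃ r' > 0, ∀ (x : M) (xs : List M), SmL univ r' (x :: xs) → ∀ f : List E → k,
    (∀ ws, ws.length = q + 2 → Dom π univ X r (x :: xs) ws → dl f ws = 0) →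
      ExL (H892.fbr π X x) q f → ∃ g : List E → k, (q = 0 → ∀ l, g l = 0) ∧
        ∀ ws, ws.length = q + 1 → Dom π univ X' r' (x :: xs) ws → f ws = dl g ws

end K3

end Vale.Agent.P216.H977C
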